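import Mathlib

open MeasureTheory Set
open scoped ENNReal Pointwise

namespace Vale.Agent.P226

/-- One-dimensional Brunn–Minkowski inequality for compact sets. -/
lemma volume_add_le_of_isCompact {A B : Set ℝ} (hA : IsCompact A) (hB : IsCompact B)
    (hA0 : A.Nonempty) (hB0 : B.Nonempty) : volume A + volume B ≤ volume (A + B) := by
  have ha := hA.sSup_mem hA0
  have hb := hB.sInf_mem hB0
  set a := sSup A
  set b := sInf B
  have hS : (fun x => x + b) '' A ⊆ A + B := by
    rintro _ ⟨x, hx, rfl⟩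
    exact Set.add_mem_add hx hb
  have hT : (fun y => a + y) '' B ⊆ A + B := by
    rintro _ ⟨y, hy, rfl⟩
    exact Set.add_mem_add ha hy
  have hmS : volume ((fun x => x + b) '' A) = volume A := by
    simp
  have hmT : volume ((fun y => a + y) '' B) = volume B := by
    simp
  have hmeas : MeasurableSet ((fun y => a + y) '' B) :=
    (hB.image (by fun_prop)).measurableSet
  have hI : volume ((fun x => x + b) '' A ∩ (fun y => a + y) '' B) = 0 := by
    apply measure_mono_null (t := {a + b})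
    · rintro z ⟨⟨x, hx, hxz⟩, ⟨y, hy, hyz⟩⟩
      simp only at hxz hyz
      have h1 : x ≤ a := le_csSup hA.bddAbove hx
      have h2 : b ≤ y := csInf_le hB.bddBelow hy
      have : z = a + b := by linarith
      exact this
    · simp
  calc volume A + volume B
      = volume ((fun x => x + b) '' A) + volume ((fun y => a + y) '' B) := by rw [hmS, hmT]
    _ = volume ((fun x => x + b) '' A ∪ (fun y => a + y) '' B)
        + volume ((fun x => x + b) '' A ∩ (fun y => a + y) '' B) :=
        (measure_union_add_inter _ hmeas).symm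
    _ = volume ((fun x => x + b) '' A ∪ (fun y => a + y) '' B) := by rw [hI, add_zero]
    _ ≤ volume (A + B) := measure_mono (union_subset hS hT)

/-- One-dimensional Brunn–Minkowski inequality for measurable sets. -/
lemma volume_add_le {A B : Set ℝ} (hA : MeasurableSet A) (hB : MeasurableSet B)
    (hA0 : A.Nonempty) (hB0 : B.Nonempty) : volume A + volume B ≤ volume (A + B) := by
  obtain ⟨a0, ha0⟩ := hA0
  obtain ⟨b0, hb0⟩ := hB0
  rw [hA.measure_eq_iSup_isCompact, hB.measure_eq_iSup_isCompact]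
  simp only [iSup_and']
  apply ENNReal.biSup_add_biSup_le' (p := fun K : Set ℝ => K ⊆ A ∧ IsCompact K)
    (q := fun K : Set ℝ => K ⊆ B ∧ IsCompact K) ⟨∅, empty_subset _, isCompact_empty⟩
    ⟨∅, empty_subset _, isCompact_empty⟩
  rintro K ⟨hK, hKc⟩ L ⟨hL, hLc⟩
  have h1 : volume K + volume L ≤ volume (insert a0 K) + volume (insert b0 L) :=
    add_le_add (measure_mono (subset_insert _ _)) (measure_mono (subset_insert _ _))
  refine h1.trans ((volume_add_le_of_isCompact (hKc.insert a0) (hLc.insert b0)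
    (insert_nonempty _ _) (insert_nonempty _ _)).trans (measure_mono ?_))
  apply Set.add_subset_add
  · exact insert_subset ha0 hK
  · exact insert_subset hb0 hL

/-- Normalized one-dimensional Prékopa–Leindler inequality. -/
lemma pl_one_normalized {c : ℝ} (hc0 : 0 < c) (hc1 : c < 1) {f g h : ℝ → ℝ}
    (hf : Measurable f) (hg : Measurable g) (hh : Measurable h)
    (f0 : ∀ x, 0 ≤ f x) (g0 : ∀ x, 0 ≤ g x) (h0 : ∀ x, 0 ≤ h x)
    (f1 : ∀ x, f x ≤ 1) (g1 : ∀ x, g x ≤ 1)
    (fs : ∀ t < 1, ∃ x, t < f x) (gs : ∀ t < 1, ∃ x, t < g x)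
    (H : ∀ t, 0 < t → t < 1 → ∀ x y, t < f x → t < g y → t < h ((1-c) * x + c * y)) :
    ENNReal.ofReal (1-c) * (∫⁻ x, ENNReal.ofReal (f x))
      + ENNReal.ofReal c * (∫⁻ x, ENNReal.ofReal (g x)) ≤ ∫⁻ x, ENNReal.ofReal (h x) := by
  rw [lintegral_eq_lintegral_meas_lt _ (Filter.Eventually.of_forall f0) hf.aemeasurable,
    lintegral_eq_lintegral_meas_lt _ (Filter.Eventually.of_forall g0) hg.aemeasurable,
    lintegral_eq_lintegral_meas_lt _ (Filter.Eventually.of_forall h0) hh.aemeasurable]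
  have key : ∀ (u : ℝ → ℝ), (∀ x, u x ≤ 1) → ∫⁻ t in Ioi (0:ℝ), volume {a : ℝ | t < u a}
      = ∫⁻ t in Ioo (0:ℝ) 1, volume {a : ℝ | t < u a} := by
    intro u hu
    have : Ioi (0:ℝ) = Ioo 0 1 ∪ Ici 1 := by
      ext x; simp only [mem_Ioi, mem_union, mem_Ioo, mem_Ici]
      constructor
      · intro hx
        by_cases h2 : x < 1
        · exact Or.inl ⟨hx, h2⟩
        · exact Or.inr (not_lt.mp h2)
      · rintro (h2 | h2)
        · exact h2.1
        · linarith
    rw [this, lintegral_union measurableSet_Ici]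
    · have hz : ∫⁻ t in Ici (1:ℝ), volume {a : ℝ | t < u a} = 0 := by
        rw [setLIntegral_congr_fun (g := fun _ => 0) measurableSet_Ici]
        · simp
        · intro t ht
          have : {a : ℝ | t < u a} = ∅ := by
            ext a; simp only [mem_ofPred_eq, mem_empty_iff_false, iff_false, not_lt]
            exact (hu a).trans ht
          simp [this]
      rw [hz, add_zero]
    · rw [Set.disjoint_left]
      intro x hx hx2
      exact absurd hx.2 (not_lt.mpr hx2)
  rw [key f f1, key g g1]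
  have h2 : ∫⁻ t in Ioo (0:ℝ) 1, volume {a : ℝ | t < h a} ≤
      ∫⁻ t in Ioi (0:ℝ), volume {a : ℝ | t < h a} :=
    lintegral_mono_set Ioo_subset_Ioi_self
  refine le_trans ?_ h2
  have mf : Measurable (fun t : ℝ => volume {a : ℝ | t < f a}) :=
    Antitone.measurable (fun s t hst => measure_mono (fun a ha => lt_of_le_of_lt hst ha))
  have mg : Measurable (fun t : ℝ => volume {a : ℝ | t < g a}) :=
    Antitone.measurable (fun s t hst => measure_mono (fun a ha => lt_of_le_of_lt hst ha))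
  rw [← lintegral_const_mul _ mf, ← lintegral_const_mul _ mg, ← lintegral_add_left (mf.const_mul _)]
  apply setLIntegral_mono' measurableSet_Ioo
  intro t ht
  have hsub : (1-c) • {a : ℝ | t < f a} + c • {a : ℝ | t < g a} ⊆ {a : ℝ | t < h a} := by
    rintro _ ⟨_, ⟨x, hx, rfl⟩, _, ⟨y, hy, rfl⟩, rfl⟩
    simp only [smul_eq_mul, mem_ofPred_eq]
    exact H t ht.1 ht.2 x y hx hy
  have hmf : MeasurableSet {a : ℝ | t < f a} := measurableSet_lt measurable_const hf
  have hmg : MeasurableSet {a : ℝ | t < g a} := measurableSet_lt measurable_const hg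
  have hA : volume ((1-c) • {a : ℝ | t < f a}) = ENNReal.ofReal (1-c) * volume {a : ℝ | t < f a} := by
    rw [Measure.addHaar_smul]
    simp [abs_of_pos (by linarith : 0 < 1 - c)]
  have hB : volume (c • {a : ℝ | t < g a}) = ENNReal.ofReal c * volume {a : ℝ | t < g a} := by
    rw [Measure.addHaar_smul]
    simp [abs_of_pos hc0]
  rw [← hA, ← hB]
  refine le_trans (volume_add_le ?_ ?_ ?_ ?_) (measure_mono hsub)
  · exact hmf.const_smul₀ (1-c)
  · exact hmg.const_smul₀ c
  · obtain ⟨x, hx⟩ := fs t ht.2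
    exact ⟨_, Set.smul_mem_smul_set hx⟩
  · obtain ⟨x, hx⟩ := gs t ht.2
    exact ⟨_, Set.smul_mem_smul_set hx⟩

/-- weighted AM-GM in `ℝ≥0∞`. -/
lemma ennreal_geom_mean_le {c : ℝ} (hc0 : 0 < c) (hc1 : c < 1) (a b : ℝ≥0∞) :
    a ^ (1-c) * b ^ c ≤ ENNReal.ofReal (1-c) * a + ENNReal.ofReal c * b := by
  have h1c : 0 < 1 - c := by linarith
  rcases eq_or_ne a ∞ with rfl | ha
  · have : ENNReal.ofReal (1-c) * ∞ = ∞ := ENNReal.mul_top (by simpa using hc1)
    rw [this]; simp
  rcases eq_or_ne b ∞ with rfl | hb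
  · have : ENNReal.ofReal c * ∞ = ∞ := ENNReal.mul_top (by simpa using hc0)
    rw [this]; simp
  lift a to NNReal using ha
  lift b to NNReal using hb
  have h := NNReal.geom_mean_le_arith_mean2_weighted (Real.toNNReal (1-c)) (Real.toNNReal c) a b
    (by rw [← Real.toNNReal_add h1c.le hc0.le]; simp)
  rw [Real.coe_toNNReal _ h1c.le, Real.coe_toNNReal _ hc0.le] at h
  rw [← ENNReal.coe_rpow_of_nonneg _ h1c.le, ← ENNReal.coe_rpow_of_nonneg _ hc0.le]
  unfold ENNReal.ofReal
  exact_mod_cast h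

/-- The Prékopa–Leindler property of a measure on a real vector space. -/
def PLprop {E : Type*} [AddCommGroup E] [Module ℝ E] [MeasurableSpace E] (μ : Measure E) : Prop :=
  ∀ (c : ℝ), 0 < c → c < 1 → ∀ (f g h : E → ℝ≥0∞), Measurable f → Measurable g → Measurable h →
    (∀ x y, f x ^ (1-c) * g y ^ c ≤ h ((1-c) • x + c • y)) →
    (∫⁻ x, f x ∂μ) ^ (1-c) * (∫⁻ x, g x ∂μ) ^ c ≤ ∫⁻ x, h x ∂μ

/-- One-dimensional Prékopa–Leindler inequality for bounded functions. -/
lemma pl_one_bounded {c : ℝ} (hc0 : 0 < c) (hc1 : c < 1) {f g h : ℝ → ℝ≥0∞}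
    (hf : Measurable f) (hg : Measurable g) (hh : Measurable h)
    (hfb : ⨆ x, f x ≠ ∞) (hgb : ⨆ x, g x ≠ ∞)
    (H : ∀ x y, f x ^ (1-c) * g y ^ c ≤ h ((1-c) • x + c • y)) :
    (∫⁻ x, f x) ^ (1-c) * (∫⁻ x, g x) ^ c ≤ ∫⁻ x, h x := by
  have h1c : 0 < 1 - c := by linarith
  set a := ⨆ x, f x with ha
  set b := ⨆ x, g x with hb
  have hfa : ∀ x, f x ≤ a := fun x => le_iSup f x
  have hgb' : ∀ x, g x ≤ b := fun x => le_iSup g x
  rcases eq_or_ne a 0 with ha0 | ha0
  · have : ∫⁻ x, f x = 0 := by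
      have : f = fun _ => 0 := by
        ext x; exact le_antisymm ((hfa x).trans ha0.le) zero_le
      simp [this]
    rw [this, ENNReal.zero_rpow_of_pos h1c, zero_mul]; exact zero_le
  rcases eq_or_ne b 0 with hb0 | hb0
  · have : ∫⁻ x, g x = 0 := by
      have : g = fun _ => 0 := by
        ext x; exact le_antisymm ((hgb' x).trans hb0.le) zero_le
      simp [this]
    rw [this, ENNReal.zero_rpow_of_pos hc0, mul_zero]; exact zero_le
  set m : ℝ≥0∞ := a ^ (1-c) * b ^ c with hm
  have ham0 : a ^ (1-c) ≠ 0 := by simp [ENNReal.rpow_eq_zero_iff, ha0, h1c.le, hfb]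
  have hbm0 : b ^ c ≠ 0 := by simp [ENNReal.rpow_eq_zero_iff, hb0, hc0.le, hgb]
  have hamt : a ^ (1-c) ≠ ∞ := ENNReal.rpow_ne_top_of_nonneg h1c.le hfb
  have hbmt : b ^ c ≠ ∞ := ENNReal.rpow_ne_top_of_nonneg hc0.le hgb
  have hm0 : m ≠ 0 := mul_ne_zero ham0 hbm0
  have hmt : m ≠ ∞ := ENNReal.mul_ne_top hamt hbmt
  -- normalised functions
  let F : ℝ → ℝ := fun x => (f x / a).toReal
  let G : ℝ → ℝ := fun x => (g x / b).toReal
  let K : ℝ → ℝ := fun x => (min (h x / m) 1).toReal
  have hfa1 : ∀ x, f x / a ≤ 1 := fun x => ENNReal.div_le_of_le_mul (by simpa using hfa x)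
  have hgb1 : ∀ x, g x / b ≤ 1 := fun x => ENNReal.div_le_of_le_mul (by simpa using hgb' x)
  have hfat : ∀ x, f x / a ≠ ∞ := fun x => ne_top_of_le_ne_top ENNReal.one_ne_top (hfa1 x)
  have hgbt : ∀ x, g x / b ≠ ∞ := fun x => ne_top_of_le_ne_top ENNReal.one_ne_top (hgb1 x)
  have hKt : ∀ x, min (h x / m) 1 ≠ ∞ := fun x =>
    ne_top_of_le_ne_top ENNReal.one_ne_top (min_le_right _ _)
  have hF : Measurable F := (hf.div_const a).ennreal_toReal
  have hG : Measurable G := (hg.div_const b).ennreal_toReal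
  have hK : Measurable K := ((hh.div_const m).min measurable_const).ennreal_toReal
  have lt_iff : ∀ {u : ℝ≥0∞} {t : ℝ}, u ≠ ∞ → 0 ≤ t → (t < u.toReal ↔ ENNReal.ofReal t < u) := by
    intro u t hu ht
    rw [ENNReal.ofReal_lt_iff_lt_toReal ht hu]
  have hmain := pl_one_normalized hc0 hc1 hF hG hK (fun x => ENNReal.toReal_nonneg)
    (fun x => ENNReal.toReal_nonneg) (fun x => ENNReal.toReal_nonneg)
    (fun x => ENNReal.toReal_le_of_le_ofReal zero_le_one (by simpa using hfa1 x))
    (fun x => ENNReal.toReal_le_of_le_ofReal zero_le_one (by simpa using hgb1 x)) ?_ ?_ ?_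
  · have eF : ∫⁻ x, ENNReal.ofReal (F x) = (∫⁻ x, f x) / a := by
      simp only [F, ENNReal.ofReal_toReal (hfat _)]
      simp only [div_eq_mul_inv]
      rw [lintegral_mul_const _ hf]
    have eG : ∫⁻ x, ENNReal.ofReal (G x) = (∫⁻ x, g x) / b := by
      simp only [G, ENNReal.ofReal_toReal (hgbt _)]
      simp only [div_eq_mul_inv]
      rw [lintegral_mul_const _ hg]
    have eK : ∫⁻ x, ENNReal.ofReal (K x) ≤ (∫⁻ x, h x) / m := by
      simp only [K, ENNReal.ofReal_toReal (hKt _)]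
      calc ∫⁻ x, min (h x / m) 1 ≤ ∫⁻ x, h x / m := lintegral_mono (fun x => min_le_left _ _)
        _ = (∫⁻ x, h x) / m := by
          simp only [div_eq_mul_inv]
          rw [lintegral_mul_const _ hh]
    rw [eF, eG] at hmain
    have h1 := (ennreal_geom_mean_le hc0 hc1 ((∫⁻ x, f x) / a) ((∫⁻ x, g x) / b)).trans
      (hmain.trans eK)
    have h2 : ((∫⁻ x, f x) / a) ^ (1-c) * ((∫⁻ x, g x) / b) ^ c
        = ((∫⁻ x, f x) ^ (1-c) * (∫⁻ x, g x) ^ c) / m := by
      rw [ENNReal.div_rpow_of_nonneg _ _ h1c.le, ENNReal.div_rpow_of_nonneg _ _ hc0.le, hm]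
      rw [div_eq_mul_inv, div_eq_mul_inv, div_eq_mul_inv,
        ENNReal.mul_inv (Or.inl ham0) (Or.inl hamt)]
      ring
    rw [h2] at h1
    rw [ENNReal.div_le_iff hm0 hmt, ENNReal.div_mul_cancel hm0 hmt] at h1
    exact h1
  · intro t ht
    by_cases ht0 : 0 ≤ t
    · have : ENNReal.ofReal t * a < a := by
        calc ENNReal.ofReal t * a < 1 * a := by
              rw [ENNReal.mul_lt_mul_iff_left ha0 hfb]
              simpa using ht
          _ = a := one_mul a
      obtain ⟨x, hx⟩ := lt_iSup_iff.mp this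
      refine ⟨x, ?_⟩
      rw [lt_iff (hfat x) ht0, ENNReal.lt_div_iff_mul_lt (Or.inl ha0) (Or.inl hfb)]
      exact hx
    · exact ⟨0, lt_of_lt_of_le (not_le.mp ht0) ENNReal.toReal_nonneg⟩
  · intro t ht
    by_cases ht0 : 0 ≤ t
    · have : ENNReal.ofReal t * b < b := by
        calc ENNReal.ofReal t * b < 1 * b := by
              rw [ENNReal.mul_lt_mul_iff_left hb0 hgb]
              simpa using ht
          _ = b := one_mul b
      obtain ⟨x, hx⟩ := lt_iSup_iff.mp this
      refine ⟨x, ?_⟩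
      rw [lt_iff (hgbt x) ht0, ENNReal.lt_div_iff_mul_lt (Or.inl hb0) (Or.inl hgb)]
      exact hx
    · exact ⟨0, lt_of_lt_of_le (not_le.mp ht0) ENNReal.toReal_nonneg⟩
  · intro t ht0 ht1 x y hx hy
    rw [lt_iff (hfat x) ht0.le, ENNReal.lt_div_iff_mul_lt (Or.inl ha0) (Or.inl hfb)] at hx
    rw [lt_iff (hgbt y) ht0.le, ENNReal.lt_div_iff_mul_lt (Or.inl hb0) (Or.inl hgb)] at hy
    rw [lt_iff (hKt _) ht0.le, lt_min_iff]
    refine ⟨?_, by simpa using ht1⟩
    rw [ENNReal.lt_div_iff_mul_lt (Or.inl hm0) (Or.inl hmt)]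
    refine lt_of_lt_of_le ?_ (H x y)
    have ht : ENNReal.ofReal t * m = (ENNReal.ofReal t * a) ^ (1-c) * (ENNReal.ofReal t * b) ^ c := by
      rw [ENNReal.mul_rpow_of_nonneg _ _ h1c.le, ENNReal.mul_rpow_of_nonneg _ _ hc0.le, hm]
      have : ENNReal.ofReal t = ENNReal.ofReal t ^ (1-c) * ENNReal.ofReal t ^ c := by
        rw [← ENNReal.rpow_add_of_nonneg _ _ h1c.le hc0.le]; simp
      calc ENNReal.ofReal t * (a ^ (1-c) * b ^ c)
          = (ENNReal.ofReal t ^ (1-c) * ENNReal.ofReal t ^ c) * (a ^ (1-c) * b ^ c) := by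
            rw [← this]
        _ = _ := by ring
    rw [ht]
    apply ENNReal.mul_lt_mul
    · exact ENNReal.rpow_lt_rpow hx h1c
    · exact ENNReal.rpow_lt_rpow hy hc0

/-- The Prékopa–Leindler inequality on the real line. -/
theorem plprop_volume_real : PLprop (volume : Measure ℝ) := by
  intro c hc0 hc1 f g h hf hg hh H
  have h1c : 0 < 1 - c := by linarith
  have hfs : ∫⁻ x, f x = ⨆ n : ℕ, ∫⁻ x, min (f x) n := by
    rw [← lintegral_iSup]
    · congr 1; ext x
      rw [← inf_iSup_eq]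
      simp [ENNReal.iSup_natCast]
    · intro n; exact hf.min measurable_const
    · intro n m hnm x; exact min_le_min_left _ (by exact_mod_cast hnm)
  have hgs : ∫⁻ x, g x = ⨆ n : ℕ, ∫⁻ x, min (g x) n := by
    rw [← lintegral_iSup]
    · congr 1; ext x
      rw [← inf_iSup_eq]
      simp [ENNReal.iSup_natCast]
    · intro n; exact hg.min measurable_const
    · intro n m hnm x; exact min_le_min_left _ (by exact_mod_cast hnm)
  have hb : ∀ n : ℕ, (∫⁻ x, min (f x) n) ^ (1-c) * (∫⁻ x, min (g x) n) ^ c ≤ ∫⁻ x, h x := by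
    intro n
    apply pl_one_bounded hc0 hc1 (hf.min measurable_const) (hg.min measurable_const) hh
    · exact ne_top_of_le_ne_top (ENNReal.natCast_ne_top n) (iSup_le (fun x => min_le_right _ _))
    · exact ne_top_of_le_ne_top (ENNReal.natCast_ne_top n) (iSup_le (fun x => min_le_right _ _))
    · intro x y
      refine le_trans ?_ (H x y)
      gcongr
      · exact min_le_left _ _
      · exact min_le_left _ _
  have mf : Monotone (fun n : ℕ => ∫⁻ x, min (f x) n) := by
    intro n m hnm; exact lintegral_mono (fun x => min_le_min_left _ (by exact_mod_cast hnm))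
  have mg : Monotone (fun n : ℕ => ∫⁻ x, min (g x) n) := by
    intro n m hnm; exact lintegral_mono (fun x => min_le_min_left _ (by exact_mod_cast hnm))
  have e1 : (∫⁻ x, f x) ^ (1-c) = ⨆ n : ℕ, (∫⁻ x, min (f x) n) ^ (1-c) := by
    rw [hfs]; exact (ENNReal.orderIsoRpow (1-c) h1c).map_iSup _
  have e2 : (∫⁻ x, g x) ^ c = ⨆ n : ℕ, (∫⁻ x, min (g x) n) ^ c := by
    rw [hgs]; exact (ENNReal.orderIsoRpow c hc0).map_iSup _
  rw [e1, e2, ENNReal.iSup_mul]
  apply iSup_le; intro n
  rw [ENNReal.mul_iSup]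
  apply iSup_le; intro m
  refine le_trans ?_ (hb (max n m))
  gcongr
  · exact_mod_cast le_max_left n m
  · exact_mod_cast le_max_right n m

/-- Tensorization of the Prékopa–Leindler property. -/
theorem PLprop.prod {E F : Type*} [AddCommGroup E] [Module ℝ E] [MeasurableSpace E]
    [AddCommGroup F] [Module ℝ F] [MeasurableSpace F] {μ : Measure E} {ν : Measure F}
    [SFinite μ] [SFinite ν] (hμ : PLprop μ) (hν : PLprop ν) : PLprop (μ.prod ν) := by
  intro c hc0 hc1 f g h hf hg hh H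
  rw [lintegral_prod _ hf.aemeasurable, lintegral_prod _ hg.aemeasurable,
    lintegral_prod _ hh.aemeasurable]
  apply hμ c hc0 hc1 _ _ _ hf.lintegral_prod_right' hg.lintegral_prod_right'
    hh.lintegral_prod_right'
  intro x y
  apply hν c hc0 hc1 _ _ _ (hf.comp measurable_prodMk_left) (hg.comp measurable_prodMk_left)
    (hh.comp measurable_prodMk_left)
  intro x' y'
  exact H (x, x') (y, y')

/-- Transport of the Prékopa–Leindler property by a measurable linear map. -/
theorem PLprop.map {E F : Type*} [AddCommGroup E] [Module ℝ E] [MeasurableSpace E]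
    [AddCommGroup F] [Module ℝ F] [MeasurableSpace F] {μ : Measure E}
    (hμ : PLprop μ) (L : E →ₗ[ℝ] F) (hL : Measurable L) : PLprop (μ.map L) := by
  intro c hc0 hc1 f g h hf hg hh H
  rw [lintegral_map hf hL, lintegral_map hg hL, lintegral_map hh hL]
  apply hμ c hc0 hc1 _ _ _ (hf.comp hL) (hg.comp hL) (hh.comp hL)
  intro x y
  have := H (L x) (L y)
  simpa using this

/-- Product of copies of a measure with the Prékopa–Leindler property. -/
theorem PLprop.pi {μ : Measure ℝ} [SigmaFinite μ] (hμ : PLprop μ) (n : ℕ) :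
    PLprop (Measure.pi (fun _ : Fin n => μ)) := by
  induction n with
  | zero =>
    intro c hc0 hc1 f g h hf hg hh H
    have e : ∀ u : (Fin 0 → ℝ) → ℝ≥0∞, ∫⁻ x, u x ∂(Measure.pi (fun _ : Fin 0 => μ)) = u 0 := by
      intro u
      rw [Measure.pi_of_empty (fun _ : Fin 0 => μ) 0]
      exact lintegral_dirac _ _
    rw [e, e, e]
    have := H 0 0
    simpa using this
  | succ n ih =>
    have hmp := (measurePreserving_piFinSuccAbove (fun _ : Fin (n+1) => μ) 0).symm
    have hprod := PLprop.prod hμ ih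
    let L : (ℝ × (Fin n → ℝ)) →ₗ[ℝ] (Fin (n+1) → ℝ) :=
      { toFun := (MeasurableEquiv.piFinSuccAbove (fun _ : Fin (n+1) => ℝ) 0).symm
        map_add' := by
          intro x y
          ext i
          refine Fin.cases ?_ ?_ i <;> simp [MeasurableEquiv.piFinSuccAbove]
        map_smul' := by
          intro r x
          ext i
          refine Fin.cases ?_ ?_ i <;> simp [MeasurableEquiv.piFinSuccAbove] }
    have := hprod.map L hmp.measurable
    have e : (μ.prod (Measure.pi (fun _ : Fin n => μ))).map L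
        = Measure.pi (fun _ : Fin (n+1) => μ) := hmp.map_eq
    rw [e] at this
    exact this

/-- Log-concave densities preserve the Prékopa–Leindler property. -/
theorem PLprop.withDensity {E : Type*} [AddCommGroup E] [Module ℝ E] [MeasurableSpace E]
    {μ : Measure E} (hμ : PLprop μ) {p : E → ℝ≥0∞} (hp : Measurable p)
    (hlc : ∀ c : ℝ, 0 < c → c < 1 → ∀ x y, p x ^ (1-c) * p y ^ c ≤ p ((1-c) • x + c • y)) :
    PLprop (μ.withDensity p) := by
  intro c hc0 hc1 f g h hf hg hh H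
  have h1c : 0 < 1 - c := by linarith
  rw [lintegral_withDensity_eq_lintegral_mul _ hp hf, lintegral_withDensity_eq_lintegral_mul _ hp hg,
    lintegral_withDensity_eq_lintegral_mul _ hp hh]
  apply hμ c hc0 hc1 _ _ _ (hp.mul hf) (hp.mul hg) (hp.mul hh)
  intro x y
  simp only [Pi.mul_apply]
  rw [ENNReal.mul_rpow_of_nonneg _ _ h1c.le, ENNReal.mul_rpow_of_nonneg _ _ hc0.le]
  calc p x ^ (1-c) * f x ^ (1-c) * (p y ^ c * g y ^ c)
      = (p x ^ (1-c) * p y ^ c) * (f x ^ (1-c) * g y ^ c) := by ring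
    _ ≤ _ := mul_le_mul' (hlc c hc0 hc1 x y) (H x y)

open ProbabilityTheory in
theorem plprop_gaussianReal : PLprop (gaussianReal 0 1) := by
  rw [gaussianReal_of_var_ne_zero 0 one_ne_zero]
  apply plprop_volume_real.withDensity (measurable_gaussianPDF 0 1)
  intro c hc0 hc1 x y
  have h1c : 0 < 1 - c := by linarith
  simp only [gaussianPDF, gaussianPDFReal, NNReal.coe_one, mul_one, sub_zero, smul_eq_mul]
  rw [ENNReal.ofReal_rpow_of_nonneg (by positivity) h1c.le,
    ENNReal.ofReal_rpow_of_nonneg (by positivity) hc0.le, ← ENNReal.ofReal_mul (by positivity)]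
  apply ENNReal.ofReal_le_ofReal
  have hk : 0 < (Real.sqrt (2 * Real.pi))⁻¹ := by positivity
  rw [Real.mul_rpow hk.le (Real.exp_pos _).le, Real.mul_rpow hk.le (Real.exp_pos _).le]
  have e1 : (Real.sqrt (2 * Real.pi))⁻¹ ^ (1-c) * (Real.sqrt (2 * Real.pi))⁻¹ ^ c
      = (Real.sqrt (2 * Real.pi))⁻¹ := by
    rw [← Real.rpow_add hk]; simp
  calc (Real.sqrt (2 * Real.pi))⁻¹ ^ (1-c) * Real.exp (-x^2/2) ^ (1-c)
        * ((Real.sqrt (2 * Real.pi))⁻¹ ^ c * Real.exp (-y^2/2) ^ c)
      = ((Real.sqrt (2 * Real.pi))⁻¹ ^ (1-c) * (Real.sqrt (2 * Real.pi))⁻¹ ^ c)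
        * (Real.exp (-x^2/2) ^ (1-c) * Real.exp (-y^2/2) ^ c) := by ring
    _ = (Real.sqrt (2 * Real.pi))⁻¹ * Real.exp (-x^2/2 * (1-c) + -y^2/2 * c) := by
        rw [e1, ← Real.exp_mul, ← Real.exp_mul, ← Real.exp_add]
    _ ≤ (Real.sqrt (2 * Real.pi))⁻¹ * Real.exp (-((1-c) * x + c * y)^2/2) := by
        gcongr
        nlinarith [mul_pos h1c hc0, sq_nonneg (x-y), mul_nonneg (mul_pos h1c hc0).le (sq_nonneg (x-y))]

end Vale.Agent.P226
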