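import Vale.Agent.P226.NearProp

/-!
# P226: area of the projected triangle, at least five cells
-/

open MeasureTheory Set ProbabilityTheory
open scoped RealInnerProductSpace

namespace Vale.Agent.P226

namespace GP

namespace Near

set_option linter.unusedSectionVars false

noncomputable section

/-- algebraic part: the triangle of the three centred vectors -/
lemma area_alg1 {s0 s1 s2 w g0 g1 g2 : ℝ} (h21 : s2 ≤ s1) (h10 : s1 ≤ s0)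
    (hg0 : 0 ≤ g0) (hg1 : 0 ≤ g1) (hg2 : 0 ≤ g2) (hg : g0 + g1 + g2 = w)
    (hc : 0 ≤ s2 - 5 / 9 * w) :
    (s2 - 5 / 9 * w) * (s0 + s1 + s2 - w / 3) - (s0 - s1) ^ 2
      ≤ ((s0 + w / 9 - 2 / 3 * g0) + (s1 + w / 9 - 2 / 3 * g1) + (s2 + w / 9 - 2 / 3 * g2)) ^ 2
        - 2 * ((s0 + w / 9 - 2 / 3 * g0) ^ 2 + (s1 + w / 9 - 2 / 3 * g1) ^ 2
          + (s2 + w / 9 - 2 / 3 * g2) ^ 2) := by
  have hw : 0 ≤ w := by linarith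
  have e1 : g0 ^ 2 + g1 ^ 2 + g2 ^ 2 ≤ w ^ 2 := by
    rw [← hg]
    nlinarith [mul_nonneg hg0 hg1, mul_nonneg hg0 hg2, mul_nonneg hg1 hg2]
  have e2 : w * s2 ≤ g0 * s0 + g1 * s1 + g2 * s2 := by
    rw [← hg]
    nlinarith [mul_nonneg hg0 (sub_nonneg.2 (h21.trans h10)), mul_nonneg hg1 (sub_nonneg.2 h21)]
  have e3 : (s0 + w / 9 - 2 / 3 * g0) ^ 2 + (s1 + w / 9 - 2 / 3 * g1) ^ 2
          + (s2 + w / 9 - 2 / 3 * g2) ^ 2 ≤ (s0 + w / 9) ^ 2 + (s1 + w / 9) ^ 2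
          + (s2 - 5 / 9 * w) ^ 2 := by
    have : (s0 + w / 9 - 2 / 3 * g0) ^ 2 + (s1 + w / 9 - 2 / 3 * g1) ^ 2
          + (s2 + w / 9 - 2 / 3 * g2) ^ 2 = (s0 + w / 9) ^ 2 + (s1 + w / 9) ^ 2
          + (s2 + w / 9) ^ 2 - 4 / 3 * (g0 * s0 + g1 * s1 + g2 * s2)
          - 4 / 27 * w * (g0 + g1 + g2) + 4 / 9 * (g0 ^ 2 + g1 ^ 2 + g2 ^ 2) := by ring
    rw [this, hg]
    nlinarith
  have e4 : (s0 + w / 9 - 2 / 3 * g0) + (s1 + w / 9 - 2 / 3 * g1) + (s2 + w / 9 - 2 / 3 * g2)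
      = s0 + s1 + s2 - w / 3 := by linarith
  rw [e4]
  have h5 : 0 ≤ (s2 - 5 / 9 * w) * ((s0 + w / 9) + (s1 + w / 9) - 2 * (s2 - 5 / 9 * w)) := by
    apply mul_nonneg hc
    linarith
  nlinarith

/-- algebraic part: removing the component in one direction -/
lemma area_alg2 {n0 n1 n2 y0 y1 y2 : ℝ} (hn0 : 0 ≤ n0) (hn1 : 0 ≤ n1) (hn2 : 0 ≤ n2)
    (hy0 : 0 ≤ y0) (hy1 : 0 ≤ y1) (hy2 : 0 ≤ y2) :
    (n0 + n1 + n2) ^ 2 - 2 * (n0 ^ 2 + n1 ^ 2 + n2 ^ 2)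
        - 2 * (n0 + n1 + n2) * (y0 + y1 + y2) - (y0 + y1 + y2) ^ 2
      ≤ 4 * (n0 - y0) * (n1 - y1) - ((n2 - y2) - (n0 - y0) - (n1 - y1)) ^ 2 := by
  nlinarith [mul_nonneg hn0 hy0, mul_nonneg hn1 hy1, mul_nonneg hn2 hy2, mul_nonneg hy0 hy1,
    mul_nonneg hy0 hy2, mul_nonneg hy1 hy2]

/-- combination of the two algebraic parts -/
lemma area_alg3 {C s0 s1 s2 w u σ g0 g1 g2 n0 n1 n2 y0 y1 y2 : ℝ}
    (h21 : s2 ≤ s1) (h10 : s1 ≤ s0)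
    (hg0 : 0 ≤ g0) (hg1 : 0 ≤ g1) (hg2 : 0 ≤ g2) (hg : g0 + g1 + g2 = w)
    (hc : 0 ≤ s2 - 5 / 9 * u) (hu : 0 ≤ C - 4 / 3 * u) (hwu : w ≤ u) (hσ : 0 ≤ σ)
    (hn0 : n0 = s0 + w / 9 - 2 / 3 * g0) (hn1 : n1 = s1 + w / 9 - 2 / 3 * g1)
    (hn2 : n2 = s2 + w / 9 - 2 / 3 * g2) (h0 : 0 ≤ n0) (h1 : 0 ≤ n1) (h2 : 0 ≤ n2)
    (hy0 : 0 ≤ y0) (hy1 : 0 ≤ y1) (hy2 : 0 ≤ y2) (hY : y0 + y1 + y2 ≤ 2 / 3 * σ)
    (hF : C < s0 + s1 + s2 + u) :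
    (s2 - 5 / 9 * u) * (C - 4 / 3 * u) - (s0 - s1) ^ 2
        - 4 / 3 * (s0 + s1 + s2) * σ - 4 / 9 * σ ^ 2
      ≤ 4 * (n0 - y0) * (n1 - y1) - ((n2 - y2) - (n0 - y0) - (n1 - y1)) ^ 2 := by
  have hcw : 0 ≤ s2 - 5 / 9 * w := by linarith
  have hA1 := area_alg1 h21 h10 hg0 hg1 hg2 hg hcw
  rw [← hn0, ← hn1, ← hn2] at hA1
  have hA2 := area_alg2 h0 h1 h2 hy0 hy1 hy2
  refine le_trans ?_ hA2
  have hw0 : 0 ≤ w := by linarith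
  have hX : n0 + n1 + n2 = s0 + s1 + s2 - w / 3 := by
    rw [hn0, hn1, hn2]
    linarith
  rw [hX] at hA1 ⊢
  obtain ⟨Y, hYd⟩ : ∃ Y, Y = y0 + y1 + y2 := ⟨_, rfl⟩
  obtain ⟨S, hS⟩ : ∃ S, S = s0 + s1 + s2 := ⟨_, rfl⟩
  rw [← hYd] at hY ⊢
  rw [← hS] at hA1 hF ⊢
  have hY0 : 0 ≤ Y := by rw [hYd]; linarith
  have h6 : (s2 - 5 / 9 * u) * (C - 4 / 3 * u) ≤ (s2 - 5 / 9 * w) * (S - w / 3) := by
    apply mul_le_mul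
    · linarith
    · linarith
    · exact hu
    · exact hcw
  have hSw : 0 ≤ S - w / 3 := by linarith
  have h7 : (S - w / 3) * Y ≤ S * (2 / 3 * σ) := by
    apply mul_le_mul
    · linarith
    · exact hY
    · exact hY0
    · linarith
  have h8 : Y ^ 2 ≤ (2 / 3 * σ) ^ 2 := pow_le_pow_left₀ hY0 hY 2
  have h9 : (2 / 3 * σ) ^ 2 = 4 / 9 * σ ^ 2 := by ring
  rw [h9] at h8
  linarith

/-- the components in one direction -/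
lemma comp_alg {a0 a1 a2 G σ : ℝ} (h0 : 0 ≤ a0) (h1 : 0 ≤ a1) (h2 : 0 ≤ a2)
    (hG : a0 + a1 + a2 = G) (hGσ : G ≤ σ) (hσ : 0 < σ) :
    (-a0 + 1 / 3 * G) ^ 2 / σ + (-a1 + 1 / 3 * G) ^ 2 / σ + (-a2 + 1 / 3 * G) ^ 2 / σ
      ≤ 2 / 3 * σ := by
  rw [← add_div, ← add_div, div_le_iff₀ hσ]
  have hGn : 0 ≤ G := by linarith
  have h3 : a0 ^ 2 + a1 ^ 2 + a2 ^ 2 ≤ G ^ 2 := by
    rw [← hG]
    nlinarith [mul_nonneg h0 h1, mul_nonneg h0 h2, mul_nonneg h1 h2]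
  have h4 : G ^ 2 ≤ σ ^ 2 := pow_le_pow_left₀ hGn hGσ 2
  have h5 : (-a0 + 1 / 3 * G) ^ 2 + (-a1 + 1 / 3 * G) ^ 2 + (-a2 + 1 / 3 * G) ^ 2
      = a0 ^ 2 + a1 ^ 2 + a2 ^ 2 - 2 / 3 * G * (a0 + a1 + a2) + 1 / 3 * G ^ 2 := by ring
  rw [h5, hG]
  nlinarith

variable {E : Type*} [NormedAddCommGroup E] [InnerProductSpace ℝ E] [FiniteDimensional ℝ E]
  [MeasurableSpace E] [BorelSpace E]

variable {ι : Type} [Fintype ι] [DecidableEq ι] [Nontrivial ι]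

/-- the total weight outside the triple -/
def uU (z : ι → E) (T : Fin 3 → ι) : ℝ := ∑ i ∈ out T, ‖z i‖ ^ 2

lemma norm_zU_le {z : ι → E} (hz : Crit z) (T : Fin 3 → ι) :
    ‖zU z T‖ ^ 2 ≤ uU z T := by
  unfold zU uU
  rw [← real_inner_self_eq_norm_sq, sum_inner]
  apply Finset.sum_le_sum
  intro i hi
  rw [inner_sum, ← Finset.add_sum_erase _ _ hi, real_inner_self_eq_norm_sq]
  have : ∑ j ∈ (out T).erase i, ⟪z i, z j⟫ ≤ 0 := by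
    apply Finset.sum_nonpos
    intro j hj
    exact (hz.neg i j (Finset.ne_of_mem_erase hj).symm).le
  linarith

lemma inner_T_zU_nonpos {z : ι → E} (hz : Crit z) (T : Fin 3 → ι) (j : Fin 3) :
    ⟪z (T j), zU z T⟫ ≤ 0 := by
  unfold zU
  rw [inner_sum]
  apply Finset.sum_nonpos
  intro i hi
  have := mem_out.1 hi j
  exact (hz.neg (T j) i this.symm).le

lemma inner_zU_le {z : ι → E} (hz : Crit z) (T : Fin 3 → ι) {i : ι} (hi : i ∈ out T) :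
    ⟪zU z T, z i⟫ ≤ ‖z i‖ ^ 2 := by
  unfold zU
  rw [sum_inner, ← Finset.add_sum_erase _ _ hi, real_inner_self_eq_norm_sq]
  have : ∑ j ∈ (out T).erase i, ⟪z j, z i⟫ ≤ 0 := by
    apply Finset.sum_nonpos
    intro j hj
    exact (hz.neg j i (Finset.ne_of_mem_erase hj)).le
  linarith

/-- lower bound for the area of the projected triangle -/
theorem area5 {z : ι → E} (hz : Crit z) {T : Fin 3 → ι} (hT : Function.Injective T)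
    (h21 : ‖z (T 2)‖ ^ 2 ≤ ‖z (T 1)‖ ^ 2) (h10 : ‖z (T 1)‖ ^ 2 ≤ ‖z (T 0)‖ ^ 2)
    (hc : 0 ≤ ‖z (T 2)‖ ^ 2 - 5 / 9 * uU z T) (hu : 0 ≤ CC - 4 / 3 * uU z T)
    {i : ι} (hi : i ∈ out T) (hzi : z i ≠ 0) :
    (‖z (T 2)‖ ^ 2 - 5 / 9 * uU z T) * (CC - 4 / 3 * uU z T)
        - (‖z (T 0)‖ ^ 2 - ‖z (T 1)‖ ^ 2) ^ 2
        - 4 / 3 * (‖z (T 0)‖ ^ 2 + ‖z (T 1)‖ ^ 2 + ‖z (T 2)‖ ^ 2) * ‖z i‖ ^ 2
        - 4 / 9 * (‖z i‖ ^ 2) ^ 2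
      ≤ 4 * (‖vT z T 0‖ ^ 2 - ⟪vT z T 0, z i⟫ ^ 2 / ‖z i‖ ^ 2)
          * (‖vT z T 1‖ ^ 2 - ⟪vT z T 1, z i⟫ ^ 2 / ‖z i‖ ^ 2)
        - ((‖vT z T 2‖ ^ 2 - ⟪vT z T 2, z i⟫ ^ 2 / ‖z i‖ ^ 2)
          - (‖vT z T 0‖ ^ 2 - ⟪vT z T 0, z i⟫ ^ 2 / ‖z i‖ ^ 2)
          - (‖vT z T 1‖ ^ 2 - ⟪vT z T 1, z i⟫ ^ 2 / ‖z i‖ ^ 2)) ^ 2 := by
  have hwu : ‖zU z T‖ ^ 2 ≤ uU z T := norm_zU_le hz T
  have hσ : 0 < ‖z i‖ ^ 2 := by positivity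
  have hn : ∀ j, ‖vT z T j‖ ^ 2
      = ‖z (T j)‖ ^ 2 + ‖zU z T‖ ^ 2 / 9 - 2 / 3 * (-⟪z (T j), zU z T⟫) := by
    intro j
    unfold vT
    rw [norm_add_sq_real, norm_smul, inner_smul_right]
    simp only [Real.norm_eq_abs, mul_pow, sq_abs]
    ring
  have hg : ∀ j, 0 ≤ -⟪z (T j), zU z T⟫ := fun j => by
    have := inner_T_zU_nonpos hz T j; linarith
  have hgs : -⟪z (T 0), zU z T⟫ + -⟪z (T 1), zU z T⟫ + -⟪z (T 2), zU z T⟫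
      = ‖zU z T‖ ^ 2 := by
    have h1 := sum_T hT hz.sum_zero
    have h2 : ⟪∑ j, z (T j), zU z T⟫ = -‖zU z T‖ ^ 2 := by
      rw [h1, inner_neg_left, real_inner_self_eq_norm_sq]
    rw [sum_inner, Fin.sum_univ_three] at h2
    linarith
  have hin : ∀ j, ⟪vT z T j, z i⟫ = - -⟪z (T j), z i⟫ + 1 / 3 * ⟪zU z T, z i⟫ := by
    intro j
    unfold vT
    rw [inner_add_left, inner_smul_left]
    simp
  have hG0 : ∀ j, 0 ≤ -⟪z (T j), z i⟫ := fun j => by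
    have := hz.neg (T j) i (mem_out.1 hi j).symm
    linarith
  have hGs : -⟪z (T 0), z i⟫ + -⟪z (T 1), z i⟫ + -⟪z (T 2), z i⟫ = ⟪zU z T, z i⟫ := by
    have h1 := sum_T hT hz.sum_zero
    have h2 : ⟪∑ j, z (T j), z i⟫ = -⟪zU z T, z i⟫ := by
      rw [h1, inner_neg_left]
    rw [sum_inner, Fin.sum_univ_three] at h2
    linarith
  have hY := comp_alg (hG0 0) (hG0 1) (hG0 2) hGs (inner_zU_le hz T hi) hσ
  rw [← hin 0, ← hin 1, ← hin 2] at hY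
  have hF : CC < ‖z (T 0)‖ ^ 2 + ‖z (T 1)‖ ^ 2 + ‖z (T 2)‖ ^ 2 + uU z T := by
    have h1 := hz.gt
    unfold SQ at h1
    rw [sum_out hT, Fin.sum_univ_three] at h1
    exact h1
  exact area_alg3 h21 h10 (hg 0) (hg 1) (hg 2) hgs hc hu hwu hσ.le (hn 0) (hn 1) (hn 2)
    (sq_nonneg _) (sq_nonneg _) (sq_nonneg _) (div_nonneg (sq_nonneg _) hσ.le)
    (div_nonneg (sq_nonneg _) hσ.le) (div_nonneg (sq_nonneg _) hσ.le) hY hF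

end

end Near

end GP

end Vale.Agent.P226
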