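import Vale.Agent.P226.Crit

/-!
# P226: the propeller attains the value `9/(8π)`
-/

open MeasureTheory Set ProbabilityTheory Filter Topology
open scoped RealInnerProductSpace

namespace Vale.Agent.P226

namespace GP

set_option linter.unusedSectionVars false

noncomputable section

variable {E : Type*} [NormedAddCommGroup E] [InnerProductSpace ℝ E] [FiniteDimensional ℝ E]
  [MeasurableSpace E] [BorelSpace E]

/-- the three propeller vectors in the plane spanned by `u` and `v` -/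
def prop3 (u v : E) : Fin 3 → E :=
  ![√(3 / (8 * Real.pi)) • u,
    √(3 / (8 * Real.pi)) • ((-(1/2 : ℝ)) • u + (√3/2 : ℝ) • v),
    √(3 / (8 * Real.pi)) • ((-(1/2 : ℝ)) • u - (√3/2 : ℝ) • v)]

lemma norm_comb {u v : E} (hu : ‖u‖ = 1) (hv : ‖v‖ = 1) (huv : ⟪u, v⟫ = 0) (a b : ℝ) :
    ‖a • u + b • v‖ ^ 2 = a ^ 2 + b ^ 2 := by
  rw [norm_add_sq_real, norm_smul, norm_smul, inner_smul_left, inner_smul_right, hu, hv, huv]
  simp

lemma prop3_facts {u v : E} (hu : ‖u‖ = 1) (hv : ‖v‖ = 1) (huv : ⟪u, v⟫ = 0) :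
    SQ (prop3 u v) = CC ∧ EM (prop3 u v) = CC ∧ Function.Injective (prop3 u v) := by
  have hpi := Real.pi_pos
  set r : ℝ := √(3 / (8 * Real.pi)) with hr
  have hr2 : r ^ 2 = 3 / (8 * Real.pi) := Real.sq_sqrt (by positivity)
  have hr0 : 0 < r := Real.sqrt_pos.mpr (by positivity)
  have h3 : √3 ^ 2 = (3 : ℝ) := Real.sq_sqrt (by norm_num)
  have h30 : 0 < √(3 : ℝ) := Real.sqrt_pos.mpr (by norm_num)
  have e0 : prop3 u v 0 = r • u := rfl
  have e1 : prop3 u v 1 = r • ((-(1/2 : ℝ)) • u + (√3/2 : ℝ) • v) := rfl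
  have e2 : prop3 u v 2 = r • ((-(1/2 : ℝ)) • u - (√3/2 : ℝ) • v) := rfl
  have n0 : ‖prop3 u v 0‖ ^ 2 = r ^ 2 := by
    rw [e0, norm_smul, hu, mul_one, Real.norm_eq_abs, sq_abs]
  have n1 : ‖prop3 u v 1‖ ^ 2 = r ^ 2 := by
    rw [e1, norm_smul, mul_pow, norm_comb hu hv huv, Real.norm_eq_abs, sq_abs]
    nlinarith
  have n2 : ‖prop3 u v 2‖ ^ 2 = r ^ 2 := by
    rw [e2, norm_smul, mul_pow, sub_eq_add_neg, ← neg_smul, norm_comb hu hv huv,
      Real.norm_eq_abs, sq_abs]
    nlinarith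
  have d01 : prop3 u v 0 - prop3 u v 1 = r • ((3/2 : ℝ) • u + (-(√3/2) : ℝ) • v) := by
    rw [e0, e1]
    module
  have d12 : prop3 u v 1 - prop3 u v 2 = r • ((0 : ℝ) • u + (√3 : ℝ) • v) := by
    rw [e1, e2]
    module
  have d02 : prop3 u v 0 - prop3 u v 2 = r • ((3/2 : ℝ) • u + (√3/2 : ℝ) • v) := by
    rw [e0, e2]
    module
  have key : ∀ a b : ℝ, a ^ 2 + b ^ 2 = 3 → ‖r • (a • u + b • v)‖ = r * √3 := by
    intro a b hab
    rw [norm_smul, Real.norm_eq_abs, abs_of_pos hr0]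
    congr 1
    have h := norm_comb hu hv huv a b
    rw [hab] at h
    rw [← h, Real.sqrt_sq (norm_nonneg _)]
  have m01 : ‖prop3 u v 0 - prop3 u v 1‖ = r * √3 := by
    rw [d01]
    apply key
    nlinarith
  have m12 : ‖prop3 u v 1 - prop3 u v 2‖ = r * √3 := by
    rw [d12]
    apply key
    rw [h3]
    norm_num
  have m02 : ‖prop3 u v 0 - prop3 u v 2‖ = r * √3 := by
    rw [d02]
    apply key
    nlinarith
  refine ⟨?_, ?_, ?_⟩
  · unfold SQ
    rw [Fin.sum_univ_three, n0, n1, n2, hr2]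
    unfold CC
    ring
  · rw [EM_three, m01, m12, m02]
    have h5 : √(2 / Real.pi) * (r * √3) = 3 / (2 * Real.pi) := by
      have h6 : (√(2 / Real.pi) * (r * √3)) ^ 2 = (3 / (2 * Real.pi)) ^ 2 := by
        rw [mul_pow, mul_pow, hr2, h3, Real.sq_sqrt (by positivity)]
        field_simp
        ring
      exact (sq_eq_sq₀ (by positivity) (by positivity)).mp h6
    have h7 : √(2 / Real.pi) / 4 * (r * √3 + r * √3 + r * √3)
        = 3 / 4 * (√(2 / Real.pi) * (r * √3)) := by ring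
    rw [h7, h5]
    unfold CC
    field_simp
    norm_num
  · have hp : 0 < r * √3 := mul_pos hr0 h30
    have q01 : prop3 u v 0 ≠ prop3 u v 1 := by
      intro h; rw [h, sub_self, norm_zero] at m01; linarith
    have q12 : prop3 u v 1 ≠ prop3 u v 2 := by
      intro h; rw [h, sub_self, norm_zero] at m12; linarith
    have q02 : prop3 u v 0 ≠ prop3 u v 2 := by
      intro h; rw [h, sub_self, norm_zero] at m02; linarith
    intro i j hij
    fin_cases i <;> fin_cases j <;> simp_all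

/-- the cells of the propeller vectors -/
theorem prop3_moment {u v : E} (hu : ‖u‖ = 1) (hv : ‖v‖ = 1) (huv : ⟪u, v⟫ = 0) (i : Fin 3) :
    ∫ x in cell (prop3 u v) i, x ∂(stdGaussian E) = prop3 u v i := by
  obtain ⟨h1, h2, h3⟩ := prop3_facts hu hv huv
  apply moment_of_max h3 (by rw [h2, h1])
  intro w
  rw [h1]
  exact PK_three (Fin 3) (Fintype.card_fin 3) w

/-- the propeller, with empty further cells -/
theorem exists_propeller {u v : E} (hu : ‖u‖ = 1) (hv : ‖v‖ = 1) (huv : ⟪u, v⟫ = 0) (m : ℕ) :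
    ∃ A : Fin (3 + m) → Set E, (∀ i, MeasurableSet (A i)) ∧
      (∀ i j, i ≠ j → stdGaussian E (A i ∩ A j) = 0) ∧ stdGaussian E (⋃ i, A i)ᶜ = 0 ∧
      ∑ i, ‖∫ x in A i, x ∂(stdGaussian E)‖ ^ 2 = CC := by
  obtain ⟨h1, h2, h3⟩ := prop3_facts hu hv huv
  let A : Fin (3 + m) → Set E := fun i => Fin.addCases (cell (prop3 u v)) (fun _ => ∅) i
  have hA1 : ∀ j, A (Fin.castAdd m j) = cell (prop3 u v) j := fun j => Fin.addCases_left j
  have hA2 : ∀ j, A (Fin.natAdd 3 j) = ∅ := fun j => Fin.addCases_right j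
  refine ⟨A, ?_, ?_, ?_, ?_⟩
  · intro i
    refine Fin.addCases (fun j => ?_) (fun j => ?_) i
    · rw [hA1]; exact measurableSet_cell _ _
    · rw [hA2]; exact MeasurableSet.empty
  · intro i j
    refine Fin.addCases (fun i' => ?_) (fun i' => ?_) i
    · refine Fin.addCases (fun j' => ?_) (fun j' => ?_) j
      · intro hne
        rw [hA1, hA1]
        have hne' : i' ≠ j' := fun h => hne (by rw [h])
        rw [(cell_disjoint (prop3 u v) hne').inter_eq, measure_empty]
      · intro _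
        rw [hA2, inter_empty, measure_empty]
    · intro _
      rw [hA2, empty_inter, measure_empty]
  · apply measure_mono_null _ (cell_cover h3)
    rw [compl_subset_compl]
    intro x hx
    rw [mem_iUnion] at hx ⊢
    obtain ⟨i, hi⟩ := hx
    exact ⟨Fin.castAdd m i, by rw [hA1]; exact hi⟩
  · rw [Fin.sum_univ_add]
    simp only [hA1, hA2, Measure.restrict_empty, integral_zero_measure,
      norm_zero]
    rw [Finset.sum_congr rfl (fun i _ => by rw [prop3_moment hu hv huv])]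
    have : SQ (prop3 u v) = ∑ i, ‖prop3 u v i‖ ^ 2 := rfl
    rw [← this, h1]
    simp

end

end GP

end Vale.Agent.P226
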