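import Vale.Agent.P226.Setup

/-!
# P226: one, two and three vectors
-/

open MeasureTheory Set ProbabilityTheory
open scoped RealInnerProductSpace

namespace Vale.Agent.P226

namespace GP

set_option linter.unusedSectionVars false

noncomputable section

variable {E : Type*} [NormedAddCommGroup E] [InnerProductSpace ℝ E] [FiniteDimensional ℝ E]
  [MeasurableSpace E] [BorelSpace E]

lemma integral_comp_neg_std (f : E → ℝ) :
    ∫ x, f (-x) ∂(stdGaussian E) = ∫ x, f x ∂(stdGaussian E) := by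
  have hmp : MeasurePreserving (fun x : E => -x) (stdGaussian E) (stdGaussian E) :=
    ⟨measurable_neg, stdGaussian_map (LinearIsometryEquiv.neg ℝ)⟩
  exact hmp.integral_comp (Homeomorph.neg E).measurableEmbedding f

/-- `E |⟨x, v⟩| = √(2/π) ‖v‖` -/
lemma integral_abs_inner_std (v : E) :
    ∫ x, |⟪x, v⟫| ∂(stdGaussian E) = √(2 / Real.pi) * ‖v‖ := by
  rcases eq_or_ne v 0 with rfl | hv
  · simp
  obtain ⟨n, L, hL, hmap, hin⟩ := exists_adapted hv
  rw [integral_eq_lintegral_of_nonneg_ae (Filter.Eventually.of_forall (fun x => abs_nonneg _))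
    (by fun_prop)]
  rw [← hmap, lintegral_map (by fun_prop) hL]
  simp only [hin]
  rw [lintegral_prod _ (by fun_prop)]
  simp only [lintegral_const, measure_univ, mul_one]
  have h := lintegral_abs_gaussian ‖v‖ (norm_nonneg v)
  have e : ∀ x : ℝ, |‖v‖ * x| = ‖v‖ * |x| := fun x => by rw [abs_mul, abs_norm]
  simp only [e]
  rw [h]
  rw [ENNReal.toReal_ofReal (by positivity)]

lemma mx_comp_equiv {ι κ : Type*} [Fintype ι] [Nonempty ι] [Fintype κ] [Nonempty κ]
    (e : κ ≃ ι) (z : ι → E) (x : E) : mx (fun j => z (e j)) x = mx z x := by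
  apply le_antisymm
  · exact mx_le _ _ (fun j => inner_le_mx z x (e j))
  · apply mx_le
    intro i
    have := inner_le_mx (fun j => z (e j)) x (e.symm i)
    simpa using this

lemma EM_comp_equiv {ι κ : Type*} [Fintype ι] [Nonempty ι] [Fintype κ] [Nonempty κ]
    (e : κ ≃ ι) (z : ι → E) : EM (fun j => z (e j)) = EM z := by
  unfold EM
  simp only [mx_comp_equiv]

lemma SQ_comp_equiv {ι κ : Type*} [Fintype ι] [Fintype κ]
    (e : κ ≃ ι) (z : ι → E) : SQ (fun j => z (e j)) = SQ z := by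
  unfold SQ
  exact e.sum_comp (fun i => ‖z i‖ ^ 2)

lemma PK_of_fin {k : ℕ} (h : ∀ z : Fin (k + 1) → E, EM z ≤ √CC * √(SQ z)) : PK E (k + 1) := by
  intro ι _ _ hc z
  let e : Fin (k + 1) ≃ ι := (Fintype.equivFinOfCardEq hc).symm
  rw [← EM_comp_equiv e z, ← SQ_comp_equiv e z]
  exact h _

lemma two_EM {ι : Type*} [Fintype ι] [Nonempty ι] (z : ι → E) :
    2 * EM z = ∫ x, (mx z x + mx z (-x)) ∂(stdGaussian E) := by
  have hmp : MeasurePreserving (fun x : E => -x) (stdGaussian E) (stdGaussian E) :=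
    ⟨measurable_neg, stdGaussian_map (LinearIsometryEquiv.neg ℝ)⟩
  have hi : Integrable (fun x => mx z (-x)) (stdGaussian E) :=
    (hmp.integrable_comp (integrable_mx z).aestronglyMeasurable).mpr (integrable_mx z)
  rw [integral_add (integrable_mx z) hi, integral_comp_neg_std]
  unfold EM
  ring

lemma sqrt_CC_sq : √CC ^ 2 = CC := Real.sq_sqrt CC_pos.le

theorem PK_one : PK E 1 := by
  apply PK_of_fin
  intro z
  have h : EM z = 0 := by
    unfold EM
    have : ∀ x : E, mx z x = ⟪x, z 0⟫ := by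
      intro x
      obtain ⟨i, hi⟩ := exists_mx z x
      have h0 : i = 0 := by
        apply Fin.ext
        have := i.isLt
        simp
      rw [hi, h0]
    simp only [this]
    exact integral_inner_std _
  rw [h]
  positivity

theorem PK_two : PK E 2 := by
  apply PK_of_fin
  intro z
  have h1 : ∀ x : E, mx z x + mx z (-x) = |⟪x, z 0 - z 1⟫| := by
    have h2 : ∀ x : E, mx z x = max ⟪x, z 0⟫ ⟪x, z 1⟫ := by
      intro x
      apply le_antisymm
      · apply mx_le
        intro i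
        fin_cases i
        · exact le_max_left _ _
        · exact le_max_right _ _
      · exact max_le (inner_le_mx z x 0) (inner_le_mx z x 1)
    intro x
    rw [h2, h2, inner_sub_right, inner_neg_left, inner_neg_left]
    rcases le_total ⟪x, z 0⟫ ⟪x, z 1⟫ with h | h
    · rw [max_eq_right h, max_eq_left (by linarith), abs_of_nonpos (by linarith)]
      ring
    · rw [max_eq_left h, max_eq_right (by linarith), abs_of_nonneg (by linarith)]
      ring
  have h3 := two_EM z
  simp only [h1] at h3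
  rw [integral_abs_inner_std] at h3
  have hpi := Real.pi_pos
  have hs : √(2 / Real.pi) ^ 2 = 2 / Real.pi := Real.sq_sqrt (by positivity)
  have h4 : ‖z 0 - z 1‖ ^ 2 ≤ 2 * SQ z := by
    have e : SQ z = ‖z 0‖ ^ 2 + ‖z 1‖ ^ 2 := by
      unfold SQ
      rw [Fin.sum_univ_two]
    rw [e]
    have h5 := norm_sub_sq_real (z 0) (z 1)
    have h6 := norm_add_sq_real (z 0) (z 1)
    have h7 : 0 ≤ ‖z 0 + z 1‖ ^ 2 := by positivity
    linarith
  have h8 : EM z = √(2 / Real.pi) * ‖z 0 - z 1‖ / 2 := by linarith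
  rw [h8, ← Real.sqrt_mul CC_pos.le]
  apply Real.le_sqrt_of_sq_le
  have h9 : (√(2 / Real.pi) * ‖z 0 - z 1‖ / 2) ^ 2 = 1 / (2 * Real.pi) * ‖z 0 - z 1‖ ^ 2 := by
    rw [div_pow, mul_pow, hs]
    field_simp
  rw [h9]
  have h10 : 1 / (2 * Real.pi) * ‖z 0 - z 1‖ ^ 2 ≤ 1 / (2 * Real.pi) * (2 * SQ z) :=
    mul_le_mul_of_nonneg_left h4 (by positivity)
  refine h10.trans ?_
  have h11 : 1 / (2 * Real.pi) * (2 * SQ z) = (1 / Real.pi) * SQ z := by
    field_simp
  rw [h11]
  apply mul_le_mul_of_nonneg_right _ (SQ_nonneg z)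
  unfold CC
  rw [div_le_div_iff₀ hpi (by positivity)]
  linarith

lemma max3 (a b c : ℝ) : max (max a b) c + max (max (-a) (-b)) (-c) =
    (|a - b| + |b - c| + |a - c|) / 2 := by
  grind

theorem EM_three (z : Fin 3 → E) :
    EM z = √(2 / Real.pi) / 4 * (‖z 0 - z 1‖ + ‖z 1 - z 2‖ + ‖z 0 - z 2‖) := by
  have h1 : ∀ x : E, mx z x + mx z (-x) =
      (|⟪x, z 0 - z 1⟫| + |⟪x, z 1 - z 2⟫| + |⟪x, z 0 - z 2⟫|) / 2 := by
    have h2 : ∀ x : E, mx z x = max (max ⟪x, z 0⟫ ⟪x, z 1⟫) ⟪x, z 2⟫ := by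
      intro x
      apply le_antisymm
      · apply mx_le
        intro i
        fin_cases i
        · exact (le_max_left _ _).trans (le_max_left _ _)
        · exact (le_max_right _ _).trans (le_max_left _ _)
        · exact le_max_right _ _
      · exact max_le (max_le (inner_le_mx z x 0) (inner_le_mx z x 1)) (inner_le_mx z x 2)
    intro x
    rw [h2, h2, inner_sub_right, inner_sub_right, inner_sub_right, inner_neg_left,
      inner_neg_left, inner_neg_left]
    exact max3 _ _ _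
  have h3 := two_EM z
  simp only [h1] at h3
  rw [integral_div, integral_add, integral_add, integral_abs_inner_std, integral_abs_inner_std,
    integral_abs_inner_std] at h3
  · linarith
  · exact (integrable_inner_std _).abs
  · exact (integrable_inner_std _).abs
  · exact (integrable_inner_std _).abs.add (integrable_inner_std _).abs
  · exact (integrable_inner_std _).abs

theorem PK_three : PK E 3 := by
  apply PK_of_fin
  intro z
  have hpi := Real.pi_pos
  have hs : √(2 / Real.pi) ^ 2 = 2 / Real.pi := Real.sq_sqrt (by positivity)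
  have h8 := EM_three z
  set p := ‖z 0 - z 1‖ + ‖z 1 - z 2‖ + ‖z 0 - z 2‖ with hp
  have hp2 : p ^ 2 ≤ 9 * SQ z := by
    have e : SQ z = ‖z 0‖ ^ 2 + ‖z 1‖ ^ 2 + ‖z 2‖ ^ 2 := by
      unfold SQ
      rw [Fin.sum_univ_three]
    rw [e]
    have h5 := norm_sub_sq_real (z 0) (z 1)
    have h6 := norm_sub_sq_real (z 1) (z 2)
    have h7 := norm_sub_sq_real (z 0) (z 2)
    have h9 : 0 ≤ ‖z 0 + z 1 + z 2‖ ^ 2 := by positivity
    have h10 := norm_add_sq_real (z 0 + z 1) (z 2)
    have h11 := norm_add_sq_real (z 0) (z 1)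
    rw [inner_add_left] at h10
    have h12 : p ^ 2 ≤ 3 * (‖z 0 - z 1‖ ^ 2 + ‖z 1 - z 2‖ ^ 2 + ‖z 0 - z 2‖ ^ 2) := by
      rw [hp]
      nlinarith [sq_nonneg (‖z 0 - z 1‖ - ‖z 1 - z 2‖), sq_nonneg (‖z 0 - z 1‖ - ‖z 0 - z 2‖),
        sq_nonneg (‖z 1 - z 2‖ - ‖z 0 - z 2‖)]
    linarith
  rw [h8, ← Real.sqrt_mul CC_pos.le]
  apply Real.le_sqrt_of_sq_le
  have h9 : (√(2 / Real.pi) / 4 * p) ^ 2 = 1 / (8 * Real.pi) * p ^ 2 := by
    rw [mul_pow, div_pow, hs]
    field_simp
    ring
  rw [h9]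
  have h10 : 1 / (8 * Real.pi) * p ^ 2 ≤ 1 / (8 * Real.pi) * (9 * SQ z) :=
    mul_le_mul_of_nonneg_left hp2 (by positivity)
  refine h10.trans (le_of_eq ?_)
  unfold CC
  ring

end

end GP

end Vale.Agent.P226
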