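import Vale.Agent.P226.Fibre

/-!
# P226: the bounds for the cells of a critical configuration
-/

open MeasureTheory Set ProbabilityTheory Filter Topology
open scoped RealInnerProductSpace
open Vale.Agent.P226.EhrPhi

namespace Vale.Agent.P226

namespace GP

set_option linter.unusedSectionVars false

noncomputable section

/-- the consequence of Ehrhard's inequality that is used -/
def EhrBound : Prop := ∀ (n : ℕ) (Y : (Fin n → ℝ) → ℝ), Continuous Y → ConvexOn ℝ univ Y →
  Integrable Y (Measure.pi (fun _ : Fin n => gaussianReal 0 1)) →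
  (∫ y, gpdf (Y y) ∂(Measure.pi (fun _ : Fin n => gaussianReal 0 1))) *
    (∫ y, psi (Y y) ∂(Measure.pi (fun _ : Fin n => gaussianReal 0 1)))
    ≤ JJ (∫ y, Q (Y y) ∂(Measure.pi (fun _ : Fin n => gaussianReal 0 1)))

variable {E : Type*} [NormedAddCommGroup E] [InnerProductSpace ℝ E] [FiniteDimensional ℝ E]
  [MeasurableSpace E] [BorelSpace E]

lemma map_inner_std {u : E} (hu : ‖u‖ = 1) :
    (stdGaussian E).map (fun x => ⟪x, u⟫) = gaussianReal 0 1 := by
  obtain ⟨n, L, hL, hmap, hin, _⟩ := exists_adapted_unit hu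
  rw [← hmap, Measure.map_map (by fun_prop) hL.measurable]
  have e : ((fun x : E => ⟪x, u⟫) ∘ L) = Prod.fst := by
    ext p
    exact hin p
  rw [e, Measure.map_fst_prod, measure_univ, one_smul]

section

variable {ι : Type} [Fintype ι] [Nontrivial ι] [DecidableEq ι]

/-- the Gaussian measure of the cell -/
def pc (z : ι → E) (i : ι) : ℝ := (stdGaussian E).real (cell z i)

/-- the factor `k/(k-1)` -/
def kap (ι : Type) [Fintype ι] : ℝ := (Fintype.card ι : ℝ) / (Fintype.card ι - 1)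

lemma kap_pos : 0 < kap ι := by
  unfold kap
  have hc : 1 < Fintype.card ι := Fintype.one_lt_card
  have : (1 : ℝ) < (Fintype.card ι : ℝ) := by exact_mod_cast hc
  apply div_pos <;> linarith

lemma one_lt_kap : 1 < kap ι := by
  unfold kap
  have hc : 1 < Fintype.card ι := Fintype.one_lt_card
  have : (1 : ℝ) < (Fintype.card ι : ℝ) := by exact_mod_cast hc
  rw [lt_div_iff₀ (by linarith)]
  linarith

lemma kap_le (k : ℕ) (hk : 2 ≤ k) (h : k ≤ Fintype.card ι) : kap ι ≤ (k : ℝ) / (k - 1) := by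
  unfold kap
  have h1 : (2 : ℝ) ≤ k := by exact_mod_cast hk
  have h2 : (k : ℝ) ≤ (Fintype.card ι : ℝ) := by exact_mod_cast h
  rw [div_le_div_iff₀ (by linarith) (by linarith)]
  nlinarith

lemma sum_pc {z : ι → E} (hinj : Function.Injective z) : ∑ i, pc z i = 1 := by
  have h := sum_setIntegral (measurableSet_cell z) (cell_aedisjoint z) (cell_cover hinj)
    (integrable_const (1 : ℝ))
  have h1 : ∀ i, ∫ _ in cell z i, (1 : ℝ) ∂(stdGaussian E) = pc z i := by
    intro i
    rw [setIntegral_const, smul_eq_mul, mul_one]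
    rfl
  have h2 : ∫ _, (1 : ℝ) ∂(stdGaussian E) = 1 := by
    rw [integral_const, smul_eq_mul, mul_one, measureReal_def, measure_univ, ENNReal.toReal_one]
  rw [h2] at h
  rw [← h]
  exact Finset.sum_congr rfl (fun i _ => (h1 i).symm)

lemma Crit.norm_pos {z : ι → E} (hz : Crit z) (i : ι) : 0 < ‖z i‖ := by
  obtain ⟨j, hj⟩ := exists_ne i
  have h := hz.neg i j hj.symm
  rw [norm_pos_iff]
  intro h0
  rw [h0, inner_zero_left] at h
  exact lt_irrefl _ h

/-- the halfspace bound, in dual form -/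
lemma Crit.norm_le_dual {z : ι → E} (hz : Crit z) (i : ι) (t : ℝ) :
    ‖z i‖ ≤ psi t + t * pc z i := by
  have hp := hz.norm_pos i
  set u : E := ‖z i‖⁻¹ • z i with hu
  have hu1 : ‖u‖ = 1 := by
    rw [hu, norm_smul, norm_inv, norm_norm, inv_mul_cancel₀ hp.ne']
  have h1 : ‖z i‖ = ∫ x in cell z i, ⟪x, u⟫ ∂(stdGaussian E) := by
    rw [← inner_setIntegral, hz.moment i, hu, inner_smul_left, real_inner_self_eq_norm_sq]
    simp only [RCLike.conj_to_real]
    field_simp
  have h2 : ∫ x in cell z i, ⟪x, u⟫ ∂(stdGaussian E)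
      = ∫ x in cell z i, (⟪x, u⟫ - t) ∂(stdGaussian E) + t * pc z i := by
    rw [integral_sub (integrable_inner_std u).integrableOn (integrable_const t).integrableOn,
      setIntegral_const, smul_eq_mul]
    unfold pc
    ring
  have hi : Integrable (fun x => max (⟪x, u⟫ - t) 0) (stdGaussian E) :=
    ((integrable_inner_std u).sub (integrable_const t)).pos_part
  have h3 : ∫ x in cell z i, (⟪x, u⟫ - t) ∂(stdGaussian E)
      ≤ ∫ x, max (⟪x, u⟫ - t) 0 ∂(stdGaussian E) := by
    calc ∫ x in cell z i, (⟪x, u⟫ - t) ∂(stdGaussian E)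
        ≤ ∫ x in cell z i, max (⟪x, u⟫ - t) 0 ∂(stdGaussian E) := by
          apply integral_mono
            ((integrable_inner_std u).integrableOn.sub (integrable_const t).integrableOn)
            hi.integrableOn
          intro x
          exact le_max_left _ _
      _ ≤ ∫ x, max (⟪x, u⟫ - t) 0 ∂(stdGaussian E) :=
          setIntegral_le_integral hi (Eventually.of_forall fun x => le_max_right _ _)
  have h4 : ∫ x, max (⟪x, u⟫ - t) 0 ∂(stdGaussian E) = psi t := by
    rw [← gauss_psi t, ← map_inner_std hu1, integral_map (by fun_prop) (by fun_prop)]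
  rw [h1, h2]
  linarith

lemma Crit.pc_mem {z : ι → E} (hz : Crit z) (i : ι) : pc z i ∈ Ioo (0 : ℝ) 1 := by
  have hpos : ∀ i, 0 < pc z i := by
    intro i
    unfold pc
    rw [measureReal_def, ENNReal.toReal_pos_iff]
    refine ⟨?_, measure_lt_top _ _⟩
    rw [pos_iff_ne_zero]
    intro h0
    have h1 := hz.moment i
    rw [setIntegral_measure_zero _ h0] at h1
    have h2 := hz.norm_pos i
    rw [← h1, norm_zero] at h2
    exact lt_irrefl _ h2
  refine ⟨hpos i, ?_⟩
  obtain ⟨j, hj⟩ := exists_ne i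
  have h1 := sum_pc hz.inj
  have h2 : pc z i + pc z j ≤ ∑ l, pc z l := by
    rw [← Finset.sum_pair hj.symm]
    exact Finset.sum_le_sum_of_subset_of_nonneg (Finset.subset_univ _)
      (fun l _ _ => (hpos l).le)
  have := hpos j
  linarith

lemma exists_Q_eq {p : ℝ} (hp : p ∈ Ioo (0 : ℝ) 1) : ∃ t, Q t = p := by
  have h : 1 - p ∈ Ioo (0 : ℝ) 1 := ⟨by linarith [hp.2], by linarith [hp.1]⟩
  obtain ⟨t, ht⟩ := exists_Phi_eq h
  refine ⟨t, ?_⟩
  unfold Q
  rw [ht]
  ring

/-- the halfspace bound -/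
lemma Crit.norm_le_II {z : ι → E} (hz : Crit z) (i : ι) : ‖z i‖ ≤ II (pc z i) := by
  obtain ⟨t, ht⟩ := exists_Q_eq (hz.pc_mem i)
  have h := hz.norm_le_dual i t
  rw [← ht] at h ⊢
  rw [II_Q]
  unfold psi at h
  linarith

/-- the Ehrhard bound of the gain -/
lemma Crit.DD_le (hE : EhrBound) {z : ι → E} (hz : Crit z) (i : ι) :
    DD z i ≤ kap ι * JJ (pc z i) := by
  obtain ⟨n, Y, b, hF⟩ := exists_fibre hz.sum_zero hz.neg hz.moment i
  have h := hE n Y hF.cont hF.conv hF.int
  rw [← hF.b_eq, ← hF.p_eq] at h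
  rw [hF.D_eq, mul_assoc]
  exact mul_le_mul_of_nonneg_left h kap_pos.le

/-- the drop inequality with Ehrhard's bound -/
lemma Crit.drop_le (hE : EhrBound) {z : ι → E} (hz : Crit z) (i : ι) :
    SQ z - √(CC * (SQ z - kap ι * ‖z i‖ ^ 2)) ≤ kap ι * JJ (pc z i) :=
  (hz.DD_ge i).trans (hz.DD_le hE i)

lemma sq_le_aux {F C s κ J : ℝ} (hC : 0 < C) (hF : C < F) (hκ : 0 < κ)
    (h : F - √(C * (F - κ * s)) ≤ κ * J) (hJ : κ * J ≤ C / 2) :
    s ≤ 2 * J - κ * J ^ 2 / C := by
  have h1 : 0 < F - κ * J := by linarith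
  have h2 : F - κ * J ≤ √(C * (F - κ * s)) := by linarith
  have h3 : (F - κ * J) ^ 2 ≤ C * (F - κ * s) := by
    rw [Real.le_sqrt' h1] at h2
    exact h2
  have h4 : κ * s * C ≤ F * C - (F - κ * J) ^ 2 := by linarith
  have h5 : F * C - (F - κ * J) ^ 2 ≤ C * C - (C - κ * J) ^ 2 := by
    nlinarith [mul_nonneg (sub_nonneg.mpr hF.le) (by linarith : 0 ≤ F - 2 * (κ * J))]
  have h6 : κ * s * C ≤ κ * (2 * J * C - κ * J ^ 2) := by nlinarith
  have h7 : s * C ≤ 2 * J * C - κ * J ^ 2 := by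
    have : κ * (s * C) ≤ κ * (2 * J * C - κ * J ^ 2) := by nlinarith
    exact le_of_mul_le_mul_left this hκ
  have h8 : 2 * J - κ * J ^ 2 / C = (2 * J * C - κ * J ^ 2) / C := by
    field_simp
  rw [h8, le_div_iff₀ hC]
  exact h7

/-- the bound of a cell -/
theorem Crit.sq_le (hE : EhrBound) {z : ι → E} (hz : Crit z) (i : ι)
    (hJ : kap ι * JJ (pc z i) ≤ CC / 2) :
    ‖z i‖ ^ 2 ≤ 2 * JJ (pc z i) - kap ι * JJ (pc z i) ^ 2 / CC :=
  sq_le_aux CC_pos hz.gt kap_pos (hz.drop_le hE i) hJ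

end

end

end GP

end Vale.Agent.P226
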