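import Vale.Agent.P226.Base

/-!
# P226: the critical configuration
-/

open MeasureTheory Set ProbabilityTheory
open scoped RealInnerProductSpace

namespace Vale.Agent.P226

namespace GP

set_option linter.unusedSectionVars false

noncomputable section

variable {E : Type*} [NormedAddCommGroup E] [InnerProductSpace ℝ E] [FiniteDimensional ℝ E]
  [MeasurableSpace E] [BorelSpace E]

lemma hyper_null {v : E} (hv : v ≠ 0) : stdGaussian E {x | ⟪x, v⟫ = 0} = 0 := by
  obtain ⟨n, L, hL, hmap, hin⟩ := exists_adapted hv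
  have hm : MeasurableSet {x : E | ⟪x, v⟫ = 0} := measurableSet_eq_fun (by fun_prop) (by fun_prop)
  rw [← hmap, Measure.map_apply hL hm]
  have e : L ⁻¹' {x : E | ⟪x, v⟫ = 0} = ({0} : Set ℝ) ×ˢ (univ : Set (Fin n → ℝ)) := by
    ext p
    simp [hin, hv]
  rw [e, Measure.prod_prod]
  have : gaussianReal 0 1 ({0} : Set ℝ) = 0 := by
    have := nullSingletonClass_gaussianReal (μ := 0) (v := 1) one_ne_zero
    exact measure_singleton 0
  rw [this, zero_mul]

section

variable {ι : Type} [Fintype ι] [Nontrivial ι] [DecidableEq ι]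

instance instNonemptyNe (i : ι) : Nonempty {j : ι // j ≠ i} :=
  nonempty_subtype.mpr (exists_ne i)

/-- the open cell of `z i` -/
def cell (z : ι → E) (i : ι) : Set E := {x | ∀ j, j ≠ i → ⟪x, z j⟫ < ⟪x, z i⟫}

/-- maximum over the other vectors -/
def mo (z : ι → E) (i : ι) (x : E) : ℝ := mx (fun j : {j : ι // j ≠ i} => z j) x

omit [FiniteDimensional ℝ E] [MeasurableSpace E] [BorelSpace E] in
lemma mx_eq_max (z : ι → E) (i : ι) (x : E) : mx z x = max ⟪x, z i⟫ (mo z i x) := by
  apply le_antisymm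
  · apply mx_le
    intro j
    by_cases h : j = i
    · rw [h]; exact le_max_left _ _
    · exact le_max_of_le_right (inner_le_mx (fun j : {j : ι // j ≠ i} => z j) x ⟨j, h⟩)
  · apply max_le (inner_le_mx z x i)
    exact mx_le _ _ (fun j => inner_le_mx z x j)

omit [FiniteDimensional ℝ E] [MeasurableSpace E] [BorelSpace E] in
lemma mem_cell_iff (z : ι → E) (i : ι) (x : E) : x ∈ cell z i ↔ mo z i x < ⟪x, z i⟫ := by
  constructor
  · intro h
    obtain ⟨j, hj⟩ := exists_mx (fun j : {j : ι // j ≠ i} => z j) x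
    unfold mo
    rw [hj]
    exact h j j.2
  · intro h j hj
    exact lt_of_le_of_lt (inner_le_mx (fun j : {j : ι // j ≠ i} => z j) x ⟨j, hj⟩) h

lemma continuous_mo (z : ι → E) (i : ι) : Continuous (mo z i) := continuous_mx _

lemma measurableSet_cell (z : ι → E) (i : ι) : MeasurableSet (cell z i) := by
  have : cell z i = {x | mo z i x < ⟪x, z i⟫} := by
    ext x
    exact mem_cell_iff z i x
  rw [this]
  exact measurableSet_lt (continuous_mo z i).measurable (by fun_prop)

omit [FiniteDimensional ℝ E] [MeasurableSpace E] [BorelSpace E] in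
lemma cell_disjoint (z : ι → E) {i j : ι} (h : i ≠ j) : Disjoint (cell z i) (cell z j) := by
  rw [Set.disjoint_left]
  intro x hi hj
  have h1 := hi j h.symm
  have h2 := hj i h
  exact lt_asymm h1 h2

omit [FiniteDimensional ℝ E] [MeasurableSpace E] [BorelSpace E] in
lemma mx_on_cell (z : ι → E) {i : ι} {x : E} (h : x ∈ cell z i) : mx z x = ⟪x, z i⟫ := by
  rw [mx_eq_max z i x]
  exact max_eq_left ((mem_cell_iff z i x).mp h).le

lemma cell_cover {z : ι → E} (hz : Function.Injective z) :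
    stdGaussian E (⋃ i, cell z i)ᶜ = 0 := by
  have h1 : (⋃ i, cell z i)ᶜ ⊆ ⋃ p : {p : ι × ι // p.1 ≠ p.2},
      {x : E | ⟪x, z p.1.1 - z p.1.2⟫ = 0} := by
    intro x hx
    obtain ⟨i, hi⟩ := exists_mx z x
    have h2 : x ∉ cell z i := by
      intro h
      exact hx (mem_iUnion.mpr ⟨i, h⟩)
    have h3 : ∃ j, j ≠ i ∧ ⟪x, z i⟫ ≤ ⟪x, z j⟫ := by
      by_contra hc
      push Not at hc
      exact h2 (fun j hj => hc j hj)
    obtain ⟨j, hj, hle⟩ := h3
    have h4 := inner_le_mx z x j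
    rw [mem_iUnion]
    refine ⟨⟨(i, j), hj.symm⟩, ?_⟩
    show ⟪x, z i - z j⟫ = 0
    rw [inner_sub_right]
    linarith
  apply measure_mono_null h1
  rw [measure_iUnion_null_iff]
  intro p
  apply hyper_null
  intro h0
  exact p.2 (hz (sub_eq_zero.mp h0))

lemma cell_aedisjoint (z : ι → E) :
    Pairwise (Function.onFun (AEDisjoint (stdGaussian E)) (cell z)) := by
  intro i j h
  exact (cell_disjoint z h).aedisjoint

/-- expected maximum as a sum over the cells -/
lemma EM_eq_sum {z : ι → E} (hz : Function.Injective z) :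
    EM z = ∑ i, ⟪z i, ∫ x in cell z i, x ∂(stdGaussian E)⟫ := by
  unfold EM
  rw [← sum_setIntegral (measurableSet_cell z) (cell_aedisjoint z) (cell_cover hz)
    (integrable_mx z)]
  apply Finset.sum_congr rfl
  intro i _
  rw [inner_setIntegral]
  apply setIntegral_congr_fun (measurableSet_cell z i)
  intro x hx
  exact mx_on_cell z hx

/-- a critical configuration with too large a value -/
structure Crit (z : ι → E) : Prop where
  gt : CC < SQ z
  inj : Function.Injective z
  moment : ∀ i, ∫ x in cell z i, x ∂(stdGaussian E) = z i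
  em : EM z = SQ z
  maxi : ∀ w : ι → E, EM w ≤ √(SQ z) * √(SQ w)
  sum_zero : ∑ i, z i = 0
  neg : ∀ i j, i ≠ j → ⟪z i, z j⟫ < 0
  drop : ∀ i, EM (fun j : {j : ι // j ≠ i} => z j) ≤
    √(CC * (SQ z - (Fintype.card ι : ℝ) / (Fintype.card ι - 1) * ‖z i‖ ^ 2))

end

lemma continuous_SQ {ι : Type} [Fintype ι] : Continuous (SQ : (ι → E) → ℝ) := by
  unfold SQ
  fun_prop

lemma SQ_eq_zero {ι : Type} [Fintype ι] {z : ι → E} (h : SQ z = 0) : z = fun _ => 0 := by
  unfold SQ at h
  rw [Finset.sum_eq_zero_iff_of_nonneg (fun _ _ => by positivity)] at h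
  ext1 i
  have := h i (Finset.mem_univ i)
  simpa using this

lemma SQ_smul {ι : Type} [Fintype ι] (z : ι → E) (c : ℝ) :
    SQ (fun i => c • z i) = c ^ 2 * SQ z := by
  unfold SQ
  rw [Finset.mul_sum]
  apply Finset.sum_congr rfl
  intro i _
  rw [norm_smul, mul_pow, Real.norm_eq_abs, sq_abs]

lemma EM_zero {ι : Type} [Fintype ι] [Nonempty ι] : EM (fun _ : ι => (0 : E)) = 0 := by
  have := EM_smul (fun _ : ι => (0 : E)) (le_refl (0 : ℝ))
  simpa using this

/-- existence of a maximiser -/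
lemma exists_max {ι : Type} [Fintype ι] [Nonempty ι] {z : ι → E}
    (hz : √CC * √(SQ z) < EM z) :
    ∃ (y : ι → E), CC < SQ y ∧ EM y = SQ y ∧ ∀ w : ι → E, EM w ≤ √(SQ y) * √(SQ w) := by
  have hz0 : SQ z ≠ 0 := by
    intro h
    rw [SQ_eq_zero h] at hz
    rw [EM_zero] at hz
    have : (0 : ℝ) ≤ √CC * √(SQ fun _ : ι => (0 : E)) := by positivity
    linarith
  have hzp : 0 < SQ z := lt_of_le_of_ne (SQ_nonneg z) (Ne.symm hz0)
  set S : Set (ι → E) := {w | SQ w = 1} with hS
  have hScl : IsClosed S := isClosed_eq continuous_SQ continuous_const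
  have hSb : Bornology.IsBounded S := by
    rw [isBounded_iff_forall_norm_le]
    refine ⟨1, fun w hw => ?_⟩
    rw [pi_norm_le_iff_of_nonneg zero_le_one]
    intro i
    have h1 : ‖w i‖ ^ 2 ≤ SQ w :=
      Finset.single_le_sum (f := fun i => ‖w i‖ ^ 2) (fun _ _ => by positivity)
        (Finset.mem_univ i)
    have h2 : SQ w = 1 := hw
    rw [h2] at h1
    have := norm_nonneg (w i)
    nlinarith
  have hScomp : IsCompact S := Metric.isCompact_of_isClosed_isBounded hScl hSb
  have hnorm : ∀ w : ι → E, SQ w ≠ 0 → (fun i => (√(SQ w))⁻¹ • w i) ∈ S := by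
    intro w hw
    show SQ (fun i => (√(SQ w))⁻¹ • w i) = 1
    rw [SQ_smul, inv_pow, Real.sq_sqrt (SQ_nonneg w)]
    exact inv_mul_cancel₀ hw
  obtain ⟨z0, hz0S, hz0max⟩ := hScomp.exists_isMaxOn ⟨_, hnorm z hz0⟩
    (continuous_EM (E := E) (ι := ι)).continuousOn
  set lam := EM z0 with hlam
  have hall : ∀ w : ι → E, EM w ≤ lam * √(SQ w) := by
    intro w
    by_cases hw : SQ w = 0
    · rw [hw, Real.sqrt_zero, mul_zero, SQ_eq_zero hw, EM_zero]
    · have hwp : 0 < SQ w := lt_of_le_of_ne (SQ_nonneg w) (Ne.symm hw)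
      have hs : 0 < √(SQ w) := Real.sqrt_pos.mpr hwp
      have h1 := hz0max (hnorm w hw)
      have h2 : EM (fun i => (√(SQ w))⁻¹ • w i) = (√(SQ w))⁻¹ * EM w :=
        EM_smul w (inv_nonneg.mpr hs.le)
      have h3 : (√(SQ w))⁻¹ * EM w ≤ lam := by rw [← h2]; exact h1
      rw [inv_mul_le_iff₀ hs] at h3
      linarith
  have hlam1 : √CC < lam := by
    have h1 := hall z
    have h2 : √CC * √(SQ z) < lam * √(SQ z) := lt_of_lt_of_le hz h1
    exact lt_of_mul_lt_mul_right h2 (Real.sqrt_nonneg _)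
  have hlam0 : 0 < lam := lt_of_le_of_lt (Real.sqrt_nonneg _) hlam1
  have hSQ0 : SQ z0 = 1 := hz0S
  refine ⟨fun i => lam • z0 i, ?_, ?_, ?_⟩
  · rw [SQ_smul, hSQ0, mul_one]
    have h1 := Real.sq_sqrt CC_pos.le
    have h2 := Real.sqrt_nonneg CC
    nlinarith
  · rw [SQ_smul, hSQ0, EM_smul z0 hlam0.le]
    ring
  · intro w
    rw [SQ_smul, hSQ0, mul_one, Real.sqrt_sq hlam0.le]
    exact hall w

lemma card_ne {ι : Type} [Fintype ι] [DecidableEq ι] (i : ι) :
    Fintype.card {j : ι // j ≠ i} = Fintype.card ι - 1 := by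
  have := Fintype.card_subtype_compl (fun j : ι => j = i)
  simpa using this

lemma SQ_split {ι : Type} [Fintype ι] [DecidableEq ι] (z : ι → E) (i : ι) :
    SQ (fun j : {j : ι // j ≠ i} => z j) = SQ z - ‖z i‖ ^ 2 := by
  unfold SQ
  rw [Fintype.sum_eq_add_sum_subtype_ne (fun j => ‖z j‖ ^ 2) i]
  ring

section exist

variable {ι : Type} [Fintype ι] [Nontrivial ι] [DecidableEq ι]

/-- the restricted family has a smaller expected maximum -/
lemma EM_restrict_le (hP : PK E (Fintype.card ι - 1)) (z : ι → E) (i : ι) :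
    EM (fun j : {j : ι // j ≠ i} => z j) ≤ √CC * √(SQ z - ‖z i‖ ^ 2) := by
  rw [← SQ_split]
  exact hP _ (card_ne i) _

lemma inj_of_max {z : ι → E} (hP : PK E (Fintype.card ι - 1)) (h1 : CC < SQ z)
    (h2 : EM z = SQ z) : Function.Injective z := by
  intro i j hij
  by_contra hne
  have e : ∀ x, mx z x = mo z i x := by
    intro x
    rw [mx_eq_max z i x]
    apply max_eq_right
    rw [hij]
    exact inner_le_mx (fun j : {j : ι // j ≠ i} => z j) x ⟨j, fun h => hne h.symm⟩
  have e2 : EM z = EM (fun j : {j : ι // j ≠ i} => z j) := by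
    unfold EM
    congr 1
    ext x
    exact e x
  have h3 := EM_restrict_le hP z i
  rw [← e2, h2] at h3
  have h4 : √(SQ z - ‖z i‖ ^ 2) ≤ √(SQ z) := Real.sqrt_le_sqrt (by nlinarith [sq_nonneg ‖z i‖])
  have h5 : √CC < √(SQ z) := Real.sqrt_lt_sqrt CC_pos.le h1
  have h6 : √(SQ z) * √(SQ z) = SQ z := Real.mul_self_sqrt (SQ_nonneg z)
  have h7 := Real.sqrt_nonneg CC
  have h8 : √CC * √(SQ z - ‖z i‖ ^ 2) ≤ √CC * √(SQ z) := mul_le_mul_of_nonneg_left h4 h7
  have h9 : √CC * √(SQ z) < √(SQ z) * √(SQ z) :=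
    mul_lt_mul_of_pos_right h5 (lt_of_le_of_lt h7 h5)
  linarith

lemma moment_of_max {z : ι → E} (hinj : Function.Injective z)
    (h2 : EM z = SQ z) (h3 : ∀ w : ι → E, EM w ≤ √(SQ z) * √(SQ w)) (i : ι) :
    ∫ x in cell z i, x ∂(stdGaussian E) = z i := by
  set w : ι → E := fun i => ∫ x in cell z i, x ∂(stdGaussian E) with hw
  have a1 : EM z = ∑ i, ⟪z i, w i⟫ := EM_eq_sum hinj
  have a2 : ∑ i, ⟪w i, w i⟫ ≤ EM w :=
    SQ_moment_le_EM (measurableSet_cell z) (cell_aedisjoint z) (cell_cover hinj) w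
  have a3 : ∑ i, ⟪w i, w i⟫ = SQ w := by
    unfold SQ
    exact Finset.sum_congr rfl (fun i _ => real_inner_self_eq_norm_sq _)
  have a4 : SQ w ≤ √(SQ z) * √(SQ w) := by
    rw [a3] at a2
    exact a2.trans (h3 w)
  have a5 : SQ w ≤ SQ z := by
    have b1 : √(SQ w) * √(SQ w) = SQ w := Real.mul_self_sqrt (SQ_nonneg w)
    have b2 : √(SQ z) * √(SQ z) = SQ z := Real.mul_self_sqrt (SQ_nonneg z)
    have b3 := Real.sqrt_nonneg (SQ w)
    have b4 := Real.sqrt_nonneg (SQ z)
    rcases eq_or_lt_of_le b3 with b5 | b5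
    · rw [← b1, ← b5]
      have := SQ_nonneg z
      simpa using this
    · have b6 : √(SQ w) ≤ √(SQ z) := by
        have : √(SQ w) * √(SQ w) ≤ √(SQ z) * √(SQ w) := by rw [b1]; exact a4
        exact le_of_mul_le_mul_right this b5
      rw [← b1, ← b2]
      exact mul_self_le_mul_self b3 b6
  have a6 : ∑ i, ‖z i - w i‖ ^ 2 = SQ z - 2 * ∑ i, ⟪z i, w i⟫ + SQ w := by
    unfold SQ
    rw [Finset.mul_sum, ← Finset.sum_sub_distrib, ← Finset.sum_add_distrib]
    apply Finset.sum_congr rfl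
    intro i _
    rw [norm_sub_sq_real]
  have a7 : ∑ i, ‖z i - w i‖ ^ 2 ≤ 0 := by rw [a6, ← a1, h2]; linarith
  have a8 : ∑ i, ‖z i - w i‖ ^ 2 = 0 :=
    le_antisymm a7 (Finset.sum_nonneg (fun _ _ => by positivity))
  rw [Finset.sum_eq_zero_iff_of_nonneg (fun _ _ => by positivity)] at a8
  have a9 := a8 i (Finset.mem_univ i)
  have a10 : z i - w i = 0 := by simpa using a9
  exact (sub_eq_zero.mp a10).symm

lemma sum_zero_of_moment {z : ι → E} (hinj : Function.Injective z)
    (hm : ∀ i, ∫ x in cell z i, x ∂(stdGaussian E) = z i) : ∑ i, z i = 0 := by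
  have h := sum_setIntegral (measurableSet_cell z) (cell_aedisjoint z) (cell_cover hinj)
    (IsGaussian.integrable_id (μ := stdGaussian E))
  simp only [id] at h
  rw [integral_id_stdGaussian] at h
  rw [← h]
  exact Finset.sum_congr rfl (fun i _ => (hm i).symm)

lemma neg_of_moment {z : ι → E} (hP : PK E (Fintype.card ι - 1)) (hinj : Function.Injective z)
    (h1 : CC < SQ z)
    (hm : ∀ i, ∫ x in cell z i, x ∂(stdGaussian E) = z i) (i j : ι) (hij : i ≠ j) :
    ⟪z i, z j⟫ < 0 := by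
  set B : {l : ι // l ≠ j} → Set E :=
    fun l => if l.1 = i then cell z i ∪ cell z j else cell z l with hB
  have c1 : ∀ l, MeasurableSet (B l) := by
    intro l
    simp only [hB]
    split_ifs
    · exact (measurableSet_cell z i).union (measurableSet_cell z j)
    · exact measurableSet_cell z l
  have c2 : Pairwise (Function.onFun (AEDisjoint (stdGaussian E)) B) := by
    intro l m hlm
    have hlm' : l.1 ≠ m.1 := fun h => hlm (Subtype.ext h)
    apply Disjoint.aedisjoint
    simp only [hB]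
    split_ifs with hl hm'
    · exact absurd (hl.trans hm'.symm) hlm'
    · rw [Set.disjoint_union_left]
      exact ⟨cell_disjoint z (fun h => hm' h.symm), cell_disjoint z m.2.symm⟩
    · rename_i hm'
      rw [Set.disjoint_union_right]
      exact ⟨cell_disjoint z hl, cell_disjoint z l.2⟩
    · exact cell_disjoint z hlm'
  have c3 : stdGaussian E (⋃ l, B l)ᶜ = 0 := by
    apply measure_mono_null _ (cell_cover hinj)
    rw [Set.compl_subset_compl]
    intro x hx
    rw [mem_iUnion] at hx ⊢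
    obtain ⟨l, hl⟩ := hx
    by_cases hlj : l = j
    · refine ⟨⟨i, hij⟩, ?_⟩
      simp only [hB, if_true]
      right
      rw [← hlj]; exact hl
    · by_cases hli : l = i
      · refine ⟨⟨i, hij⟩, ?_⟩
        simp only [hB, if_true]
        left
        rw [← hli]; exact hl
      · refine ⟨⟨l, hlj⟩, ?_⟩
        simp only [hB, if_neg hli]
        exact hl
  have c4 := partition_of_PK (E := E) (ι := {l : ι // l ≠ j})
    (fun _ => by rw [card_ne]; exact hP) c1 c2 c3
  have c5 : ∀ l : {l : ι // l ≠ j}, ∫ x in B l, x ∂(stdGaussian E)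
      = z l + if l.1 = i then z j else 0 := by
    intro l
    simp only [hB]
    split_ifs with h
    · have hi1 : Integrable (fun x : E => x) (stdGaussian E) :=
        IsGaussian.integrable_id (μ := stdGaussian E)
      rw [setIntegral_union (cell_disjoint z hij) (measurableSet_cell z j)
        hi1.integrableOn hi1.integrableOn, hm, hm, h]
    · rw [hm, add_zero]
  simp only [c5] at c4
  have c6 : ∑ l : {l : ι // l ≠ j}, ‖z l + if l.1 = i then z j else 0‖ ^ 2
      = ∑ l : {l : ι // l ≠ j}, ‖z l‖ ^ 2 + (2 * ⟪z i, z j⟫ + ‖z j‖ ^ 2) := by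
    have c7 : ∀ l : {l : ι // l ≠ j}, ‖z l + if l.1 = i then z j else 0‖ ^ 2
        = ‖z l‖ ^ 2 + if l = (⟨i, hij⟩ : {l : ι // l ≠ j}) then
          (2 * ⟪z i, z j⟫ + ‖z j‖ ^ 2) else 0 := by
      intro l
      by_cases h : l.1 = i
      · have h' : l = (⟨i, hij⟩ : {l : ι // l ≠ j}) := Subtype.ext h
        rw [if_pos h, if_pos h', norm_add_sq_real, h]
        ring
      · have h' : ¬ l = (⟨i, hij⟩ : {l : ι // l ≠ j}) := fun h' => h (by rw [h'])
        rw [if_neg h, if_neg h', add_zero, add_zero]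
    simp only [c7]
    rw [Finset.sum_add_distrib, Finset.sum_ite_eq' Finset.univ]
    simp
  rw [c6] at c4
  have c8 := SQ_split z j
  unfold SQ at c8
  rw [c8] at c4
  have c9 : SQ z = ∑ i, ‖z i‖ ^ 2 := rfl
  linarith

lemma drop_of_sum_zero {z : ι → E} (hP : PK E (Fintype.card ι - 1)) (h0 : ∑ i, z i = 0)
    (i : ι) : EM (fun j : {j : ι // j ≠ i} => z j) ≤
    √(CC * (SQ z - (Fintype.card ι : ℝ) / (Fintype.card ι - 1) * ‖z i‖ ^ 2)) := by
  have hc : 1 < Fintype.card ι := Fintype.one_lt_card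
  have hc' : (0 : ℝ) < (Fintype.card ι : ℝ) - 1 := by
    have : (1 : ℝ) < (Fintype.card ι : ℝ) := by exact_mod_cast hc
    linarith
  set n : ℝ := (Fintype.card ι : ℝ) - 1 with hn
  set u : E := n⁻¹ • z i with hu
  have h1 := hP {j : ι // j ≠ i} (card_ne i) (fun j => z j + u)
  have h2 : EM (fun j : {j : ι // j ≠ i} => z j + u) = EM (fun j : {j : ι // j ≠ i} => z j) :=
    EM_add_const (fun j : {j : ι // j ≠ i} => z j) u
  have h3 : ∑ j : {j : ι // j ≠ i}, z j = - z i := by
    have := Fintype.sum_eq_add_sum_subtype_ne z i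
    rw [h0] at this
    rw [eq_neg_iff_add_eq_zero, add_comm]
    exact this.symm
  have h4 : SQ (fun j : {j : ι // j ≠ i} => z j + u)
      = SQ z - (Fintype.card ι : ℝ) / (Fintype.card ι - 1) * ‖z i‖ ^ 2 := by
    have e1 : SQ (fun j : {j : ι // j ≠ i} => z j + u)
        = SQ (fun j : {j : ι // j ≠ i} => z j) + 2 * ⟪∑ j : {j : ι // j ≠ i}, z j, u⟫
          + n * ‖u‖ ^ 2 := by
      unfold SQ
      simp only [norm_add_sq_real]
      rw [Finset.sum_add_distrib, Finset.sum_add_distrib, ← Finset.mul_sum, sum_inner]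
      simp only [Finset.sum_const, Finset.card_univ, card_ne, nsmul_eq_mul]
      rw [Nat.cast_sub hc.le, Nat.cast_one]
    rw [e1, SQ_split, h3, hu, inner_neg_left, inner_smul_right, real_inner_self_eq_norm_sq,
      norm_smul, Real.norm_eq_abs, abs_of_pos (inv_pos.mpr hc')]
    have e2 : (Fintype.card ι : ℝ) = n + 1 := by rw [hn]; ring
    rw [← hn, e2]
    field_simp
    ring
  rw [h2, h4] at h1
  rw [Real.sqrt_mul CC_pos.le]
  exact h1

/-- existence of a critical configuration -/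
theorem exists_crit (hP : PK E (Fintype.card ι - 1)) {z : ι → E}
    (hz : √CC * √(SQ z) < EM z) : ∃ y : ι → E, Crit y := by
  obtain ⟨y, h1, h2, h3⟩ := exists_max hz
  have hinj := inj_of_max hP h1 h2
  have hm := moment_of_max hinj h2 h3
  have h0 := sum_zero_of_moment hinj hm
  exact ⟨y, h1, hinj, hm, h2, h3, h0, neg_of_moment hP hinj h1 hm, drop_of_sum_zero hP h0⟩

omit [MeasurableSpace E] [BorelSpace E] [FiniteDimensional ℝ E] [Nontrivial ι] in
/-- the only linear relations are the constant ones -/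
lemma rel_const {z : ι → E} (h0 : ∑ i, z i = 0) (hneg : ∀ i j, i ≠ j → ⟪z i, z j⟫ < 0)
    {c : ι → ℝ} (hc : ∑ i, c i • z i = 0) (i j : ι) : c i = c j := by
  have h1 : ∑ i, ∑ j, (c i - c j) ^ 2 * ⟪z i, z j⟫ = 0 := by
    have e1 : ∀ i j, (c i - c j) ^ 2 * ⟪z i, z j⟫
        = c i ^ 2 * ⟪z i, z j⟫ + c j ^ 2 * ⟪z i, z j⟫ - 2 * (⟪c i • z i, c j • z j⟫) := by
      intro i j
      rw [inner_smul_left, inner_smul_right]
      simp only [RCLike.conj_to_real]
      ring
    simp only [e1, Finset.sum_add_distrib, Finset.sum_sub_distrib, ← Finset.mul_sum]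
    have e2 : ∑ i, c i ^ 2 * ∑ j, ⟪z i, z j⟫ = 0 := by
      apply Finset.sum_eq_zero
      intro i _
      rw [← inner_sum, h0, inner_zero_right, mul_zero]
    have e3 : ∑ i, ∑ j, c j ^ 2 * ⟪z i, z j⟫ = 0 := by
      rw [Finset.sum_comm]
      apply Finset.sum_eq_zero
      intro j _
      rw [← Finset.mul_sum, ← sum_inner, h0, inner_zero_left, mul_zero]
    have e4 : ∑ i, ∑ j, ⟪c i • z i, c j • z j⟫ = 0 := by
      have : ∀ i, ∑ j, ⟪c i • z i, c j • z j⟫ = 0 := by
        intro i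
        rw [← inner_sum, hc, inner_zero_right]
      exact Finset.sum_eq_zero (fun i _ => this i)
    rw [e2, e3, e4]
    ring
  have h2 : ∀ i j, (c i - c j) ^ 2 * ⟪z i, z j⟫ ≤ 0 := by
    intro i j
    by_cases h : i = j
    · rw [h]; simp
    · exact mul_nonpos_of_nonneg_of_nonpos (sq_nonneg _) (hneg i j h).le
  have h3 := (Finset.sum_eq_zero_iff_of_nonpos
    (fun i _ => Finset.sum_nonpos (fun j _ => h2 i j))).mp h1 i (Finset.mem_univ i)
  have h4 := (Finset.sum_eq_zero_iff_of_nonpos (fun j _ => h2 i j)).mp h3 j (Finset.mem_univ j)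
  by_contra hne
  have hij : i ≠ j := fun h => hne (by rw [h])
  have h5 := hneg i j hij
  rcases mul_eq_zero.mp h4 with h6 | h6
  · exact hne (by nlinarith [sq_nonneg (c i - c j)])
  · linarith

omit [MeasurableSpace E] [BorelSpace E] [Nontrivial ι] in
/-- the altitude direction -/
lemma exists_altitude' {z : ι → E} (h0 : ∑ i, z i = 0)
    (hneg : ∀ i j, i ≠ j → ⟪z i, z j⟫ < 0) (i : ι) :
    ∃ v : E, ∀ j, j ≠ i → ⟪z j, v⟫ = -1 := by
  have hli : LinearIndependent ℝ (fun j : {j : ι // j ≠ i} => z j) := by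
    rw [Fintype.linearIndependent_iff]
    intro g hg j
    set c : ι → ℝ := fun l => if h : l ≠ i then g ⟨l, h⟩ else 0 with hc
    have h1 : ∑ l, c l • z l = 0 := by
      rw [Fintype.sum_eq_add_sum_subtype_ne (fun l => c l • z l) i]
      have h2 : c i = 0 := by simp [hc]
      rw [h2, zero_smul, zero_add, ← hg]
      apply Finset.sum_congr rfl
      intro l _
      have : c l = g l := by simp [hc, l.2]
      rw [this]
    have h3 := rel_const h0 hneg h1 j.1 i
    have h4 : c i = 0 := by simp [hc]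
    have h5 : c j.1 = g j := by simp [hc, j.2]
    rw [← h5, h3, h4]
  let b := Module.Basis.span hli
  obtain ⟨f, hf⟩ := LinearMap.exists_extend (b.constr ℝ (fun _ => (-1 : ℝ)))
  refine ⟨(InnerProductSpace.toDual ℝ E).symm (LinearMap.toContinuousLinearMap f), ?_⟩
  intro j hj
  rw [real_inner_comm, InnerProductSpace.toDual_symm_apply]
  have h1 : (LinearMap.toContinuousLinearMap f) (z j) = f (z j) := rfl
  rw [h1]
  have h2 : (b ⟨j, hj⟩ : E) = z j := by
    simp [b, Module.Basis.span_apply]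
  have h3 : f (b ⟨j, hj⟩ : E) = (b.constr ℝ (fun _ => (-1 : ℝ))) (b ⟨j, hj⟩) := by
    rw [← hf]; rfl
  rw [← h2, h3, Module.Basis.constr_basis]

omit [MeasurableSpace E] [BorelSpace E] in
/-- the unit altitude direction -/
lemma exists_altitude {z : ι → E} (h0 : ∑ i, z i = 0)
    (hneg : ∀ i j, i ≠ j → ⟪z i, z j⟫ < 0) (i : ι) :
    ∃ (v : E) (h : ℝ), ‖v‖ = 1 ∧ 0 < h ∧ (∀ j, j ≠ i → ⟪z j, v⟫ = -h) ∧
      ⟪z i, v⟫ = ((Fintype.card ι : ℝ) - 1) * h := by
  obtain ⟨v, hv⟩ := exists_altitude' h0 hneg i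
  have hv0 : v ≠ 0 := by
    rintro rfl
    obtain ⟨j, hj⟩ := exists_ne i
    have := hv j hj
    rw [inner_zero_right] at this
    linarith
  have hn : 0 < ‖v‖ := norm_pos_iff.mpr hv0
  have hi : ⟪z i, v⟫ = (Fintype.card ι : ℝ) - 1 := by
    have h1 : ∑ j, ⟪z j, v⟫ = 0 := by rw [← sum_inner, h0, inner_zero_left]
    rw [Fintype.sum_eq_add_sum_subtype_ne (fun j => ⟪z j, v⟫) i] at h1
    have h2 : ∑ j : {j : ι // j ≠ i}, ⟪z j, v⟫ = -((Fintype.card ι : ℝ) - 1) := by
      rw [Finset.sum_congr rfl (fun j _ => hv j.1 j.2)]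
      rw [Finset.sum_const, Finset.card_univ, card_ne, nsmul_eq_mul,
        Nat.cast_sub Fintype.card_pos, Nat.cast_one]
      ring
    rw [h2] at h1
    linarith
  refine ⟨‖v‖⁻¹ • v, ‖v‖⁻¹, ?_, inv_pos.mpr hn, ?_, ?_⟩
  · rw [norm_smul, norm_inv, norm_norm, inv_mul_cancel₀ hn.ne']
  · intro j hj
    rw [inner_smul_right, hv j hj]
    ring
  · rw [inner_smul_right, hi]
    ring

/-- the gain of the vector `z i` over the others -/
def DD (z : ι → E) (i : ι) : ℝ := ∫ x, max (⟪x, z i⟫ - mo z i x) 0 ∂(stdGaussian E)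

lemma integrable_mo (z : ι → E) (i : ι) : Integrable (mo z i) (stdGaussian E) := integrable_mx _

lemma DD_eq (z : ι → E) (i : ι) : DD z i = EM z - EM (fun j : {j : ι // j ≠ i} => z j) := by
  unfold DD EM
  rw [← integral_sub (integrable_mx z) (integrable_mx _)]
  congr 1
  ext x
  show _ = mx z x - mo z i x
  rw [mx_eq_max z i x]
  rcases le_total ⟪x, z i⟫ (mo z i x) with h | h
  · rw [max_eq_right h, max_eq_right (by linarith)]; ring
  · rw [max_eq_left h, max_eq_left (by linarith)]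

/-- the lower bound for the gain -/
lemma Crit.DD_ge {z : ι → E} (hz : Crit z) (i : ι) :
    SQ z - √(CC * (SQ z - (Fintype.card ι : ℝ) / (Fintype.card ι - 1) * ‖z i‖ ^ 2)) ≤ DD z i := by
  rw [DD_eq, hz.em]
  have := hz.drop i
  linarith

end exist

/-- the induction scheme -/
theorem PK_all (h : ∀ m : ℕ, PK E (m + 3) → ∀ z : Fin (m + 4) → E, ¬ Crit z) (k : ℕ) :
    PK E (k + 1) := by
  induction k with
  | zero => exact PK_one
  | succ k ih =>
    match k, ih with
    | 0, _ => exact PK_two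
    | 1, _ => exact PK_three
    | m + 2, ih =>
      apply PK_of_fin
      intro z
      by_contra hc
      rw [not_le] at hc
      have hP : PK E (Fintype.card (Fin (m + 4)) - 1) := by
        rw [Fintype.card_fin]
        exact ih
      obtain ⟨y, hy⟩ := exists_crit hP hc
      exact h m ih y hy

end

end GP

end Vale.Agent.P226
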