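import Vale.Agent.P226.GPhi

/-!
# P226: among plane sets of given area the centred disc has the largest Gaussian measure
-/

noncomputable section

namespace Vale.Agent.P226.DiscArea

open MeasureTheory ProbabilityTheory Set Filter Topology
open Vale.Agent.P226.EhrPhi

/-- planar Gaussian density -/
def rho (p : ℝ × ℝ) : ℝ := Real.exp (-(p.1 ^ 2 + p.2 ^ 2) / 2) / (2 * Real.pi)

lemma rho_eq (p : ℝ × ℝ) : rho p = gpdf p.1 * gpdf p.2 := by
  unfold rho gpdf
  rw [div_mul_div_comm, ← Real.exp_add, Real.mul_self_sqrt (by positivity)]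
  congr 2
  ring

lemma continuous_rho : Continuous rho := by unfold rho; fun_prop

lemma rho_pos (p : ℝ × ℝ) : 0 < rho p := by unfold rho; positivity

lemma integrable_rho : Integrable rho := by
  have : rho = fun p : ℝ × ℝ => gpdf p.1 * gpdf p.2 := funext rho_eq
  rw [this]
  exact integrable_gpdf.mul_prod integrable_gpdf

/-- the radial integral -/
lemma radial {R : ℝ} (hR : 0 ≤ R) :
    ∫ r in Ioi (0 : ℝ), r * max (Real.exp (-r ^ 2 / 2) / (2 * Real.pi)
      - Real.exp (-R ^ 2 / 2) / (2 * Real.pi)) 0 =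
    (1 - Real.exp (-R ^ 2 / 2)) / (2 * Real.pi)
      - Real.exp (-R ^ 2 / 2) / (2 * Real.pi) * (R ^ 2 / 2) := by
  obtain ⟨l, hl⟩ : ∃ l, l = Real.exp (-R ^ 2 / 2) / (2 * Real.pi) := ⟨_, rfl⟩
  have hpi : (0 : ℝ) < 2 * Real.pi := by positivity
  rw [← hl]
  have e1 : ∫ r in Ioi (0 : ℝ), r * max (Real.exp (-r ^ 2 / 2) / (2 * Real.pi) - l) 0
      = ∫ r in Ioc (0 : ℝ) R, r * (Real.exp (-r ^ 2 / 2) / (2 * Real.pi) - l) := by
    rw [← integral_indicator measurableSet_Ioi, ← integral_indicator measurableSet_Ioc]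
    congr 1
    funext r
    by_cases h0 : 0 < r
    · rw [indicator_of_mem (show r ∈ Ioi (0 : ℝ) from h0)]
      by_cases h1 : r ≤ R
      · rw [indicator_of_mem (show r ∈ Ioc (0 : ℝ) R from ⟨h0, h1⟩), max_eq_left]
        rw [hl, sub_nonneg]
        apply div_le_div_of_nonneg_right _ hpi.le
        apply Real.exp_le_exp.mpr
        nlinarith
      · rw [indicator_of_notMem (fun h => h1 h.2), max_eq_right, mul_zero]
        rw [hl, sub_nonpos]
        apply div_le_div_of_nonneg_right _ hpi.le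
        apply Real.exp_le_exp.mpr
        push Not at h1
        nlinarith
    · rw [indicator_of_notMem (show r ∉ Ioi (0 : ℝ) from h0),
        indicator_of_notMem (show r ∉ Ioc (0 : ℝ) R from fun h => h0 h.1)]
  rw [e1, ← intervalIntegral.integral_of_le hR]
  have hd : ∀ r ∈ uIcc 0 R, HasDerivAt (fun r : ℝ => -(Real.exp (-r ^ 2 / 2)) / (2 * Real.pi)
      - l * (r ^ 2 / 2)) (r * (Real.exp (-r ^ 2 / 2) / (2 * Real.pi) - l)) r := by
    intro r _
    have h1 : HasDerivAt (fun x : ℝ => -x ^ 2 / 2) (-r) r := by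
      have h := ((hasDerivAt_pow 2 r).neg).div_const 2
      have e : -(((2 : ℕ) : ℝ) * r ^ (2 - 1)) / 2 = -r := by norm_num; ring
      rw [e] at h
      exact h
    have h2 : HasDerivAt (fun x : ℝ => x ^ 2 / 2) r r := by
      have h := (hasDerivAt_pow 2 r).div_const 2
      have e : (((2 : ℕ) : ℝ) * r ^ (2 - 1)) / 2 = r := by norm_num
      rw [e] at h
      exact h
    have h3 := ((h1.exp.neg).div_const (2 * Real.pi)).sub (h2.const_mul l)
    have e3 : -(Real.exp (-r ^ 2 / 2) * -r) / (2 * Real.pi) - l * r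
        = r * (Real.exp (-r ^ 2 / 2) / (2 * Real.pi) - l) := by ring
    rw [e3] at h3
    exact h3
  rw [intervalIntegral.integral_eq_sub_of_hasDerivAt hd
    (by apply Continuous.intervalIntegrable; fun_prop)]
  simp
  ring

/-- the planar integral -/
lemma planar {R : ℝ} (hR : 0 ≤ R) :
    ∫ p : ℝ × ℝ, max (rho p - Real.exp (-R ^ 2 / 2) / (2 * Real.pi)) 0 =
      1 - Real.exp (-R ^ 2 / 2) - Real.exp (-R ^ 2 / 2) * (R ^ 2 / 2) := by
  rw [← integral_comp_polarCoord_symm]
  have h1 : ∀ p ∈ polarCoord.target, p.1 • max (rho (polarCoord.symm p)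
      - Real.exp (-R ^ 2 / 2) / (2 * Real.pi)) 0 =
      (p.1 * max (Real.exp (-p.1 ^ 2 / 2) / (2 * Real.pi)
      - Real.exp (-R ^ 2 / 2) / (2 * Real.pi)) 0) * (1 : ℝ) := by
    intro p _
    rw [polarCoord_symm_apply, smul_eq_mul, mul_one]
    unfold rho
    have : (p.1 * Real.cos p.2) ^ 2 + (p.1 * Real.sin p.2) ^ 2 = p.1 ^ 2 := by
      nlinarith [Real.cos_sq_add_sin_sq p.2]
    simp only
    rw [this]
  rw [setIntegral_congr_fun polarCoord.open_target.measurableSet h1, polarCoord_target,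
    Measure.volume_eq_prod, setIntegral_prod_mul (μ := volume) (ν := volume)
      (fun r : ℝ => r * max (Real.exp (-r ^ 2 / 2) / (2 * Real.pi)
      - Real.exp (-R ^ 2 / 2) / (2 * Real.pi)) 0) (fun _ : ℝ => (1 : ℝ)) (Ioi 0)
      (Ioo (-Real.pi) Real.pi), radial hR]
  simp only [integral_const, MeasurableSet.univ, measureReal_restrict_apply, univ_inter,
    Real.volume_real_Ioo_of_le (by linarith [Real.pi_pos] : -Real.pi ≤ Real.pi), smul_eq_mul,
    mul_one]
  have := Real.pi_pos
  field_simp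
  ring

/-- **area bound**: `∫_S ρ ≤ 1 - exp (-a / 2π)` as soon as the area of `S` is at most `a`. -/
theorem setIntegral_rho_le {S : Set (ℝ × ℝ)} (hS : MeasurableSet S) (hfin : volume S ≠ ⊤)
    {a : ℝ} (ha : volume.real S ≤ a) :
    ∫ p in S, rho p ≤ 1 - Real.exp (-a / (2 * Real.pi)) := by
  have hpi := Real.pi_pos
  have ha0 : 0 ≤ a := measureReal_nonneg.trans ha
  obtain ⟨R, hR⟩ : ∃ R, R = √(a / Real.pi) := ⟨_, rfl⟩
  have hR0 : 0 ≤ R := by rw [hR]; exact Real.sqrt_nonneg _
  have hR2 : R ^ 2 = a / Real.pi := by rw [hR]; exact Real.sq_sqrt (by positivity)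
  obtain ⟨l, hl⟩ : ∃ l, l = Real.exp (-R ^ 2 / 2) / (2 * Real.pi) := ⟨_, rfl⟩
  have hl0 : 0 ≤ l := by rw [hl]; positivity
  have hpl := planar hR0
  rw [← hl] at hpl
  have hi1 : Integrable (fun p : ℝ × ℝ => max (rho p - l) 0) := by
    apply integrable_rho.mono' (by have := continuous_rho; fun_prop)
    refine ae_of_all _ fun p => ?_
    rw [Real.norm_eq_abs, abs_of_nonneg (le_max_right _ _)]
    exact max_le (by linarith) (rho_pos p).le
  have h1 : ∫ p in S, rho p ≤ ∫ p in S, (l + max (rho p - l) 0) := by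
    apply setIntegral_mono integrable_rho.integrableOn
    · exact (integrableOn_const hfin).add hi1.integrableOn
    · intro p
      have := le_max_left (rho p - l) 0
      show rho p ≤ l + max (rho p - l) 0
      linarith
  have h2 : ∫ p in S, (l + max (rho p - l) 0) = l * volume.real S + ∫ p in S, max (rho p - l) 0 := by
    have hc : IntegrableOn (fun _ : ℝ × ℝ => l) S volume := integrableOn_const hfin
    rw [integral_add hc hi1.integrableOn, setIntegral_const, smul_eq_mul, mul_comm]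
  have h3 : ∫ p in S, max (rho p - l) 0 ≤ ∫ p, max (rho p - l) 0 :=
    setIntegral_le_integral hi1 (ae_of_all _ fun p => le_max_right _ _)
  have h4 : l * volume.real S ≤ l * a := mul_le_mul_of_nonneg_left ha hl0
  have e1 : -R ^ 2 / 2 = -a / (2 * Real.pi) := by
    rw [hR2]; field_simp
  have e2 : l * a = Real.exp (-R ^ 2 / 2) * (R ^ 2 / 2) := by
    rw [hl, hR2]; field_simp
  rw [← e1]
  linarith

/-- the measure form -/
theorem gauss_le {S : Set (ℝ × ℝ)} (hS : MeasurableSet S) (hfin : volume S ≠ ⊤)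
    {a : ℝ} (ha : volume.real S ≤ a) :
    ((gaussianReal 0 1).prod (gaussianReal 0 1)).real S ≤ 1 - Real.exp (-a / (2 * Real.pi)) := by
  have hγ : gaussianReal 0 1 = volume.withDensity (fun x => ENNReal.ofReal (gpdf x)) := by
    rw [gaussianReal_of_var_ne_zero 0 (by norm_num)]
    congr 1
    funext x
    rw [← gpdf_eq]
    rfl
  have hprod : (gaussianReal 0 1).prod (gaussianReal 0 1)
      = (volume : Measure (ℝ × ℝ)).withDensity (fun p => ENNReal.ofReal (rho p)) := by
    rw [hγ, prod_withDensity (by fun_prop) (by fun_prop), ← Measure.volume_eq_prod]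
    congr 1
    funext p
    rw [← ENNReal.ofReal_mul (gpdf_nonneg _), rho_eq]
  rw [hprod, measureReal_def, withDensity_apply _ hS,
    ← integral_eq_lintegral_of_nonneg_ae (ae_of_all _ fun p => (rho_pos p).le)
      continuous_rho.aestronglyMeasurable]
  exact setIntegral_rho_le hS hfin ha

end Vale.Agent.P226.DiscArea
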