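import Vale.Agent.P226.GPhi

/-!
# P226: the one-dimensional integral in the disc lemma
-/

noncomputable section

namespace Vale.Agent.P226.DiscCalc

open MeasureTheory ProbabilityTheory Set Filter Topology
open Vale.Agent.P226.EhrPhi

lemma hasDerivAt_half_sq (a t : ℝ) :
    HasDerivAt (fun t : ℝ => -Real.exp (-(a * t ^ 2 / 2)) ) (a * t * Real.exp (-(a * t ^ 2 / 2))) t := by
  have h1 : HasDerivAt (fun x : ℝ => -(a * x ^ 2 / 2)) (-(a * t)) t := by
    have h := (((hasDerivAt_pow 2 t).const_mul a).div_const 2).neg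
    have e : -(a * (((2 : ℕ) : ℝ) * t ^ (2 - 1)) / 2) = -(a * t) := by norm_num; ring
    rw [e] at h
    exact h
  have h2 := h1.exp.neg
  have e : -(Real.exp (-(a * t ^ 2 / 2)) * -(a * t)) = a * t * Real.exp (-(a * t ^ 2 / 2)) := by ring
  rw [e] at h2
  exact h2

lemma tendsto_half_sq {a : ℝ} (ha : 0 < a) :
    Tendsto (fun t : ℝ => -Real.exp (-(a * t ^ 2 / 2))) atTop (𝓝 0) := by
  have h1 : Tendsto (fun t : ℝ => a * t ^ 2 / 2) atTop atTop := by
    apply Tendsto.atTop_div_const (by norm_num)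
    exact (tendsto_pow_atTop (by norm_num)).const_mul_atTop ha
  have h2 := (Real.tendsto_exp_neg_atTop_nhds_zero.comp h1).neg
  rw [neg_zero] at h2
  exact h2

lemma integral_half {a : ℝ} (ha : 0 < a) :
    ∫ t in Ioi (0 : ℝ), a * t * Real.exp (-(a * t ^ 2 / 2)) = 1 := by
  have := integral_Ioi_of_hasDerivAt_of_nonneg' (a := (0 : ℝ)) (fun t _ => hasDerivAt_half_sq a t)
    (fun t (ht : t ∈ Ioi (0 : ℝ)) => by
      have : (0 : ℝ) < t := ht
      positivity) (tendsto_half_sq ha)
  rw [this]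
  simp

lemma integrableOn_half {a : ℝ} (ha : 0 < a) :
    IntegrableOn (fun t : ℝ => a * t * Real.exp (-(a * t ^ 2 / 2))) (Ioi 0) :=
  integrableOn_Ioi_deriv_of_nonneg' (a := (0 : ℝ)) (fun t _ => hasDerivAt_half_sq a t)
    (fun t (ht : t ∈ Ioi (0 : ℝ)) => by
      have : (0 : ℝ) < t := ht
      positivity) (tendsto_half_sq ha)

lemma integral_t_exp {a : ℝ} (ha : 0 < a) :
    ∫ t in Ioi (0 : ℝ), t * Real.exp (-(a * t ^ 2 / 2)) = 1 / a := by
  have h := integral_half ha
  have e : (fun t : ℝ => a * t * Real.exp (-(a * t ^ 2 / 2))) =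
      fun t => a * (t * Real.exp (-(a * t ^ 2 / 2))) := by funext t; ring
  rw [e, integral_const_mul] at h
  rw [eq_div_iff ha.ne', mul_comm]
  exact h

lemma integrableOn_t_exp {a : ℝ} (ha : 0 < a) :
    IntegrableOn (fun t : ℝ => t * Real.exp (-(a * t ^ 2 / 2))) (Ioi 0) := by
  have h := (integrableOn_half ha).const_mul (1 / a)
  refine h.congr (ae_of_all _ fun t => ?_)
  show 1 / a * (a * t * Real.exp (-(a * t ^ 2 / 2))) = t * Real.exp (-(a * t ^ 2 / 2))
  field_simp

lemma t_gpdf (t : ℝ) : t * gpdf t = (√(2 * Real.pi))⁻¹ * (t * Real.exp (-(1 * t ^ 2 / 2))) := by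
  unfold gpdf
  rw [one_mul, neg_div]
  ring

/-- the inner integral -/
lemma inner_int {k u : ℝ} (hk : 0 < k) :
    ∫ t in Ioi (0 : ℝ), t * gpdf t * (1 - Real.exp (-(k * (t * u) ^ 2 / 2)))
      = (√(2 * Real.pi))⁻¹ * (1 - 1 / (1 + k * u ^ 2)) := by
  have hpos : 0 < 1 + k * u ^ 2 := by positivity
  have e : ∀ t : ℝ, t * gpdf t * (1 - Real.exp (-(k * (t * u) ^ 2 / 2))) =
      (√(2 * Real.pi))⁻¹ * ((t * Real.exp (-(1 * t ^ 2 / 2)))
        - (t * Real.exp (-((1 + k * u ^ 2) * t ^ 2 / 2)))) := by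
    intro t
    rw [t_gpdf]
    have : Real.exp (-((1 + k * u ^ 2) * t ^ 2 / 2)) =
        Real.exp (-(1 * t ^ 2 / 2)) * Real.exp (-(k * (t * u) ^ 2 / 2)) := by
      rw [← Real.exp_add]; congr 1; ring
    rw [this]
    ring
  simp_rw [e]
  rw [integral_const_mul, integral_sub (integrableOn_t_exp one_pos) (integrableOn_t_exp hpos),
    integral_t_exp one_pos, integral_t_exp hpos, div_one]

lemma outer_int {k : ℝ} (hk : 0 < k) (b : ℝ) :
    ∫ u in (0 : ℝ)..b, (1 - 1 / (1 + k * u ^ 2)) = b - Real.arctan (√k * b) / √k := by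
  have hs : 0 < √k := Real.sqrt_pos.mpr hk
  have hs2 : √k ^ 2 = k := Real.sq_sqrt hk.le
  have hd : ∀ u ∈ uIcc 0 b, HasDerivAt (fun u : ℝ => u - Real.arctan (√k * u) / √k)
      (1 - 1 / (1 + k * u ^ 2)) u := by
    intro u _
    have h1 := ((hasDerivAt_id u).const_mul (√k)).arctan.div_const (√k)
    have h2 := (hasDerivAt_id u).sub h1
    have e : 1 - 1 / (1 + (√k * id u) ^ 2) * (√k * 1) / √k = 1 - 1 / (1 + k * u ^ 2) := by
      rw [id_eq, mul_pow, hs2]
      field_simp
    rw [e] at h2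
    exact h2
  rw [intervalIntegral.integral_eq_sub_of_hasDerivAt hd]
  · simp
  · apply Continuous.intervalIntegrable
    have : ∀ u : ℝ, 1 + k * u ^ 2 ≠ 0 := fun u => by positivity
    fun_prop (disch := assumption)

/-- **the arctan formula** -/
theorem arctan_formula {k b : ℝ} (hk : 0 < k) (hb : 0 ≤ b) :
    ∫ t in Ioi (0 : ℝ), gpdf t * (∫ c in (0 : ℝ)..(b * t), (1 - Real.exp (-(k * c ^ 2 / 2))))
      = (√(2 * Real.pi))⁻¹ * (b - Real.arctan (√k * b) / √k) := by
  have e1 : ∀ t ∈ Ioi (0 : ℝ), gpdf t * (∫ c in (0 : ℝ)..(b * t), (1 - Real.exp (-(k * c ^ 2 / 2))))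
      = ∫ u in Ioc 0 b, t * gpdf t * (1 - Real.exp (-(k * (t * u) ^ 2 / 2))) := by
    intro t _
    have h := intervalIntegral.smul_integral_comp_mul_left (a := (0 : ℝ)) (b := b)
      (fun c => 1 - Real.exp (-(k * c ^ 2 / 2))) t
    rw [mul_zero, smul_eq_mul, mul_comm t b] at h
    rw [← h, integral_const_mul, ← intervalIntegral.integral_of_le hb]
    ring
  rw [setIntegral_congr_fun measurableSet_Ioi e1, integral_integral_swap]
  · simp_rw [inner_int hk]
    rw [← intervalIntegral.integral_of_le hb, intervalIntegral.integral_const_mul, outer_int hk b]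
  · -- integrability on the product
    have hdom : Integrable (fun z : ℝ × ℝ => (z.1 * gpdf z.1) * (1 : ℝ))
        ((volume.restrict (Ioi (0 : ℝ))).prod (volume.restrict (Ioc 0 b))) := by
      apply Integrable.mul_prod (f := fun t : ℝ => t * gpdf t) (g := fun _ : ℝ => (1 : ℝ))
      · have h := (integrableOn_t_exp one_pos).const_mul ((√(2 * Real.pi))⁻¹)
        exact h.congr (ae_of_all _ fun t => (t_gpdf t).symm)
      · exact integrable_const _
    refine hdom.mono (by
      apply Continuous.aestronglyMeasurable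
      simp only [Function.uncurry_def]
      fun_prop) (ae_of_all _ fun z => ?_)
    simp only [Function.uncurry, mul_one, norm_mul]
    have h1 : ‖1 - Real.exp (-(k * (z.1 * z.2) ^ 2 / 2))‖ ≤ 1 := by
      rw [Real.norm_eq_abs, abs_le]
      have h2 : Real.exp (-(k * (z.1 * z.2) ^ 2 / 2)) ≤ 1 := by
        rw [Real.exp_le_one_iff]
        have : 0 ≤ k * (z.1 * z.2) ^ 2 / 2 := by positivity
        linarith
      have h3 := Real.exp_pos (-(k * (z.1 * z.2) ^ 2 / 2))
      constructor <;> linarith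
    exact mul_le_of_le_one_right (by positivity) h1

end Vale.Agent.P226.DiscCalc
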