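import Vale.Agent.P226.DiscFull

/-!
# P226: the disc lemma for `stdGaussian E`
-/

noncomputable section

namespace Vale.Agent.P226.DiscE

open MeasureTheory ProbabilityTheory Set Filter Topology Module
open Vale.Agent.P226.EhrPhi Vale.Agent.P226.DiscArea Vale.Agent.P226.DiscCalc
  Vale.Agent.P226.DiscFull

open scoped RealInnerProductSpace

/-- first three coordinates of a product of standard Gaussians -/
lemma coords3 (n : ℕ) : (Measure.pi (fun _ : Fin (n + 3) => gaussianReal 0 1)).map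
    (fun x => (x 0, (x 1, x 2))) = (gaussianReal 0 1).prod ((gaussianReal 0 1).prod (gaussianReal 0 1)) := by
  have h1 := measurePreserving_piFinSuccAbove (fun _ : Fin (n + 3) => gaussianReal 0 1) 0
  have h2 := measurePreserving_piFinSuccAbove (fun _ : Fin (n + 2) => gaussianReal 0 1) 0
  have h3 : MeasurePreserving (fun x : Fin (n + 1) → ℝ => x 0)
      (Measure.pi (fun _ : Fin (n + 1) => gaussianReal 0 1)) (gaussianReal 0 1) :=
    measurePreserving_eval (fun _ : Fin (n + 1) => gaussianReal 0 1) 0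
  have h4 := (MeasurePreserving.id (gaussianReal 0 1)).prod h3
  have h5 := h4.comp h2
  have h6 := (MeasurePreserving.id (gaussianReal 0 1)).prod h5
  have h7 := h6.comp h1
  have e : (fun x : Fin (n + 3) → ℝ => (x 0, (x 1, x 2))) =
      (Prod.map id ((Prod.map id (fun x : Fin (n + 1) → ℝ => x 0)) ∘
        (MeasurableEquiv.piFinSuccAbove (fun _ : Fin (n + 2) => ℝ) 0))) ∘
        (MeasurableEquiv.piFinSuccAbove (fun _ : Fin (n + 3) => ℝ) 0) := by
    funext x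
    simp only [Function.comp_apply, MeasurableEquiv.piFinSuccAbove]
    rfl
  rw [e]
  exact h7.map_eq

variable {E : Type*} [NormedAddCommGroup E] [InnerProductSpace ℝ E] [FiniteDimensional ℝ E]
  [MeasurableSpace E] [BorelSpace E]

/-- the law of three orthonormal coordinates -/
theorem law3 {e : Fin 3 → E} (he : Orthonormal ℝ e) :
    (stdGaussian E).map (fun x => (⟪x, e 0⟫, (⟪x, e 1⟫, ⟪x, e 2⟫)))
      = (gaussianReal 0 1).prod ((gaussianReal 0 1).prod (gaussianReal 0 1)) := by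
  have hcard : 3 ≤ finrank ℝ E := by
    simpa using he.linearIndependent.fintype_card_le_finrank
  obtain ⟨n, hn⟩ : ∃ n, finrank ℝ E = n + 3 := ⟨_, (Nat.sub_add_cancel hcard).symm⟩
  set w : Fin (n + 3) → E := fun i => if h : i.1 < 3 then e ⟨i.1, h⟩ else 0 with hw
  set s : Set (Fin (n + 3)) := {i | i.1 < 3} with hs
  have horth : Orthonormal ℝ (s.domRestrict w) := by
    have h1 : s.domRestrict w = e ∘ (fun i : s => (⟨i.1.1, i.2⟩ : Fin 3)) := by
      funext i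
      simp only [Set.domRestrict_apply, Function.comp_apply, hw]
      rw [dif_pos]
    rw [h1]
    apply he.comp
    intro i j hij
    simp only [Fin.mk.injEq] at hij
    exact Subtype.ext (Fin.ext hij)
  obtain ⟨b, hb⟩ := horth.exists_orthonormalBasis_extension_of_card_eq (by simpa using hn)
  have hb0 : b 0 = e 0 := by
    rw [hb 0 (by simp [hs])]; simp [hw]
  have hb1 : b 1 = e 1 := by
    have : (1 : Fin (n + 3)).1 = 1 := rfl
    rw [hb 1 (by show (1 : Fin (n + 3)).1 < 3; rw [this]; norm_num)]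
    simp only [hw]
    rw [dif_pos (by rw [this]; norm_num)]
    rfl
  have hb2 : b 2 = e 2 := by
    have : (2 : Fin (n + 3)).1 = 2 := rfl
    rw [hb 2 (by show (2 : Fin (n + 3)).1 < 3; rw [this]; norm_num)]
    simp only [hw]
    rw [dif_pos (by rw [this]; norm_num)]
    rfl
  have hco : ∀ (x : Fin (n + 3) → ℝ) (j : Fin (n + 3)), ⟪∑ i, x i • b i, b j⟫ = x j := by
    intro x j
    rw [sum_inner]
    simp only [inner_smul_left, RCLike.conj_to_real]
    rw [Finset.sum_eq_single j]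
    · have : ⟪b j, b j⟫ = (1 : ℝ) := by
        rw [real_inner_self_eq_norm_sq, b.orthonormal.1 j]; norm_num
      rw [this]; ring
    · intro i _ hi
      rw [b.orthonormal.2 hi]; ring
    · intro h; exact absurd (Finset.mem_univ _) h
  rw [stdGaussian_eq_map_pi_orthonormalBasis b, Measure.map_map (by fun_prop) (by fun_prop)]
  rw [← coords3 n]
  congr 1
  funext x
  simp only [Function.comp_apply]
  rw [← hb0, ← hb1, ← hb2, hco, hco, hco]

/-- change of variables for three orthonormal coordinates -/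
theorem integral_law3 {e : Fin 3 → E} (he : Orthonormal ℝ e) {F : ℝ × (ℝ × ℝ) → ℝ}
    (hF : Continuous F) :
    ∫ x, F (⟪x, e 0⟫, (⟪x, e 1⟫, ⟪x, e 2⟫)) ∂(stdGaussian E)
      = ∫ z, F z ∂((gaussianReal 0 1).prod ((gaussianReal 0 1).prod (gaussianReal 0 1))) := by
  rw [← law3 he, integral_map (by fun_prop) hF.aestronglyMeasurable]

/-- projection orthogonal to `v` -/
def orp (v w : E) : E := w - (⟪w, v⟫ / ‖v‖ ^ 2) • v

omit [FiniteDimensional ℝ E] [MeasurableSpace E] [BorelSpace E] in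
lemma inner_orp_left {v : E} (hv : v ≠ 0) (w : E) : ⟪orp v w, v⟫ = 0 := by
  unfold orp
  rw [inner_sub_left, inner_smul_left, real_inner_self_eq_norm_sq]
  have : ‖v‖ ^ 2 ≠ 0 := by positivity
  simp only [RCLike.conj_to_real]
  field_simp
  ring

/-- **the disc lemma**: `E (⟪X,v⟫ - max_j ⟪X,v_j⟫)_+` for three vectors with sum zero. -/
theorem disc_lemma {v v1 v2 : E} (hv : v ≠ 0) {G : ℝ} (hG : 0 < G)
    (hGeq : G = ‖orp v v1‖ ^ 2 * ‖orp v v2‖ ^ 2 - ⟪orp v v1, orp v v2⟫ ^ 2) :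
    ∫ x, max (⟪x, v⟫ - max ⟪x, v1⟫ (max ⟪x, v2⟫ ⟪x, -v1 - v2⟫)) 0 ∂(stdGaussian E)
      ≤ (√(2 * Real.pi))⁻¹ * (‖v‖ - Real.arctan (√(9 / (2 * Real.pi * √G)) * ‖v‖)
        / √(9 / (2 * Real.pi * √G))) := by
  set a1 := orp v v1 with ha1
  set a2 := orp v v2 with ha2
  have hnv : 0 < ‖v‖ := norm_pos_iff.mpr hv
  have hna1 : 0 < ‖a1‖ := by
    rcases (norm_nonneg a1).eq_or_lt with h | h
    · exfalso
      rw [← h] at hGeq
      nlinarith [sq_nonneg ⟪a1, a2⟫]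
    · exact h
  have h1v : ⟪a1, v⟫ = 0 := inner_orp_left hv v1
  have h2v : ⟪a2, v⟫ = 0 := inner_orp_left hv v2
  -- orthonormal frame
  set c : ℝ := ⟪a2, a1⟫ / ‖a1‖ with hc
  set a2' : E := a2 - (c / ‖a1‖) • a1 with ha2'
  have h21 : ⟪a2', a1⟫ = 0 := by
    rw [ha2', inner_sub_left, inner_smul_left, real_inner_self_eq_norm_sq]
    simp only [RCLike.conj_to_real]
    rw [hc]
    field_simp
    ring
  have h2v' : ⟪a2', v⟫ = 0 := by
    rw [ha2', inner_sub_left, inner_smul_left, h1v, h2v]; simp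
  have hn2 : ‖a2'‖ ^ 2 = G / ‖a1‖ ^ 2 := by
    rw [← real_inner_self_eq_norm_sq]
    conv_lhs => rw [ha2']
    rw [inner_sub_right, inner_smul_right]
    have e1 : ⟪a2 - (c / ‖a1‖) • a1, a1⟫ = 0 := h21
    rw [e1, mul_zero, sub_zero, inner_sub_left, inner_smul_left, real_inner_self_eq_norm_sq]
    simp only [RCLike.conj_to_real]
    rw [hc, hGeq, real_inner_comm a2 a1]
    field_simp
  have hd0 : 0 < ‖a2'‖ := by
    have : 0 < ‖a2'‖ ^ 2 := by rw [hn2]; positivity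
    exact lt_of_le_of_ne (norm_nonneg _) (fun h => by rw [← h] at this; simp at this)
  have hprod : ‖a1‖ * ‖a2'‖ = √G := by
    rw [eq_comm, Real.sqrt_eq_iff_mul_self_eq hG.le (by positivity)]
    have : ‖a2'‖ ^ 2 * ‖a1‖ ^ 2 = G := by rw [hn2]; field_simp
    nlinarith
  set e : Fin 3 → E := ![‖v‖⁻¹ • v, ‖a1‖⁻¹ • a1, ‖a2'‖⁻¹ • a2'] with he
  have hon : Orthonormal ℝ e := by
    have n0 : ‖‖v‖⁻¹ • v‖ = 1 := by rw [norm_smul, norm_inv, norm_norm]; field_simp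
    have n1 : ‖‖a1‖⁻¹ • a1‖ = 1 := by rw [norm_smul, norm_inv, norm_norm]; field_simp
    have n2 : ‖‖a2'‖⁻¹ • a2'‖ = 1 := by rw [norm_smul, norm_inv, norm_norm]; field_simp
    have i01 : ⟪v, a1⟫ = 0 := by rw [real_inner_comm]; exact h1v
    have i02 : ⟪v, a2'⟫ = 0 := by rw [real_inner_comm]; exact h2v'
    have i12 : ⟪a1, a2'⟫ = 0 := by rw [real_inner_comm]; exact h21
    constructor
    · intro i
      fin_cases i
      · exact n0
      · exact n1
      · exact n2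
    · intro i j hij
      fin_cases i <;> fin_cases j <;>
        simp_all [inner_smul_left, inner_smul_right]
  -- expansions
  have x0 : ∀ x : E, ⟪x, v⟫ = ‖v‖ * ⟪x, e 0⟫ := by
    intro x
    show ⟪x, v⟫ = ‖v‖ * ⟪x, ‖v‖⁻¹ • v⟫
    rw [inner_smul_right]; field_simp
  have xa1 : ∀ x : E, ⟪x, a1⟫ = ‖a1‖ * ⟪x, e 1⟫ := by
    intro x
    show ⟪x, a1⟫ = ‖a1‖ * ⟪x, ‖a1‖⁻¹ • a1⟫
    rw [inner_smul_right]; field_simp
  have xa2' : ∀ x : E, ⟪x, a2'⟫ = ‖a2'‖ * ⟪x, e 2⟫ := by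
    intro x
    show ⟪x, a2'⟫ = ‖a2'‖ * ⟪x, ‖a2'‖⁻¹ • a2'⟫
    rw [inner_smul_right]; field_simp
  have xa2 : ∀ x : E, ⟪x, a2⟫ = c * ⟪x, e 1⟫ + ‖a2'‖ * ⟪x, e 2⟫ := by
    intro x
    have : a2 = (c / ‖a1‖) • a1 + a2' := by rw [ha2']; abel
    conv_lhs => rw [this]
    rw [inner_add_right, inner_smul_right, xa1, xa2']
    field_simp
  have xv1 : ∀ x : E, ⟪x, v1⟫ = (⟪v1, v⟫ / ‖v‖) * ⟪x, e 0⟫ + ‖a1‖ * ⟪x, e 1⟫ := by
    intro x
    have : v1 = (⟪v1, v⟫ / ‖v‖ ^ 2) • v + a1 := by rw [ha1]; unfold orp; abel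
    have h := congrArg (fun w => ⟪x, w⟫) this
    simp only [inner_add_right, inner_smul_right] at h
    rw [h, x0 x, xa1]
    field_simp
  have xv2 : ∀ x : E, ⟪x, v2⟫ = (⟪v2, v⟫ / ‖v‖) * ⟪x, e 0⟫ + (c * ⟪x, e 1⟫ + ‖a2'‖ * ⟪x, e 2⟫) := by
    intro x
    have : v2 = (⟪v2, v⟫ / ‖v‖ ^ 2) • v + a2 := by rw [ha2]; unfold orp; abel
    have h := congrArg (fun w => ⟪x, w⟫) this
    simp only [inner_add_right, inner_smul_right] at h
    rw [h, x0 x, xa2]
    field_simp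
  have hD : ‖a1‖ * ‖a2'‖ - 0 * c ≠ 0 := by
    rw [zero_mul, sub_zero]; positivity
  have key := disc (a := ‖a1‖) (b := 0) (c := c) (d := ‖a2'‖) hD (⟪v1, v⟫ / ‖v‖) (⟪v2, v⟫ / ‖v‖)
    hnv.le
  rw [zero_mul, sub_zero, hprod, abs_of_nonneg (Real.sqrt_nonneg _)] at key
  refine le_trans (le_of_eq ?_) key
  rw [← integral_law3 hon (by unfold M3; fun_prop)]
  congr 1
  funext x
  unfold M3
  simp only
  have e3 : ⟪x, -v1 - v2⟫ = -(⟪v1, v⟫ / ‖v‖ + ⟪v2, v⟫ / ‖v‖) * ⟪x, e 0⟫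
      - (‖a1‖ * ⟪x, e 1⟫ + 0 * ⟪x, e 2⟫) - (c * ⟪x, e 1⟫ + ‖a2'‖ * ⟪x, e 2⟫) := by
    rw [inner_sub_right, inner_neg_right, xv1, xv2]; ring
  rw [x0, xv1, xv2, e3]
  simp only [zero_mul, add_zero]

end Vale.Agent.P226.DiscE
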