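import Vale.Agent.P226.DiscE
import Vale.Agent.P226.Base

/-!
# P226: the disc lemma in the form used in the near-propeller step
-/

noncomputable section

namespace Vale.Agent.P226.GP

open MeasureTheory ProbabilityTheory Set Filter Topology
open Vale.Agent.P226.DiscE

open scoped RealInnerProductSpace

variable {E : Type*} [NormedAddCommGroup E] [InnerProductSpace ℝ E] [FiniteDimensional ℝ E]
  [MeasurableSpace E] [BorelSpace E]

/-- `x - arctan x ≤ x³ / 3` for `x ≥ 0` -/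
lemma sub_arctan_le {x : ℝ} (hx : 0 ≤ x) : x - Real.arctan x ≤ x ^ 3 / 3 := by
  have hd : ∀ y : ℝ, HasDerivAt (fun y : ℝ => y ^ 3 / 3 - (y - Real.arctan y))
      (y ^ 4 / (1 + y ^ 2)) y := by
    intro y
    have h1 : HasDerivAt (fun y : ℝ => y ^ 3 / 3) (y ^ 2) y := by
      have h := (hasDerivAt_pow 3 y).div_const 3
      have e : ((3 : ℕ) : ℝ) * y ^ (3 - 1) / 3 = y ^ 2 := by norm_num
      rw [e] at h
      exact h
    have h2 := h1.sub ((hasDerivAt_id y).sub (Real.hasDerivAt_arctan y))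
    have e : y ^ 2 - (1 - 1 / (1 + y ^ 2)) = y ^ 4 / (1 + y ^ 2) := by
      have : 1 + y ^ 2 ≠ 0 := by positivity
      field_simp
      ring
    rw [e] at h2
    exact h2
  have hm : Monotone (fun y : ℝ => y ^ 3 / 3 - (y - Real.arctan y)) := by
    apply monotone_of_deriv_nonneg (fun y => (hd y).differentiableAt)
    intro y
    rw [(hd y).deriv]
    positivity
  have := hm hx
  simp at this
  linarith

/-- `E (⟪X, w⟫ - max_j ⟪X, v j⟫)_+` -/
def eps3 (v : Fin 3 → E) (w : E) : ℝ := ∫ x, max (⟪x, w⟫ - mx v x) 0 ∂(stdGaussian E)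

/-- squared length of the component of `v j` orthogonal to `w` -/
def orth2 (v : Fin 3 → E) (w : E) (j : Fin 3) : ℝ := ‖v j‖ ^ 2 - ⟪v j, w⟫ ^ 2 / ‖w‖ ^ 2

/-- sixteen times the squared area of the triangle with sides of squared lengths `x_j` -/
def tri16 (a b c : ℝ) : ℝ := 4 * a * b - (c - a - b) ^ 2

lemma tri16_eq (a b c : ℝ) : tri16 a b c = (a + b + c) ^ 2 - 2 * (a ^ 2 + b ^ 2 + c ^ 2) := by
  unfold tri16; ring

/-- **Disc lemma** (arctan form). -/
theorem eps3_le_arctan {v : Fin 3 → E} (hsum : ∑ j, v j = 0) {w : E} (hw : w ≠ 0)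
    (hK : 0 < tri16 (orth2 v w 0) (orth2 v w 1) (orth2 v w 2)) :
    eps3 v w ≤ (√(2 * Real.pi))⁻¹ * (‖w‖ - Real.arctan
      (√(9 / (Real.pi * √(tri16 (orth2 v w 0) (orth2 v w 1) (orth2 v w 2)))) * ‖w‖)
        / √(9 / (Real.pi * √(tri16 (orth2 v w 0) (orth2 v w 1) (orth2 v w 2))))) := by
  set K := tri16 (orth2 v w 0) (orth2 v w 1) (orth2 v w 2) with hKdef
  have hv2 : v 2 = -v 0 - v 1 := by
    rw [Fin.sum_univ_three] at hsum
    have h : v 0 + v 1 = -v 2 := eq_neg_of_add_eq_zero_left hsum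
    have h' : v 2 = -(v 0 + v 1) := by rw [h, neg_neg]
    rw [h']; abel
  have hnw : 0 < ‖w‖ := norm_pos_iff.mpr hw
  -- norms of the projections
  have horp : ∀ u u' : E, ⟪orp w u, orp w u'⟫ = ⟪u, u'⟫ - ⟪u, w⟫ * ⟪u', w⟫ / ‖w‖ ^ 2 := by
    intro u u'
    have h0 : ⟪orp w u, w⟫ = 0 := inner_orp_left hw u
    have h1 : ⟪orp w u, orp w u'⟫ = ⟪orp w u, u'⟫ := by
      conv_lhs => rw [show orp w u' = u' - (⟪u', w⟫ / ‖w‖ ^ 2) • w from rfl]
      rw [inner_sub_right, inner_smul_right, h0, mul_zero, sub_zero]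
    rw [h1]
    unfold orp
    rw [inner_sub_left, inner_smul_left, real_inner_comm u' w]
    simp only [RCLike.conj_to_real]
    ring
  have hx : ∀ u : E, ‖orp w u‖ ^ 2 = ‖u‖ ^ 2 - ⟪u, w⟫ ^ 2 / ‖w‖ ^ 2 := by
    intro u
    rw [← real_inner_self_eq_norm_sq, horp, real_inner_self_eq_norm_sq]
    ring
  have hG : K = 4 * (‖orp w (v 0)‖ ^ 2 * ‖orp w (v 1)‖ ^ 2 - ⟪orp w (v 0), orp w (v 1)⟫ ^ 2) := by
    have e2 : orth2 v w 2 = orth2 v w 0 + orth2 v w 1
        + 2 * ⟪orp w (v 0), orp w (v 1)⟫ := by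
      unfold orth2
      rw [hv2, horp]
      have e1 : ‖-v 0 - v 1‖ ^ 2 = ‖v 0‖ ^ 2 + 2 * ⟪v 0, v 1⟫ + ‖v 1‖ ^ 2 := by
        rw [show -v 0 - v 1 = -(v 0 + v 1) by abel, norm_neg, norm_add_sq_real]
      rw [e1, inner_sub_left, inner_neg_left]
      ring
    rw [hKdef]
    unfold tri16
    rw [e2, hx, hx]
    unfold orth2
    ring
  have hG0 : 0 < K / 4 := by positivity
  have key := disc_lemma (v := w) (v1 := v 0) (v2 := v 1) hw hG0 (by rw [hG]; ring)
  have hs : √(K / 4) = √K / 2 := by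
    rw [Real.sqrt_div' _ (by norm_num : (0 : ℝ) ≤ 4)]
    congr 1
    rw [show (4 : ℝ) = 2 ^ 2 by norm_num]
    exact Real.sqrt_sq (by norm_num)
  have hk : 9 / (2 * Real.pi * √(K / 4)) = 9 / (Real.pi * √K) := by
    rw [hs]; congr 1; ring
  rw [hk] at key
  refine le_trans (le_of_eq ?_) key
  unfold eps3
  congr 1
  funext x
  have hmx : mx v x = max ⟪x, v 0⟫ (max ⟪x, v 1⟫ ⟪x, -v 0 - v 1⟫) := by
    rw [← hv2]
    apply le_antisymm
    · apply mx_le
      intro i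
      fin_cases i
      · exact le_max_left _ _
      · exact (le_max_left _ _).trans (le_max_right _ _)
      · exact (le_max_right _ _).trans (le_max_right _ _)
    · exact max_le (inner_le_mx v x 0) (max_le (inner_le_mx v x 1) (inner_le_mx v x 2))
  rw [hmx]

/-- **Disc lemma** (cubic form). -/
theorem eps3_le_cubic {v : Fin 3 → E} (hsum : ∑ j, v j = 0) {w : E} (hw : w ≠ 0) {K0 : ℝ}
    (hK0 : 0 < K0) (hK : K0 ≤ tri16 (orth2 v w 0) (orth2 v w 1) (orth2 v w 2)) :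
    eps3 v w ≤ (√(2 * Real.pi))⁻¹ * (‖w‖ ^ 3 * (9 / (Real.pi * √K0)) / 3) := by
  set K := tri16 (orth2 v w 0) (orth2 v w 1) (orth2 v w 2) with hKdef
  have hKp : 0 < K := hK0.trans_le hK
  have hpi := Real.pi_pos
  have h1 := eps3_le_arctan hsum hw hKp
  rw [← hKdef] at h1
  refine h1.trans ?_
  apply mul_le_mul_of_nonneg_left _ (by positivity)
  obtain ⟨k, hk⟩ : ∃ k, k = 9 / (Real.pi * √K) := ⟨_, rfl⟩
  have hk0 : 0 < k := by rw [hk]; positivity
  have hs : 0 < √k := Real.sqrt_pos.mpr hk0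
  have hs2 : √k ^ 2 = k := Real.sq_sqrt hk0.le
  rw [← hk]
  have h2 := sub_arctan_le (x := √k * ‖w‖) (by positivity)
  have h3 : ‖w‖ - Real.arctan (√k * ‖w‖) / √k = (√k * ‖w‖ - Real.arctan (√k * ‖w‖)) / √k := by
    field_simp
  have h4 : ‖w‖ - Real.arctan (√k * ‖w‖) / √k ≤ ‖w‖ ^ 3 * k / 3 := by
    rw [h3, div_le_iff₀ hs]
    refine h2.trans (le_of_eq ?_)
    have : (√k * ‖w‖) ^ 3 = ‖w‖ ^ 3 * (√k ^ 2) * √k := by ring
    rw [this, hs2]
    ring
  refine h4.trans ?_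
  have h5 : k ≤ 9 / (Real.pi * √K0) := by
    rw [hk]
    apply div_le_div_of_nonneg_left (by norm_num) (by positivity)
    exact mul_le_mul_of_nonneg_left (Real.sqrt_le_sqrt hK) hpi.le
  have h6 : ‖w‖ ^ 3 * k ≤ ‖w‖ ^ 3 * (9 / (Real.pi * √K0)) :=
    mul_le_mul_of_nonneg_left h5 (by positivity)
  linarith

end Vale.Agent.P226.GP
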