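import Vale.Agent.P226.DiscArea
import Vale.Agent.P226.DiscCalc

/-!
# P226: the disc lemma in coordinates
-/

noncomputable section

namespace Vale.Agent.P226.DiscFull

open MeasureTheory ProbabilityTheory Set Filter Topology
open Vale.Agent.P226.EhrPhi Vale.Agent.P226.DiscArea Vale.Agent.P226.DiscCalc

/-- the standard triangle -/
lemma volume_std_tri {L1 L2 L3 : ℝ} (hL : 0 ≤ L1 + L2 + L3) :
    volume {p : ℝ × ℝ | p.1 < L1 ∧ p.2 < L2 ∧ -p.1 - p.2 < L3}
      = ENNReal.ofReal ((L1 + L2 + L3) ^ 2 / 2) := by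
  have e : {p : ℝ × ℝ | p.1 < L1 ∧ p.2 < L2 ∧ -p.1 - p.2 < L3}
      = regionBetween (fun u => -L3 - u) (fun _ => L2) (Ioo (-L3 - L2) L1) := by
    ext p
    simp only [regionBetween, mem_ofPred_eq, mem_Ioo]
    constructor
    · rintro ⟨h1, h2, h3⟩
      exact ⟨⟨by linarith, h1⟩, by linarith, h2⟩
    · rintro ⟨⟨h1, h2⟩, h3, h4⟩
      exact ⟨h2, h4, by linarith⟩
  have i1 : IntegrableOn (fun u : ℝ => -L3 - u) (Ioo (-L3 - L2) L1) volume :=
    (by fun_prop : Continuous fun u : ℝ => -L3 - u).continuousOn.integrableOn_Icc.mono_set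
      Ioo_subset_Icc_self
  have i2 : IntegrableOn (fun _ : ℝ => L2) (Ioo (-L3 - L2) L1) volume :=
    (by fun_prop : Continuous fun _ : ℝ => L2).continuousOn.integrableOn_Icc.mono_set
      Ioo_subset_Icc_self
  rw [e, Measure.volume_eq_prod, volume_regionBetween_eq_integral i1 i2 measurableSet_Ioo
    (fun u hu => by linarith [hu.1])]
  · congr 1
    rw [← integral_Ioc_eq_integral_Ioo, ← intervalIntegral.integral_of_le (by linarith)]
    have hd : ∀ u ∈ uIcc (-L3 - L2) L1, HasDerivAt (fun u : ℝ => (L2 + L3 + u) ^ 2 / 2)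
        (((fun _ : ℝ => L2) - fun u => -L3 - u) u) u := by
      intro u _
      have h := (((hasDerivAt_id u).const_add (L2 + L3)).pow 2).div_const 2
      have e : ((2 : ℕ) : ℝ) * (L2 + L3 + id u) ^ (2 - 1) * 1 / 2
          = ((fun _ : ℝ => L2) - fun u => -L3 - u) u := by
        simp only [Pi.sub_apply, id_eq]
        norm_num
        ring
      rw [e] at h
      exact h
    rw [intervalIntegral.integral_eq_sub_of_hasDerivAt hd]
    · ring
    · apply Continuous.intervalIntegrable
      exact continuous_const.sub (by fun_prop)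

/-- general triangle -/
lemma volume_tri {a b c d : ℝ} (hD : a * d - b * c ≠ 0) {L1 L2 L3 : ℝ} (hL : 0 ≤ L1 + L2 + L3) :
    volume {p : ℝ × ℝ | a * p.1 + b * p.2 < L1 ∧ c * p.1 + d * p.2 < L2 ∧
      -(a * p.1 + b * p.2) - (c * p.1 + d * p.2) < L3}
      = ENNReal.ofReal ((L1 + L2 + L3) ^ 2 / (2 * |a * d - b * c|)) := by
  set f := Matrix.toLin (Module.Basis.finTwoProd ℝ) (Module.Basis.finTwoProd ℝ) !![a, b; c, d] with hf
  have hdet : LinearMap.det f = a * d - b * c := by
    rw [hf, LinearMap.det_toLin, Matrix.det_fin_two_of]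
  have e : {p : ℝ × ℝ | a * p.1 + b * p.2 < L1 ∧ c * p.1 + d * p.2 < L2 ∧
      -(a * p.1 + b * p.2) - (c * p.1 + d * p.2) < L3} =
      f ⁻¹' {p : ℝ × ℝ | p.1 < L1 ∧ p.2 < L2 ∧ -p.1 - p.2 < L3} := by
    ext p
    simp only [mem_ofPred_eq, mem_preimage, hf, Matrix.toLin_finTwoProd_apply]
  rw [e, Measure.addHaar_preimage_linearMap volume (by rw [hdet]; exact hD), volume_std_tri hL,
    hdet, ← ENNReal.ofReal_mul (abs_nonneg _)]
  congr 1
  rw [abs_inv]
  field_simp

variable {a b c d : ℝ}

/-- the maximum of three linear forms with sum zero -/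
def M3 (a b c d d1 d2 t : ℝ) (x : ℝ × ℝ) : ℝ :=
  max (d1 * t + (a * x.1 + b * x.2)) (max (d2 * t + (c * x.1 + d * x.2))
    (-(d1 + d2) * t - (a * x.1 + b * x.2) - (c * x.1 + d * x.2)))

lemma M3_nonneg (a b c d d1 d2 t : ℝ) (x : ℝ × ℝ) : 0 ≤ M3 a b c d d1 d2 t x := by
  unfold M3
  by_contra h
  push Not at h
  have h1 := (le_max_left _ _).trans_lt h
  have h2 := ((le_max_left _ _).trans (le_max_right _ _)).trans_lt h
  have h3 := ((le_max_right _ _).trans (le_max_right _ _)).trans_lt h
  linarith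

/-- measure of the sub-level sets of `M3` -/
lemma gauss_M3_lt (hD : a * d - b * c ≠ 0) (d1 d2 t : ℝ) {r : ℝ} (hr : 0 ≤ r) :
    ((gaussianReal 0 1).prod (gaussianReal 0 1)).real {x | M3 a b c d d1 d2 t x < r}
      ≤ 1 - Real.exp (-(9 / (2 * Real.pi * |a * d - b * c|) * r ^ 2 / 2)) := by
  have hset : {x | M3 a b c d d1 d2 t x < r} = {p : ℝ × ℝ | a * p.1 + b * p.2 < r - d1 * t ∧
      c * p.1 + d * p.2 < r - d2 * t ∧
      -(a * p.1 + b * p.2) - (c * p.1 + d * p.2) < r + (d1 + d2) * t} := by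
    ext p
    simp only [M3, mem_ofPred_eq, max_lt_iff]
    constructor
    · rintro ⟨h1, h2, h3⟩
      exact ⟨by linarith, by linarith, by linarith⟩
    · rintro ⟨h1, h2, h3⟩
      exact ⟨by linarith, by linarith, by linarith⟩
  have hvol := volume_tri (L1 := r - d1 * t) (L2 := r - d2 * t) (L3 := r + (d1 + d2) * t) hD
    (by linarith)
  rw [← hset] at hvol
  have hs : r - d1 * t + (r - d2 * t) + (r + (d1 + d2) * t) = 3 * r := by ring
  rw [hs] at hvol
  have hmeas : MeasurableSet {x | M3 a b c d d1 d2 t x < r} := by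
    apply measurableSet_lt _ measurable_const
    apply Continuous.measurable
    unfold M3
    fun_prop
  have habs : 0 < |a * d - b * c| := abs_pos.mpr hD
  have hle : volume.real {x | M3 a b c d d1 d2 t x < r} ≤ (3 * r) ^ 2 / (2 * |a * d - b * c|) := by
    rw [measureReal_def, hvol, ENNReal.toReal_ofReal (by positivity)]
  have h := gauss_le hmeas (by rw [hvol]; exact ENNReal.ofReal_ne_top) hle
  refine h.trans (le_of_eq ?_)
  congr 2
  have := Real.pi_pos
  field_simp
  ring

/-- bound on one fibre -/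
lemma fibre_bound (hD : a * d - b * c ≠ 0) (d1 d2 : ℝ) {s t : ℝ} (hst : 0 ≤ s) :
    ∫ x, max (s - M3 a b c d d1 d2 t x) 0 ∂((gaussianReal 0 1).prod (gaussianReal 0 1))
      ≤ ∫ r in (0 : ℝ)..s, (1 - Real.exp (-(9 / (2 * Real.pi * |a * d - b * c|) * r ^ 2 / 2))) := by
  obtain ⟨k, hk⟩ : ∃ k, k = 9 / (2 * Real.pi * |a * d - b * c|) := ⟨_, rfl⟩
  have hk0 : 0 < k := by
    rw [hk]
    have := Real.pi_pos
    have := abs_pos.mpr hD
    positivity
  have hcont : Continuous fun x => max (s - M3 a b c d d1 d2 t x) 0 := by unfold M3; fun_prop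
  have hint : Integrable (fun x => max (s - M3 a b c d d1 d2 t x) 0)
      ((gaussianReal 0 1).prod (gaussianReal 0 1)) := by
    apply Integrable.of_bound hcont.aestronglyMeasurable s
    refine ae_of_all _ fun x => ?_
    rw [Real.norm_eq_abs, abs_of_nonneg (le_max_right _ _)]
    exact max_le (by linarith [M3_nonneg a b c d d1 d2 t x]) hst
  rw [hint.integral_eq_integral_meas_lt (ae_of_all _ fun x => le_max_right _ _)]
  have hsub : ∫ r in (0 : ℝ)..s, (1 - Real.exp (-(k * r ^ 2 / 2)))
      = ∫ r in Ioc 0 s, (1 - Real.exp (-(k * (s - r) ^ 2 / 2))) := by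
    rw [← intervalIntegral.integral_of_le hst,
      intervalIntegral.integral_comp_sub_left (fun r => 1 - Real.exp (-(k * r ^ 2 / 2))) s,
      sub_self, sub_zero]
  rw [← hk, hsub, ← integral_indicator measurableSet_Ioc, ← integral_indicator measurableSet_Ioi]
  apply integral_mono_of_nonneg
  · refine ae_of_all _ fun r => ?_
    exact indicator_nonneg (fun _ _ => measureReal_nonneg) r
  · rw [integrable_indicator_iff measurableSet_Ioc]
    exact (by fun_prop : Continuous fun r => 1 - Real.exp (-(k * (s - r) ^ 2 / 2))).continuousOn.integrableOn_Icc.mono_set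
      Ioc_subset_Icc_self
  · refine ae_of_all _ fun r => ?_
    show (Ioi (0 : ℝ)).indicator _ r ≤ (Ioc 0 s).indicator _ r
    by_cases h0 : 0 < r
    · rw [indicator_of_mem (show r ∈ Ioi (0 : ℝ) from h0)]
      by_cases h1 : r ≤ s
      · rw [indicator_of_mem (show r ∈ Ioc 0 s from ⟨h0, h1⟩)]
        have hset : {x | r < max (s - M3 a b c d d1 d2 t x) 0} = {x | M3 a b c d d1 d2 t x < s - r} := by
          ext x
          simp only [mem_ofPred_eq, lt_max_iff]
          constructor
          · rintro (h | h)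
            · linarith
            · linarith
          · intro h
            left; linarith
        rw [hset, hk]
        exact gauss_M3_lt hD d1 d2 t (by linarith)
      · rw [indicator_of_notMem (show r ∉ Ioc 0 s from fun h => h1 h.2)]
        push Not at h1
        have hset : {x | r < max (s - M3 a b c d d1 d2 t x) 0} = ∅ := by
          ext x
          simp only [mem_ofPred_eq, mem_empty_iff_false, iff_false, not_lt]
          exact max_le (by linarith [M3_nonneg a b c d d1 d2 t x]) h0.le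
        rw [hset]
        simp
    · rw [indicator_of_notMem (show r ∉ Ioi (0 : ℝ) from h0),
        indicator_of_notMem (show r ∉ Ioc 0 s from fun h => h0 h.1)]

lemma one_sub_exp_mem {k c : ℝ} (hk : 0 ≤ k) :
    0 ≤ 1 - Real.exp (-(k * c ^ 2 / 2)) ∧ 1 - Real.exp (-(k * c ^ 2 / 2)) ≤ 1 := by
  have h2 : Real.exp (-(k * c ^ 2 / 2)) ≤ 1 := by
    rw [Real.exp_le_one_iff]
    have : 0 ≤ k * c ^ 2 / 2 := by positivity
    linarith
  have h3 := Real.exp_pos (-(k * c ^ 2 / 2))
  constructor <;> linarith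

/-- **the disc lemma** in coordinates -/
theorem disc (hD : a * d - b * c ≠ 0) (d1 d2 : ℝ) {β : ℝ} (hβ : 0 ≤ β) :
    ∫ z : ℝ × (ℝ × ℝ), max (β * z.1 - M3 a b c d d1 d2 z.1 z.2) 0
      ∂((gaussianReal 0 1).prod ((gaussianReal 0 1).prod (gaussianReal 0 1)))
      ≤ (√(2 * Real.pi))⁻¹ * (β - Real.arctan (√(9 / (2 * Real.pi * |a * d - b * c|)) * β)
        / √(9 / (2 * Real.pi * |a * d - b * c|))) := by
  obtain ⟨k, hk⟩ : ∃ k, k = 9 / (2 * Real.pi * |a * d - b * c|) := ⟨_, rfl⟩
  have hk0 : 0 < k := by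
    rw [hk]
    have := Real.pi_pos
    have := abs_pos.mpr hD
    positivity
  rw [← hk, ← arctan_formula hk0 hβ]
  have hcont : Continuous fun z : ℝ × (ℝ × ℝ) => max (β * z.1 - M3 a b c d d1 d2 z.1 z.2) 0 := by
    unfold M3; fun_prop
  have hgi : Integrable (fun t : ℝ => |t|) (gaussianReal 0 1) :=
    ((memLp_id_gaussianReal (μ := 0) (v := 1) 1).integrable (by norm_num)).abs
  have hint : Integrable (fun z : ℝ × (ℝ × ℝ) => max (β * z.1 - M3 a b c d d1 d2 z.1 z.2) 0)
      ((gaussianReal 0 1).prod ((gaussianReal 0 1).prod (gaussianReal 0 1))) := by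
    have hdom : Integrable (fun z : ℝ × (ℝ × ℝ) => (β * |z.1|) * (1 : ℝ))
        ((gaussianReal 0 1).prod ((gaussianReal 0 1).prod (gaussianReal 0 1))) :=
      Integrable.mul_prod (f := fun t : ℝ => β * |t|) (g := fun _ : ℝ × ℝ => (1 : ℝ))
        (hgi.const_mul β) (integrable_const _)
    apply hdom.mono' hcont.aestronglyMeasurable
    refine ae_of_all _ fun z => ?_
    rw [Real.norm_eq_abs, abs_of_nonneg (le_max_right _ _), mul_one]
    apply max_le _ (by positivity)
    have h1 : β * z.1 ≤ β * |z.1| := mul_le_mul_of_nonneg_left (le_abs_self _) hβ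
    linarith [M3_nonneg a b c d d1 d2 z.1 z.2]
  rw [integral_prod _ hint, integral_gaussianReal_eq_integral_smul (by norm_num)]
  rw [← integral_indicator measurableSet_Ioi]
  -- integrability of the upper function
  have hup : IntegrableOn (fun t => gpdf t * ∫ c in (0 : ℝ)..(β * t), (1 - Real.exp (-(k * c ^ 2 / 2))))
      (Ioi 0) := by
    have hd : IntegrableOn (fun t : ℝ => β * ((√(2 * Real.pi))⁻¹ * (t * Real.exp (-(1 * t ^ 2 / 2)))))
        (Ioi 0) := ((integrableOn_t_exp one_pos).const_mul _).const_mul _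
    apply hd.mono'
    · have hc1 : Continuous fun s : ℝ => ∫ c in (0 : ℝ)..s, (1 - Real.exp (-(k * c ^ 2 / 2))) :=
        intervalIntegral.continuous_primitive (μ := volume)
          (fun _ _ => (by fun_prop : Continuous fun c : ℝ => 1 - Real.exp (-(k * c ^ 2 / 2))).intervalIntegrable _ _) 0
      exact (continuous_gpdf.mul (hc1.comp (by fun_prop : Continuous fun t : ℝ => β * t))).aestronglyMeasurable
    · rw [ae_restrict_iff' measurableSet_Ioi]
      refine ae_of_all _ fun t (ht : 0 < t) => ?_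
      have hbt : 0 ≤ β * t := by positivity
      have h1 : 0 ≤ ∫ c in (0 : ℝ)..(β * t), (1 - Real.exp (-(k * c ^ 2 / 2))) :=
        intervalIntegral.integral_nonneg hbt fun c _ => (one_sub_exp_mem hk0.le).1
      have h2 : ∫ c in (0 : ℝ)..(β * t), (1 - Real.exp (-(k * c ^ 2 / 2))) ≤ β * t := by
        have := intervalIntegral.integral_mono_on (μ := volume) (a := 0) (b := β * t) hbt
          ((by fun_prop : Continuous fun c : ℝ => 1 - Real.exp (-(k * c ^ 2 / 2))).intervalIntegrable _ _)
          ((continuous_const (y := (1 : ℝ))).intervalIntegrable _ _)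
          (fun c _ => (one_sub_exp_mem hk0.le).2)
        simpa using this
      rw [Real.norm_eq_abs, abs_of_nonneg (mul_nonneg (gpdf_nonneg _) h1), ← t_gpdf]
      have := mul_le_mul_of_nonneg_left h2 (gpdf_nonneg t)
      linarith
  apply integral_mono_of_nonneg
  · refine ae_of_all _ fun t => ?_
    exact smul_nonneg (gaussianPDFReal_nonneg _ _ _) (integral_nonneg fun x => le_max_right _ _)
  · rw [integrable_indicator_iff measurableSet_Ioi]
    exact hup
  · refine ae_of_all _ fun t => ?_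
    show gaussianPDFReal 0 1 t • _ ≤ (Ioi (0 : ℝ)).indicator _ t
    rw [gpdf_eq, smul_eq_mul]
    by_cases h0 : 0 < t
    · rw [indicator_of_mem (show t ∈ Ioi (0 : ℝ) from h0)]
      apply mul_le_mul_of_nonneg_left _ (gpdf_nonneg t)
      rw [hk]
      exact fibre_bound hD d1 d2 (mul_nonneg hβ h0.le)
    · rw [indicator_of_notMem (show t ∉ Ioi (0 : ℝ) from h0)]
      push Not at h0
      have hz : ∀ x : ℝ × ℝ, max (β * t - M3 a b c d d1 d2 t x) 0 = 0 := by
        intro x
        apply max_eq_right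
        have : β * t ≤ 0 := mul_nonpos_of_nonneg_of_nonpos hβ h0
        linarith [M3_nonneg a b c d d1 d2 t x]
      simp only [hz, integral_zero, mul_zero]
      exact le_rfl

end Vale.Agent.P226.DiscFull
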