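import Mathlib

/-!
# P226: the algebra of one step of the one-dimensional Ehrhard iteration
-/

namespace Vale.Agent.P226.Ehr1

theorem gap_lin {lam t CJ g1 g2 g3 L1 L2 L3 T1 T2 T3 : ℝ}
    (hl0 : 0 ≤ lam) (hl2 : 0 ≤ 1 - lam)
    (hT1 : |T1 - g1 - t ^ 6 / 2 * L1| ≤ CJ * t ^ 9)
    (hT2 : |T2 - g2 - t ^ 6 / 2 * L2| ≤ CJ * t ^ 9)
    (hT3 : |T3 - g3 - t ^ 6 / 2 * L3| ≤ CJ * t ^ 9) :
    (1 - lam) * T1 + lam * T2 - T3 ≤ ((1 - lam) * g1 + lam * g2 - g3) + t ^ 6 / 2 *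
      ((1 - lam) * L1 + lam * L2 - L3) + 2 * CJ * t ^ 9 := by
  have e1 := (abs_le.mp hT1).2
  have e2 := (abs_le.mp hT2).2
  have e3 := (abs_le.mp hT3).1
  have f1 := mul_le_mul_of_nonneg_left e1 hl2
  have f2 := mul_le_mul_of_nonneg_left e2 hl0
  have h : (1 - lam) * (T1 - g1 - t ^ 6 / 2 * L1) + lam * (T2 - g2 - t ^ 6 / 2 * L2)
      - (T3 - g3 - t ^ 6 / 2 * L3) ≤ (1 - lam) * (CJ * t ^ 9) + lam * (CJ * t ^ 9) + CJ * t ^ 9 := by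
    linarith
  have h' : (1 - lam) * (CJ * t ^ 9) + lam * (CJ * t ^ 9) + CJ * t ^ 9 = 2 * CJ * t ^ 9 := by ring
  have h'' : (1 - lam) * (T1 - g1 - t ^ 6 / 2 * L1) + lam * (T2 - g2 - t ^ 6 / 2 * L2)
      - (T3 - g3 - t ^ 6 / 2 * L3) = ((1 - lam) * T1 + lam * T2 - T3) -
      ((1 - lam) * g1 + lam * g2 - g3) - t ^ 6 / 2 * ((1 - lam) * L1 + lam * L2 - L3) := by ring
  rw [h', h''] at h
  linarith

theorem quad_bd {K B g p q : ℝ} (hK : 0 ≤ K) (hg : |g| ≤ K) (hp : |p| ≤ B)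
    (hq : |q| ≤ B) : |q - g * p ^ 2| ≤ B + K * B ^ 2 := by
  have h1 : |g * p ^ 2| ≤ K * B ^ 2 := by
    rw [abs_mul, abs_pow]
    exact mul_le_mul hg (pow_le_pow_left₀ (abs_nonneg _) hp 2) (by positivity) hK
  calc |q - g * p ^ 2| ≤ |q| + |g * p ^ 2| := abs_sub _ _
    _ ≤ B + K * B ^ 2 := add_le_add hq h1

/-- the large defect case -/
theorem large_case {K B CJ lam t c g1 g2 g3 L1 L2 L3 T1 T2 T3 : ℝ}
    (hl0 : 0 ≤ lam) (hl2 : 0 ≤ 1 - lam) (hCJ : 0 ≤ CJ)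
    (ht0 : 0 < t) (ht1 : t ≤ 1)
    (hT1 : |T1 - g1 - t ^ 6 / 2 * L1| ≤ CJ * t ^ 9)
    (hT2 : |T2 - g2 - t ^ 6 / 2 * L2| ≤ CJ * t ^ 9)
    (hT3 : |T3 - g3 - t ^ 6 / 2 * L3| ≤ CJ * t ^ 9)
    (hL1 : |L1| ≤ B + K * B ^ 2) (hL2 : |L2| ≤ B + K * B ^ 2) (hL3 : |L3| ≤ B + K * B ^ 2)
    (hcase : (B + K * B ^ 2 + 2 * CJ) * t ^ 6 ≤ c - ((1 - lam) * g1 + lam * g2 - g3)) :
    (1 - lam) * T1 + lam * T2 - T3 ≤ c := by
  have hS := gap_lin hl0 hl2 hT1 hT2 hT3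
  have a1 := (abs_le.mp hL1).2
  have a2 := (abs_le.mp hL2).2
  have a3 := (abs_le.mp hL3).1
  have b1 := mul_le_mul_of_nonneg_left a1 hl2
  have b2 := mul_le_mul_of_nonneg_left a2 hl0
  have hL : (1 - lam) * L1 + lam * L2 - L3 ≤ 2 * (B + K * B ^ 2) := by
    have : (1 - lam) * (B + K * B ^ 2) + lam * (B + K * B ^ 2) = B + K * B ^ 2 := by ring
    linarith
  have ht6 : 0 < t ^ 6 := by positivity
  have hL2 := mul_le_mul_of_nonneg_left hL (by positivity : (0 : ℝ) ≤ t ^ 6 / 2)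
  have h96 : t ^ 9 ≤ t ^ 6 := pow_le_pow_of_le_one ht0.le ht1 (by norm_num)
  have hJ : 2 * CJ * t ^ 9 ≤ 2 * CJ * t ^ 6 := mul_le_mul_of_nonneg_left h96 (by positivity)
  have e : (B + K * B ^ 2 + 2 * CJ) * t ^ 6 =
      t ^ 6 / 2 * (2 * (B + K * B ^ 2)) + 2 * CJ * t ^ 6 := by ring
  rw [e] at hcase
  linarith

theorem sq_mul_bd {B q a r : ℝ} (hB : 0 ≤ B) (hq : |q| ≤ B) (ha : |a| ≤ r) :
    |q * a ^ 2| ≤ B * r ^ 2 := by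
  have h2a : a ^ 2 ≤ r ^ 2 := by
    rw [← sq_abs a]; exact pow_le_pow_left₀ (abs_nonneg _) ha 2
  rw [abs_mul, abs_of_nonneg (sq_nonneg a)]
  exact mul_le_mul hq h2a (sq_nonneg a) hB

/-- first order consequence of the model inequality -/
theorem lin_of_model {B lam c g1 g2 g3 p1 p2 p3 q1 q2 q3 r a b : ℝ} (hB : 0 ≤ B)
    (hl0 : 0 ≤ lam) (hl2 : 0 ≤ 1 - lam) (ha : |a| ≤ r) (hb : |b| ≤ r)
    (hq1 : |q1| ≤ B) (hq2 : |q2| ≤ B) (hq3 : |q3| ≤ B)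
    (hm : (1 - lam) * (g1 + p1 * a + q1 * a ^ 2 / 2) + lam * (g2 + p2 * b + q2 * b ^ 2 / 2)
        - (g3 + p3 * ((1 - lam) * a + lam * b) + q3 * ((1 - lam) * a + lam * b) ^ 2 / 2)
        ≤ c + 2 * B * r ^ 3) :
    (1 - lam) * (p1 - p3) * a + lam * (p2 - p3) * b ≤
      (c - ((1 - lam) * g1 + lam * g2 - g3)) + B * r ^ 2 + 2 * B * r ^ 3 := by
  have hab : |(1 - lam) * a + lam * b| ≤ r := by
    calc |(1 - lam) * a + lam * b| ≤ |(1 - lam) * a| + |lam * b| := abs_add_le _ _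
      _ = (1 - lam) * |a| + lam * |b| := by
        rw [abs_mul, abs_mul, abs_of_nonneg hl2, abs_of_nonneg hl0]
      _ ≤ (1 - lam) * r + lam * r :=
        add_le_add (mul_le_mul_of_nonneg_left ha hl2) (mul_le_mul_of_nonneg_left hb hl0)
      _ = r := by ring
  have k1 := (abs_le.mp (sq_mul_bd hB hq1 ha)).1
  have k2 := (abs_le.mp (sq_mul_bd hB hq2 hb)).1
  have k3 := (abs_le.mp (sq_mul_bd hB hq3 hab)).2
  have k1' := mul_le_mul_of_nonneg_left k1 hl2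
  have k2' := mul_le_mul_of_nonneg_left k2 hl0
  have e : (1 - lam) * (g1 + p1 * a + q1 * a ^ 2 / 2) + lam * (g2 + p2 * b + q2 * b ^ 2 / 2)
        - (g3 + p3 * ((1 - lam) * a + lam * b) + q3 * ((1 - lam) * a + lam * b) ^ 2 / 2)
      = ((1 - lam) * (p1 - p3) * a + lam * (p2 - p3) * b) + ((1 - lam) * g1 + lam * g2 - g3)
        + ((1 - lam) * (q1 * a ^ 2) + lam * (q2 * b ^ 2)) / 2
        - q3 * ((1 - lam) * a + lam * b) ^ 2 / 2 := by ring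
  have e2 : (1 - lam) * -(B * r ^ 2) + lam * -(B * r ^ 2) = -(B * r ^ 2) := by ring
  rw [e] at hm
  linarith

theorem bnd_aux {B C0 t d X : ℝ} (hB : 0 ≤ B) (ht0 : 0 < t) (ht1 : t ≤ 1)
    (hd : d ≤ C0 * t ^ 6) (hX : X * t ^ 3 ≤ d + B * (t ^ 3) ^ 2 + 2 * B * (t ^ 3) ^ 3) :
    X ≤ (C0 + 3 * B) * t ^ 3 := by
  have hs6 : (t ^ 3) ^ 2 = t ^ 6 := by ring
  have hs9 : (t ^ 3) ^ 3 = t ^ 9 := by ring
  have ht3 : 0 < t ^ 3 := by positivity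
  have h96 : t ^ 9 ≤ t ^ 6 := pow_le_pow_of_le_one ht0.le ht1 (by norm_num)
  rw [hs6, hs9] at hX
  have h1 : X * t ^ 3 ≤ ((C0 + 3 * B) * t ^ 3) * t ^ 3 := by
    have h2 : ((C0 + 3 * B) * t ^ 3) * t ^ 3 = C0 * t ^ 6 + 3 * B * t ^ 6 := by ring
    rw [h2]
    have h3 : 2 * B * t ^ 9 ≤ 2 * B * t ^ 6 := mul_le_mul_of_nonneg_left h96 (by positivity)
    linarith
  exact le_of_mul_le_mul_right h1 ht3

/-- the term `g p ^ 2` -/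
theorem gp_bd {K B C0 M t lam g1 g2 g3 p1 p2 p3 : ℝ} (hK : 0 ≤ K) (hB : 0 ≤ B) (hC0 : 0 ≤ C0)
    (hM : 0 ≤ M) (ht0 : 0 < t) (ht1 : t ≤ 1)
    (hg1 : |g1| ≤ K) (hg2 : |g2| ≤ K) (hp1 : |p1| ≤ B) (hp2 : |p2| ≤ B) (hp3 : |p3| ≤ B)
    (hG : -(C0 * t ^ 6) ≤ (1 - lam) * g1 + lam * g2 - g3)
    (hd1 : |(1 - lam) * (p1 - p3)| ≤ M * t ^ 3) (hd2 : |lam * (p2 - p3)| ≤ M * t ^ 3) :
    -((B ^ 2 * C0 + 4 * K * B * M) * t ^ 3) ≤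
        (1 - lam) * (g1 * p1 ^ 2) + lam * (g2 * p2 ^ 2) - g3 * p3 ^ 2 := by
  have e : (1 - lam) * (g1 * p1 ^ 2) + lam * (g2 * p2 ^ 2) - g3 * p3 ^ 2 =
      p3 ^ 2 * ((1 - lam) * g1 + lam * g2 - g3) + g1 * ((1 - lam) * (p1 - p3)) * (p1 + p3)
        + g2 * (lam * (p2 - p3)) * (p2 + p3) := by ring
  have hp3s : p3 ^ 2 ≤ B ^ 2 := by
    rw [← sq_abs p3]; exact pow_le_pow_left₀ (abs_nonneg _) hp3 2
  have h63 : t ^ 6 ≤ t ^ 3 := pow_le_pow_of_le_one ht0.le ht1 (by norm_num)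
  have t1 : -(B ^ 2 * C0 * t ^ 3) ≤ p3 ^ 2 * ((1 - lam) * g1 + lam * g2 - g3) := by
    have h2 : p3 ^ 2 * (-(C0 * t ^ 6)) ≤ p3 ^ 2 * ((1 - lam) * g1 + lam * g2 - g3) :=
      mul_le_mul_of_nonneg_left hG (sq_nonneg _)
    have h3 : p3 ^ 2 * (C0 * t ^ 6) ≤ B ^ 2 * (C0 * t ^ 3) :=
      mul_le_mul hp3s (mul_le_mul_of_nonneg_left h63 hC0) (by positivity) (by positivity)
    linarith
  have hpp1 : |p1 + p3| ≤ 2 * B := (abs_add_le _ _).trans (by linarith)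
  have hpp2 : |p2 + p3| ≤ 2 * B := (abs_add_le _ _).trans (by linarith)
  have t2 : |g1 * ((1 - lam) * (p1 - p3)) * (p1 + p3)| ≤ K * (M * t ^ 3) * (2 * B) := by
    rw [abs_mul, abs_mul g1]
    exact mul_le_mul (mul_le_mul hg1 hd1 (abs_nonneg _) hK) hpp1 (abs_nonneg _)
      (by positivity)
  have t3 : |g2 * (lam * (p2 - p3)) * (p2 + p3)| ≤ K * (M * t ^ 3) * (2 * B) := by
    rw [abs_mul, abs_mul g2]
    exact mul_le_mul (mul_le_mul hg2 hd2 (abs_nonneg _) hK) hpp2 (abs_nonneg _)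
      (by positivity)
  have t2' := (abs_le.mp t2).1
  have t3' := (abs_le.mp t3).1
  rw [e]
  linarith

/-- second order consequence -/
theorem eta_bd {B C0 lam t c g1 g2 g3 p1 p2 p3 q1 q2 q3 : ℝ} (ht0 : 0 < t)
    (hcase : c - ((1 - lam) * g1 + lam * g2 - g3) ≤ C0 * t ^ 6)
    (m1 : (1 - lam) * (g1 + p1 * t ^ 2 + q1 * (t ^ 2) ^ 2 / 2)
        + lam * (g2 + p2 * t ^ 2 + q2 * (t ^ 2) ^ 2 / 2)
        - (g3 + p3 * t ^ 2 + q3 * (t ^ 2) ^ 2 / 2) ≤ c + 2 * B * (t ^ 2) ^ 3)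
    (m2 : (1 - lam) * (g1 + p1 * -t ^ 2 + q1 * (-t ^ 2) ^ 2 / 2)
        + lam * (g2 + p2 * -t ^ 2 + q2 * (-t ^ 2) ^ 2 / 2)
        - (g3 + p3 * -t ^ 2 + q3 * (-t ^ 2) ^ 2 / 2) ≤ c + 2 * B * (t ^ 2) ^ 3) :
    (1 - lam) * q1 + lam * q2 - q3 ≤ (2 * C0 + 4 * B) * t ^ 2 := by
  have h1 : ((1 - lam) * q1 + lam * q2 - q3) * t ^ 4 ≤
      2 * (c - ((1 - lam) * g1 + lam * g2 - g3)) + 4 * B * t ^ 6 := by
    have e : (1 - lam) * (g1 + p1 * t ^ 2 + q1 * (t ^ 2) ^ 2 / 2)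
        + lam * (g2 + p2 * t ^ 2 + q2 * (t ^ 2) ^ 2 / 2)
        - (g3 + p3 * t ^ 2 + q3 * (t ^ 2) ^ 2 / 2) +
        ((1 - lam) * (g1 + p1 * -t ^ 2 + q1 * (-t ^ 2) ^ 2 / 2)
        + lam * (g2 + p2 * -t ^ 2 + q2 * (-t ^ 2) ^ 2 / 2)
        - (g3 + p3 * -t ^ 2 + q3 * (-t ^ 2) ^ 2 / 2)) =
        2 * ((1 - lam) * g1 + lam * g2 - g3) + ((1 - lam) * q1 + lam * q2 - q3) * t ^ 4 := by ring
    have e6 : (t ^ 2) ^ 3 = t ^ 6 := by ring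
    rw [e6] at m1 m2
    linarith
  have h2 : ((1 - lam) * q1 + lam * q2 - q3) * t ^ 4 ≤ ((2 * C0 + 4 * B) * t ^ 2) * t ^ 4 := by
    have h3 : ((2 * C0 + 4 * B) * t ^ 2) * t ^ 4 = 2 * (C0 * t ^ 6) + 4 * B * t ^ 6 := by ring
    rw [h3]
    linarith
  exact le_of_mul_le_mul_right h2 (by positivity)

/-- the constant of the one step lemma -/
noncomputable def stepC (K B CJ : ℝ) : ℝ :=
  (B + K * B ^ 2 + 2 * CJ + 2 * B)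
    + (B ^ 2 * (B + K * B ^ 2 + 2 * CJ) + 4 * K * B * (B + K * B ^ 2 + 2 * CJ + 3 * B)) / 2 + 2 * CJ

theorem stepC_nonneg {K B CJ : ℝ} (hK : 0 ≤ K) (hB : 0 ≤ B) (hCJ : 0 ≤ CJ) :
    0 ≤ stepC K B CJ := by unfold stepC; positivity

/-- one step of the iteration, algebraic form -/
theorem step_alg {K B CJ lam t c g1 g2 g3 p1 p2 p3 q1 q2 q3 T1 T2 T3 : ℝ}
    (hK : 0 ≤ K) (hB : 0 ≤ B) (hCJ : 0 ≤ CJ) (hl0 : 0 ≤ lam) (hl1 : lam ≤ 1)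
    (ht0 : 0 < t) (ht1 : t ≤ 1) (hc : 0 ≤ c)
    (hg1 : |g1| ≤ K) (hg2 : |g2| ≤ K) (hg3 : |g3| ≤ K)
    (hp1 : |p1| ≤ B) (hp2 : |p2| ≤ B) (hp3 : |p3| ≤ B)
    (hq1 : |q1| ≤ B) (hq2 : |q2| ≤ B) (hq3 : |q3| ≤ B)
    (hT1 : |T1 - g1 - t ^ 6 / 2 * (q1 - g1 * p1 ^ 2)| ≤ CJ * t ^ 9)
    (hT2 : |T2 - g2 - t ^ 6 / 2 * (q2 - g2 * p2 ^ 2)| ≤ CJ * t ^ 9)
    (hT3 : |T3 - g3 - t ^ 6 / 2 * (q3 - g3 * p3 ^ 2)| ≤ CJ * t ^ 9)
    (model : ∀ r a b : ℝ, |a| ≤ r → |b| ≤ r →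
      (1 - lam) * (g1 + p1 * a + q1 * a ^ 2 / 2) + lam * (g2 + p2 * b + q2 * b ^ 2 / 2)
        - (g3 + p3 * ((1 - lam) * a + lam * b) + q3 * ((1 - lam) * a + lam * b) ^ 2 / 2)
        ≤ c + 2 * B * r ^ 3) :
    (1 - lam) * T1 + lam * T2 - T3 ≤ c + stepC K B CJ * t ^ 8 := by
  have hl2 : 0 ≤ 1 - lam := by linarith
  have hCn := stepC_nonneg hK hB hCJ
  have ht8 : 0 < t ^ 8 := by positivity
  rcases lt_or_ge (c - ((1 - lam) * g1 + lam * g2 - g3)) ((B + K * B ^ 2 + 2 * CJ) * t ^ 6)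
    with hcase | hcase
  · obtain ⟨C0, hC0⟩ : ∃ C0, C0 = B + K * B ^ 2 + 2 * CJ := ⟨_, rfl⟩
    have hKB : 0 ≤ K * B ^ 2 := by positivity
    have hC0n : 0 ≤ C0 := by rw [hC0]; positivity
    have hcase' : c - ((1 - lam) * g1 + lam * g2 - g3) ≤ C0 * t ^ 6 := by rw [hC0]; exact hcase.le
    have ht3 : 0 < t ^ 3 := by positivity
    have ht2 : 0 < t ^ 2 := by positivity
    have hr3 : |t ^ 3| ≤ t ^ 3 := (abs_of_pos ht3).le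
    have hr3' : |-t ^ 3| ≤ t ^ 3 := by rw [abs_neg]; exact hr3
    have h00 : |(0 : ℝ)| ≤ t ^ 3 := by rw [abs_zero]; exact ht3.le
    have hd1 : |(1 - lam) * (p1 - p3)| ≤ (C0 + 3 * B) * t ^ 3 := by
      rw [abs_le]
      constructor
      · have h1 := lin_of_model hB hl0 hl2 hr3' h00 hq1 hq2 hq3 (model (t ^ 3) (-t ^ 3) 0 hr3' h00)
        have h2 := bnd_aux (X := -((1 - lam) * (p1 - p3))) hB ht0 ht1 hcase' (by linarith [h1])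
        linarith
      · have h1 := lin_of_model hB hl0 hl2 hr3 h00 hq1 hq2 hq3 (model (t ^ 3) (t ^ 3) 0 hr3 h00)
        exact bnd_aux (X := ((1 - lam) * (p1 - p3))) hB ht0 ht1 hcase' (by linarith [h1])
    have hd2 : |lam * (p2 - p3)| ≤ (C0 + 3 * B) * t ^ 3 := by
      rw [abs_le]
      constructor
      · have h1 := lin_of_model hB hl0 hl2 h00 hr3' hq1 hq2 hq3 (model (t ^ 3) 0 (-t ^ 3) h00 hr3')
        have h2 := bnd_aux (X := -(lam * (p2 - p3))) hB ht0 ht1 hcase' (by linarith [h1])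
        linarith
      · have h1 := lin_of_model hB hl0 hl2 h00 hr3 hq1 hq2 hq3 (model (t ^ 3) 0 (t ^ 3) h00 hr3)
        exact bnd_aux (X := (lam * (p2 - p3))) hB ht0 ht1 hcase' (by linarith [h1])
    have hr2 : |t ^ 2| ≤ t ^ 2 := (abs_of_pos ht2).le
    have hr2' : |-t ^ 2| ≤ t ^ 2 := by rw [abs_neg]; exact hr2
    have m1 := model (t ^ 2) (t ^ 2) (t ^ 2) hr2 hr2
    have m2 := model (t ^ 2) (-t ^ 2) (-t ^ 2) hr2' hr2'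
    have e1 : (1 - lam) * t ^ 2 + lam * t ^ 2 = t ^ 2 := by ring
    have e2 : (1 - lam) * -t ^ 2 + lam * -t ^ 2 = -t ^ 2 := by ring
    rw [e1] at m1
    rw [e2] at m2
    have heta := eta_bd ht0 hcase' m1 m2
    have hD := gp_bd (g3 := g3) hK hB hC0n (by positivity : 0 ≤ C0 + 3 * B) ht0 ht1 hg1 hg2 hp1
      hp2 hp3 (by linarith) hd1 hd2
    have hS := gap_lin hl0 hl2 hT1 hT2 hT3
    have f1 : t ^ 6 / 2 * ((1 - lam) * q1 + lam * q2 - q3) ≤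
        t ^ 6 / 2 * ((2 * C0 + 4 * B) * t ^ 2) :=
      mul_le_mul_of_nonneg_left heta (by positivity)
    have f2 : t ^ 6 / 2 * (-((B ^ 2 * C0 + 4 * K * B * (C0 + 3 * B)) * t ^ 3)) ≤
        t ^ 6 / 2 * ((1 - lam) * (g1 * p1 ^ 2) + lam * (g2 * p2 ^ 2) - g3 * p3 ^ 2) :=
      mul_le_mul_of_nonneg_left hD (by positivity)
    have f3 : t ^ 6 / 2 * ((2 * C0 + 4 * B) * t ^ 2) = (C0 + 2 * B) * t ^ 8 := by ring
    have f4 : t ^ 6 / 2 * (-((B ^ 2 * C0 + 4 * K * B * (C0 + 3 * B)) * t ^ 3)) =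
        -((B ^ 2 * C0 + 4 * K * B * (C0 + 3 * B)) / 2 * t ^ 9) := by ring
    have h98 : t ^ 9 ≤ t ^ 8 := pow_le_pow_of_le_one ht0.le ht1 (by norm_num)
    have f5 : (B ^ 2 * C0 + 4 * K * B * (C0 + 3 * B)) / 2 * t ^ 9 ≤
        (B ^ 2 * C0 + 4 * K * B * (C0 + 3 * B)) / 2 * t ^ 8 :=
      mul_le_mul_of_nonneg_left h98 (by positivity)
    have f6 : 2 * CJ * t ^ 9 ≤ 2 * CJ * t ^ 8 := mul_le_mul_of_nonneg_left h98 (by positivity)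
    have e9 : t ^ 6 / 2 * ((1 - lam) * (q1 - g1 * p1 ^ 2) + lam * (q2 - g2 * p2 ^ 2)
        - (q3 - g3 * p3 ^ 2)) = t ^ 6 / 2 * ((1 - lam) * q1 + lam * q2 - q3)
        - t ^ 6 / 2 * ((1 - lam) * (g1 * p1 ^ 2) + lam * (g2 * p2 ^ 2) - g3 * p3 ^ 2) := by ring
    have h0 := model 0 0 0 (by simp) (by simp)
    simp only [mul_zero, add_zero, ne_eq, OfNat.ofNat_ne_zero, not_false_eq_true, zero_pow,
      zero_div] at h0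
    rw [e9] at hS
    have e10 : stepC K B CJ * t ^ 8 = (C0 + 2 * B) * t ^ 8 +
        (B ^ 2 * C0 + 4 * K * B * (C0 + 3 * B)) / 2 * t ^ 8 + 2 * CJ * t ^ 8 := by
      rw [hC0]; unfold stepC; ring
    rw [e10]
    linarith
  · have := large_case hl0 hl2 hCJ ht0 ht1 hT1 hT2 hT3 (quad_bd hK hg1 hp1 hq1)
      (quad_bd hK hg2 hp2 hq2) (quad_bd hK hg3 hp3 hq3) hcase
    have h8 : 0 ≤ stepC K B CJ * t ^ 8 := by positivity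
    linarith

end Vale.Agent.P226.Ehr1
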