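import Vale.Agent.P226.JetPhi
import Vale.Agent.P226.Ehr1Alg

/-!
# P226: the one-dimensional Ehrhard inequality for functions with jets
-/

noncomputable section

namespace Vale.Agent.P226.Ehr1

open MeasureTheory ProbabilityTheory Set Filter Topology
open scoped NNReal
open Vale.Agent.P226.EhrPhi

/-- the model inequality from jets -/
theorem model_of_jet {B lam c : ℝ} (hl0 : 0 ≤ lam) (hl2 : 0 ≤ 1 - lam)
    {f1 f11 f12 f2 f21 f22 f3 f31 f32 : ℝ → ℝ}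
    (h1 : Jet B f1 f11 f12) (h2 : Jet B f2 f21 f22) (h3 : Jet B f3 f31 f32)
    (hgap : ∀ x y, (1 - lam) * f1 x + lam * f2 y - f3 ((1 - lam) * x + lam * y) ≤ c)
    (x y r a b : ℝ) (ha : |a| ≤ r) (hb : |b| ≤ r) :
    (1 - lam) * (f1 x + f11 x * a + f12 x * a ^ 2 / 2) + lam * (f2 y + f21 y * b + f22 y * b ^ 2 / 2)
        - (f3 ((1 - lam) * x + lam * y) + f31 ((1 - lam) * x + lam * y) * ((1 - lam) * a + lam * b)
          + f32 ((1 - lam) * x + lam * y) * ((1 - lam) * a + lam * b) ^ 2 / 2)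
        ≤ c + 2 * B * r ^ 3 := by
  have hB := h1.nonneg
  have hr : 0 ≤ r := (abs_nonneg _).trans ha
  have hab : |(1 - lam) * a + lam * b| ≤ r := by
    calc |(1 - lam) * a + lam * b| ≤ |(1 - lam) * a| + |lam * b| := abs_add_le _ _
      _ = (1 - lam) * |a| + lam * |b| := by
        rw [abs_mul, abs_mul, abs_of_nonneg hl2, abs_of_nonneg hl0]
      _ ≤ (1 - lam) * r + lam * r :=
        add_le_add (mul_le_mul_of_nonneg_left ha hl2) (mul_le_mul_of_nonneg_left hb hl0)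
      _ = r := by ring
  have cub : ∀ z : ℝ, |z| ≤ r → B * |z| ^ 3 ≤ B * r ^ 3 := fun z hz =>
    mul_le_mul_of_nonneg_left (pow_le_pow_left₀ (abs_nonneg _) hz 3) hB
  have t1 := (abs_le.mp ((h1.tay x a).trans (cub a ha))).1
  have t2 := (abs_le.mp ((h2.tay y b).trans (cub b hb))).1
  have t3 := (abs_le.mp ((h3.tay ((1 - lam) * x + lam * y) ((1 - lam) * a + lam * b)).trans
    (cub _ hab))).2
  have hg := hgap (x + a) (y + b)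
  have e : (1 - lam) * (x + a) + lam * (y + b) =
      (1 - lam) * x + lam * y + ((1 - lam) * a + lam * b) := by ring
  rw [e] at hg
  have t1' := mul_le_mul_of_nonneg_left t1 hl2
  have t2' := mul_le_mul_of_nonneg_left t2 hl0
  have e1 : (1 - lam) * -(B * r ^ 3) + lam * -(B * r ^ 3) = -(B * r ^ 3) := by ring
  linarith

/-- The second order expansion needed for one step. -/
def J3Stmt (K B : ℝ) : Prop := ∃ C, 0 ≤ C ∧ ∀ s : ℝ≥0, s ≤ 1 → ∀ f f1 f2 : ℝ → ℝ,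
  Jet B f f1 f2 → (∀ x, |f x| ≤ K) → ∀ x,
    |PhiInv (gav s (fun y => Phi (f y)) x) - f x - s / 2 * (f2 x - f x * (f1 x) ^ 2)|
      ≤ C * √(s : ℝ) ^ 3

/-- one step of the iteration -/
theorem one_step {K B lam : ℝ} (hK : 0 ≤ K) (hB : 0 ≤ B) (hJ : J3Stmt K B)
    (hl0 : 0 ≤ lam) (hl1 : lam ≤ 1) :
    ∃ C1, 0 ≤ C1 ∧ ∀ (s : ℝ≥0) (t : ℝ), 0 < t → t ≤ 1 → (s : ℝ) = t ^ 6 → ∀ c : ℝ, 0 ≤ c →
      ∀ f1 f11 f12 f2 f21 f22 f3 f31 f32 : ℝ → ℝ,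
      Jet B f1 f11 f12 → Jet B f2 f21 f22 → Jet B f3 f31 f32 →
      (∀ x, |f1 x| ≤ K) → (∀ x, |f2 x| ≤ K) → (∀ x, |f3 x| ≤ K) →
      (∀ x y, (1 - lam) * f1 x + lam * f2 y - f3 ((1 - lam) * x + lam * y) ≤ c) →
      ∀ x y, (1 - lam) * PhiInv (gav s (fun z => Phi (f1 z)) x)
        + lam * PhiInv (gav s (fun z => Phi (f2 z)) y)
        - PhiInv (gav s (fun z => Phi (f3 z)) ((1 - lam) * x + lam * y)) ≤ c + C1 * t ^ 8 := by
  obtain ⟨CJ, hCJ, hT⟩ := hJ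
  refine ⟨stepC K B CJ, stepC_nonneg hK hB hCJ, ?_⟩
  intro s t ht0 ht1 hst c hc f1 f11 f12 f2 f21 f22 f3 f31 f32 h1 h2 h3 b1 b2 b3 hgap x y
  have hs1 : s ≤ 1 := by
    rw [← NNReal.coe_le_coe, hst]
    exact pow_le_one₀ ht0.le ht1
  have hsq : √(s : ℝ) ^ 3 = t ^ 9 := by
    have : √(s : ℝ) = t ^ 3 := by
      rw [hst, show t ^ 6 = (t ^ 3) ^ 2 by ring]
      exact Real.sqrt_sq (by positivity)
    rw [this]; ring
  have hl2 : 0 ≤ 1 - lam := by linarith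
  have T1 := hT s hs1 f1 f11 f12 h1 b1 x
  have T2 := hT s hs1 f2 f21 f22 h2 b2 y
  have T3 := hT s hs1 f3 f31 f32 h3 b3 ((1 - lam) * x + lam * y)
  rw [hsq, hst] at T1 T2 T3
  exact step_alg hK hB hCJ hl0 hl1 ht0 ht1 hc (b1 x) (b2 y) (b3 _)
    (h1.bd1 x) (h2.bd1 y) (h3.bd1 _) (h1.bd2 x) (h2.bd2 y) (h3.bd2 _) T1 T2 T3
    (fun r a b ha hb => model_of_jet hl0 hl2 h1 h2 h3 hgap x y r a b ha hb)

/-- composition of jets with `PhiInv` -/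
def J2InvStmt (K B : ℝ) : Prop := ∃ B', 0 ≤ B' ∧ ∀ u u1 u2 : ℝ → ℝ, Jet B u u1 u2 →
  (∀ x, u x ∈ Icc (Phi (-K)) (Phi K)) → ∃ v1 v2, Jet B' (fun x => PhiInv (u x)) v1 v2

lemma mem_Ioo_of_Icc {K p : ℝ} (h : p ∈ Icc (Phi (-K)) (Phi K)) : p ∈ Ioo (0 : ℝ) 1 :=
  ⟨(Phi_pos _).trans_le h.1, h.2.trans_lt (Phi_lt_one _)⟩

lemma abs_le_one_of_mem {K p : ℝ} (h : p ∈ Icc (Phi (-K)) (Phi K)) : |p| ≤ 1 := by
  have hp := mem_Ioo_of_Icc h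
  rw [abs_le]; constructor <;> linarith [hp.1, hp.2]

theorem j3Stmt (K B : ℝ) : J3Stmt K B := by
  obtain ⟨C, hC, h⟩ := TT_taylor K B
  refine ⟨C, hC, fun s hs f f1 f2 hj hb x => ?_⟩
  have := h s hs f f1 f2 hj hb x
  unfold TT at this
  refine this.trans (le_of_eq ?_)
  have hsq : √(s : ℝ) ^ 2 = s := Real.sq_sqrt s.2
  rw [pow_succ, hsq]
  ring

theorem j2InvStmt {K : ℝ} (hK : 0 ≤ K) (B : ℝ) : J2InvStmt K B := by
  refine ⟨max 0 (cmpC (Phi K - Phi (-K)) (invC K) B), le_max_left _ _, ?_⟩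
  intro u u1 u2 hj hr
  exact ⟨_, _, ((jetOn_PhiInv hK).comp hj hr).mono (le_max_right _ _)⟩

/-- iteration: jets, range -/
lemma iter_jet {B K : ℝ} {u u1 u2 : ℝ → ℝ} (h : Jet B u u1 u2)
    (hr : ∀ x, u x ∈ Icc (Phi (-K)) (Phi K)) (s : ℝ≥0) (n : ℕ) :
    (∃ v1 v2, Jet B ((gav s)^[n] u) v1 v2) ∧ ∀ x, (gav s)^[n] u x ∈ Icc (Phi (-K)) (Phi K) := by
  induction n with
  | zero => exact ⟨⟨u1, u2, h⟩, hr⟩
  | succ n ih =>
    obtain ⟨⟨v1, v2, hv⟩, hv2⟩ := ih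
    rw [Function.iterate_succ_apply']
    exact ⟨⟨_, _, hv.gav_jet (K := 1) (fun x => abs_le_one_of_mem (hv2 x)) s⟩,
      fun x => gav_mem_Icc hv.cont hv2 s x⟩

/-- the iterated gap -/
theorem iterate_gap {K B lam : ℝ} (hK : 0 ≤ K) (hl0 : 0 ≤ lam) (hl1 : lam ≤ 1)
    (hI : J2InvStmt K B) (hJ : ∀ B', 0 ≤ B' → J3Stmt K B') :
    ∃ C1, 0 ≤ C1 ∧ ∀ (s : ℝ≥0) (t : ℝ), 0 < t → t ≤ 1 → (s : ℝ) = t ^ 6 →
      ∀ u1 u11 u12 u2 u21 u22 u3 u31 u32 : ℝ → ℝ,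
      Jet B u1 u11 u12 → Jet B u2 u21 u22 → Jet B u3 u31 u32 →
      (∀ x, u1 x ∈ Icc (Phi (-K)) (Phi K)) → (∀ x, u2 x ∈ Icc (Phi (-K)) (Phi K)) →
      (∀ x, u3 x ∈ Icc (Phi (-K)) (Phi K)) →
      (∀ x y, (1 - lam) * PhiInv (u1 x) + lam * PhiInv (u2 y)
        - PhiInv (u3 ((1 - lam) * x + lam * y)) ≤ 0) →
      ∀ n : ℕ, ∀ x y, (1 - lam) * PhiInv ((gav s)^[n] u1 x) + lam * PhiInv ((gav s)^[n] u2 y)
        - PhiInv ((gav s)^[n] u3 ((1 - lam) * x + lam * y)) ≤ n * (C1 * t ^ 8) := by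
  obtain ⟨B', hB', hInv⟩ := hI
  obtain ⟨C1, hC1, hstep⟩ := one_step hK hB' (hJ B' hB') hl0 hl1
  refine ⟨C1, hC1, ?_⟩
  intro s t ht0 ht1 hst u1 u11 u12 u2 u21 u22 u3 u31 u32 h1 h2 h3 r1 r2 r3 hgap n
  induction n with
  | zero => simpa using hgap
  | succ n ih =>
    obtain ⟨⟨v11, v12, hv1⟩, rv1⟩ := iter_jet h1 r1 s n
    obtain ⟨⟨v21, v22, hv2⟩, rv2⟩ := iter_jet h2 r2 s n
    obtain ⟨⟨v31, v32, hv3⟩, rv3⟩ := iter_jet h3 r3 s n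
    obtain ⟨w11, w12, hw1⟩ := hInv _ _ _ hv1 rv1
    obtain ⟨w21, w22, hw2⟩ := hInv _ _ _ hv2 rv2
    obtain ⟨w31, w32, hw3⟩ := hInv _ _ _ hv3 rv3
    intro x y
    have key := hstep s t ht0 ht1 hst (n * (C1 * t ^ 8)) (by positivity) _ _ _ _ _ _ _ _ _
      hw1 hw2 hw3 (fun z => abs_PhiInv_le (rv1 z)) (fun z => abs_PhiInv_le (rv2 z))
      (fun z => abs_PhiInv_le (rv3 z)) ih x y
    have e1 : (fun z => Phi (PhiInv ((gav s)^[n] u1 z))) = (gav s)^[n] u1 :=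
      funext fun z => Phi_PhiInv (mem_Ioo_of_Icc (rv1 z))
    have e2 : (fun z => Phi (PhiInv ((gav s)^[n] u2 z))) = (gav s)^[n] u2 :=
      funext fun z => Phi_PhiInv (mem_Ioo_of_Icc (rv2 z))
    have e3 : (fun z => Phi (PhiInv ((gav s)^[n] u3 z))) = (gav s)^[n] u3 :=
      funext fun z => Phi_PhiInv (mem_Ioo_of_Icc (rv3 z))
    rw [e1, e2, e3] at key
    rw [Function.iterate_succ_apply', Function.iterate_succ_apply', Function.iterate_succ_apply']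
    push_cast
    linarith

/-- 1-D Ehrhard for jet functions (averages at arbitrary base points) -/
theorem ehr_jet {K B lam : ℝ} (hK : 0 ≤ K) (hl0 : 0 ≤ lam) (hl1 : lam ≤ 1)
    {u1 u11 u12 u2 u21 u22 u3 u31 u32 : ℝ → ℝ}
    (h1 : Jet B u1 u11 u12) (h2 : Jet B u2 u21 u22) (h3 : Jet B u3 u31 u32)
    (r1 : ∀ x, u1 x ∈ Icc (Phi (-K)) (Phi K)) (r2 : ∀ x, u2 x ∈ Icc (Phi (-K)) (Phi K))
    (r3 : ∀ x, u3 x ∈ Icc (Phi (-K)) (Phi K))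
    (hgap : ∀ x y, (1 - lam) * PhiInv (u1 x) + lam * PhiInv (u2 y)
        ≤ PhiInv (u3 ((1 - lam) * x + lam * y))) (x y : ℝ) :
    (1 - lam) * PhiInv (gav 1 u1 x) + lam * PhiInv (gav 1 u2 y)
      ≤ PhiInv (gav 1 u3 ((1 - lam) * x + lam * y)) := by
  obtain ⟨C1, hC1, hit⟩ := iterate_gap hK hl0 hl1 (j2InvStmt hK B) (fun B' _ => j3Stmt K B')
  -- for every `k ≥ 1` the gap is at most `C1 / k ^ 2`
  have key : ∀ k : ℕ, (1 - lam) * PhiInv (gav 1 u1 x) + lam * PhiInv (gav 1 u2 y)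
      - PhiInv (gav 1 u3 ((1 - lam) * x + lam * y)) ≤ C1 * (1 / ((k : ℝ) + 1)) := by
    intro k
    have hk0 : (0 : ℝ) < (k : ℝ) + 1 := by positivity
    have hk1 : (1 : ℝ) ≤ (k : ℝ) + 1 := by linarith [(Nat.cast_nonneg k : (0 : ℝ) ≤ k)]
    obtain ⟨s, hs⟩ : ∃ s : ℝ≥0, s = ((((k + 1 : ℕ)) : ℝ≥0) ^ 6)⁻¹ := ⟨_, rfl⟩
    have hst : (s : ℝ) = (1 / ((k : ℝ) + 1)) ^ 6 := by
      rw [hs]; push_cast; rw [one_div, inv_pow]
    have hn : (((k + 1) ^ 6 : ℕ) : ℝ≥0) * s = 1 := by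
      rw [hs]; push_cast
      exact mul_inv_cancel₀ (by positivity)
    have g := hit s (1 / ((k : ℝ) + 1)) (by positivity) (by rw [div_le_one hk0]; exact hk1) hst
      _ _ _ _ _ _ _ _ _ h1 h2 h3 r1 r2 r3 (fun x y => by linarith [hgap x y]) ((k + 1) ^ 6) x y
    rw [gav_iterate h1.cont (fun x => abs_le_one_of_mem (r1 x)),
      gav_iterate h2.cont (fun x => abs_le_one_of_mem (r2 x)),
      gav_iterate h3.cont (fun x => abs_le_one_of_mem (r3 x)), hn] at g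
    refine g.trans ?_
    have e : (((k + 1) ^ 6 : ℕ) : ℝ) * (C1 * (1 / ((k : ℝ) + 1)) ^ 8) =
        C1 * (1 / ((k : ℝ) + 1)) * (1 / ((k : ℝ) + 1)) := by
      push_cast
      field_simp
    rw [e]
    have h1' : 1 / ((k : ℝ) + 1) ≤ 1 := by rw [div_le_one hk0]; exact hk1
    exact mul_le_of_le_one_right (by positivity) h1'
  have hlim : Tendsto (fun k : ℕ => C1 * (1 / ((k : ℝ) + 1))) atTop (𝓝 (C1 * 0)) :=
    (tendsto_one_div_add_atTop_nhds_zero_nat (𝕜 := ℝ)).const_mul C1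
  rw [mul_zero] at hlim
  have := ge_of_tendsto' hlim key
  linarith

end Vale.Agent.P226.Ehr1
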