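import Vale.Agent.P226.Ehr1

/-!
# P226: the one-dimensional Ehrhard inequality for continuous bounded functions
-/

noncomputable section

namespace Vale.Agent.P226.Ehr1

open MeasureTheory ProbabilityTheory Set Filter Topology
open scoped NNReal
open Vale.Agent.P226.EhrPhi

/-- one sided moving average -/
def sm (e : ℝ) (f : ℝ → ℝ) (x : ℝ) : ℝ := (∫ y in (0 : ℝ)..e, f (x + y)) / e

/-- difference quotient -/
def dq (e : ℝ) (f : ℝ → ℝ) (x : ℝ) : ℝ := (f (x + e) - f x) / e

lemma continuous_dq {e : ℝ} {f : ℝ → ℝ} (hf : Continuous f) : Continuous (dq e f) := by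
  unfold dq; fun_prop

lemma abs_dq_le {e K : ℝ} (he : 0 < e) {f : ℝ → ℝ} (hb : ∀ x, |f x| ≤ K) (x : ℝ) :
    |dq e f x| ≤ 2 * K / e := by
  unfold dq
  rw [abs_div, abs_of_pos he]
  apply div_le_div_of_nonneg_right _ he.le
  calc |f (x + e) - f x| ≤ |f (x + e)| + |f x| := abs_sub _ _
    _ ≤ 2 * K := by linarith [hb (x + e), hb x]

lemma sm_eq {e : ℝ} {f : ℝ → ℝ} (hf : Continuous f) (x : ℝ) :
    sm e f x = ((∫ y in (0 : ℝ)..(x + e), f y) - ∫ y in (0 : ℝ)..x, f y) / e := by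
  unfold sm
  rw [intervalIntegral.integral_comp_add_left (fun y => f y) x, add_zero]
  rw [intervalIntegral.integral_interval_sub_left (hf.intervalIntegrable _ _)
    (hf.intervalIntegrable _ _)]

lemma hasDerivAt_sm {e : ℝ} {f : ℝ → ℝ} (hf : Continuous f) (x : ℝ) :
    HasDerivAt (sm e f) (dq e f x) x := by
  have hF : ∀ z, HasDerivAt (fun z => ∫ y in (0 : ℝ)..z, f y) (f z) z := fun z =>
    intervalIntegral.integral_hasDerivAt_right (hf.intervalIntegrable _ _)
      (hf.stronglyMeasurableAtFilter _ _) hf.continuousAt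
  have h1 := (hF (x + e)).comp_add_const x e
  have h2 := (h1.sub (hF x)).div_const e
  have h3 : sm e f = fun x => ((∫ y in (0 : ℝ)..(x + e), f y) - ∫ y in (0 : ℝ)..x, f y) / e :=
    funext fun x => sm_eq hf x
  rw [h3]
  exact h2

lemma hasDerivAt_dq {e : ℝ} {f f' : ℝ → ℝ} (hf : ∀ x, HasDerivAt f (f' x) x) (x : ℝ) :
    HasDerivAt (dq e f) (dq e f' x) x := by
  exact (((hf (x + e)).comp_add_const x e).sub (hf x)).div_const e

lemma continuous_sm {e : ℝ} {f : ℝ → ℝ} (hf : Continuous f) : Continuous (sm e f) :=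
  continuous_iff_continuousAt.mpr fun x => (hasDerivAt_sm hf x).continuousAt

lemma sm_near {e a b c δ : ℝ} (he : 0 < e) {f : ℝ → ℝ} (hf : Continuous f)
    (h : ∀ y ∈ Icc a (b + e), |f y - c| ≤ δ) : ∀ y ∈ Icc a b, |sm e f y - c| ≤ δ := by
  intro x hx
  unfold sm
  have e1 : (∫ y in (0 : ℝ)..e, f (x + y)) / e - c = (∫ y in (0 : ℝ)..e, (f (x + y) - c)) / e := by
    rw [intervalIntegral.integral_sub ((by fun_prop : Continuous fun y => f (x + y)).intervalIntegrable _ _)
      (by simp), intervalIntegral.integral_const]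
    field_simp
    simp
  rw [e1, abs_div, abs_of_pos he, div_le_iff₀ he]
  have := intervalIntegral.norm_integral_le_of_norm_le_const (a := (0 : ℝ)) (b := e)
    (f := fun y => f (x + y) - c) (C := δ) (fun y hy => by
      rw [uIoc_of_le he.le] at hy
      exact h (x + y) ⟨by linarith [hx.1, hy.1], by linarith [hx.2, hy.2]⟩)
  simpa [abs_of_pos he] using this

lemma abs_sm_le {e K : ℝ} (he : 0 < e) {f : ℝ → ℝ} (hf : Continuous f) (hb : ∀ x, |f x| ≤ K)
    (x : ℝ) : |sm e f x| ≤ K := by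
  have := sm_near (a := x) (b := x) (c := 0) (δ := K) he hf (fun y _ => by simpa using hb y) x
    ⟨le_rfl, le_rfl⟩
  simpa using this

/-- triple smoothing -/
def sm3 (e : ℝ) (f : ℝ → ℝ) : ℝ → ℝ := sm e (sm e (sm e f))

lemma abs_sm3_le {e K : ℝ} (he : 0 < e) {f : ℝ → ℝ} (hf : Continuous f) (hb : ∀ x, |f x| ≤ K)
    (x : ℝ) : |sm3 e f x| ≤ K :=
  abs_sm_le he (continuous_sm (continuous_sm hf))
    (abs_sm_le he (continuous_sm hf) (abs_sm_le he hf hb)) x

lemma continuous_sm3 {e : ℝ} {f : ℝ → ℝ} (hf : Continuous f) : Continuous (sm3 e f) :=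
  continuous_sm (continuous_sm (continuous_sm hf))

/-- the smoothed function has a jet -/
lemma sm3_jet {e K : ℝ} (he : 0 < e) (hK : 0 ≤ K) {f : ℝ → ℝ} (hf : Continuous f)
    (hb : ∀ x, |f x| ≤ K) :
    Jet (2 * K / e + 2 * (2 * K / e) / e + 2 * (2 * (2 * K / e) / e) / e) (sm3 e f)
      (dq e (sm e (sm e f))) (dq e (dq e (sm e f))) := by
  have hf1 : Continuous (sm e f) := continuous_sm hf
  have hf2 : Continuous (sm e (sm e f)) := continuous_sm hf1
  have d0 : ∀ x, HasDerivAt (sm3 e f) (dq e (sm e (sm e f)) x) x := fun x => hasDerivAt_sm hf2 x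
  have d1 : ∀ x, HasDerivAt (dq e (sm e (sm e f))) (dq e (dq e (sm e f)) x) x :=
    fun x => hasDerivAt_dq (fun y => hasDerivAt_sm hf1 y) x
  have d2 : ∀ x, HasDerivAt (dq e (dq e (sm e f))) (dq e (dq e (dq e f)) x) x :=
    fun x => hasDerivAt_dq (fun y => hasDerivAt_dq (fun z => hasDerivAt_sm hf z) y) x
  have p1 : 0 ≤ 2 * K / e := by positivity
  have p2 : 0 ≤ 2 * (2 * K / e) / e := by positivity
  have p3 : 0 ≤ 2 * (2 * (2 * K / e) / e) / e := by positivity
  refine ⟨continuous_sm3 hf, continuous_dq hf2, continuous_dq (continuous_dq hf1), ?_, ?_, ?_⟩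
  · intro x
    have := abs_dq_le he (abs_sm_le he hf1 (abs_sm_le he hf hb)) x
    linarith
  · intro x
    have := abs_dq_le he (abs_dq_le he (abs_sm_le he hf hb)) x
    linarith
  · intro x h
    have hmem1 : x ∈ Icc (min x (x + h)) (max x (x + h)) := ⟨min_le_left _ _, le_max_left _ _⟩
    have hmem2 : x + h ∈ Icc (min x (x + h)) (max x (x + h)) :=
      ⟨min_le_right _ _, le_max_right _ _⟩
    have := taylor_of_deriv (a := min x (x + h)) (b := max x (x + h))
      (D := 2 * (2 * (2 * K / e) / e) / e) (fun y _ => d0 y) (fun y _ => d1 y) (fun y _ => d2 y)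
      (fun y _ => abs_dq_le he (abs_dq_le he (abs_dq_le he hb)) y) hmem1 hmem2
    rw [show x + h - x = h by ring] at this
    refine this.trans (mul_le_mul_of_nonneg_right (by linarith) (by positivity))

/-- the three function inequality is preserved by smoothing -/
lemma sm_gap {e lam : ℝ} (he : 0 < e) {f1 f2 f3 : ℝ → ℝ} (h1 : Continuous f1)
    (h2 : Continuous f2) (h3 : Continuous f3)
    (hgap : ∀ x y, (1 - lam) * f1 x + lam * f2 y ≤ f3 ((1 - lam) * x + lam * y)) (x y : ℝ) :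
    (1 - lam) * sm e f1 x + lam * sm e f2 y ≤ sm e f3 ((1 - lam) * x + lam * y) := by
  unfold sm
  have i1 : IntervalIntegrable (fun z => (1 - lam) * f1 (x + z)) volume 0 e :=
    (by fun_prop : Continuous fun z => (1 - lam) * f1 (x + z)).intervalIntegrable _ _
  have i2 : IntervalIntegrable (fun z => lam * f2 (y + z)) volume 0 e :=
    (by fun_prop : Continuous fun z => lam * f2 (y + z)).intervalIntegrable _ _
  have i3 : IntervalIntegrable (fun z => f3 ((1 - lam) * x + lam * y + z)) volume 0 e :=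
    (by fun_prop : Continuous fun z => f3 ((1 - lam) * x + lam * y + z)).intervalIntegrable _ _
  have e1 : (1 - lam) * ((∫ z in (0 : ℝ)..e, f1 (x + z)) / e)
      + lam * ((∫ z in (0 : ℝ)..e, f2 (y + z)) / e)
      = (∫ z in (0 : ℝ)..e, ((1 - lam) * f1 (x + z) + lam * f2 (y + z))) / e := by
    rw [intervalIntegral.integral_add i1 i2, intervalIntegral.integral_const_mul,
      intervalIntegral.integral_const_mul]
    ring
  rw [e1]
  apply div_le_div_of_nonneg_right _ he.le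
  apply intervalIntegral.integral_mono_on he.le (i1.add i2) i3
  intro z _
  have := hgap (x + z) (y + z)
  rw [show (1 - lam) * (x + z) + lam * (y + z) = (1 - lam) * x + lam * y + z by ring] at this
  exact this

lemma sm3_gap {e lam : ℝ} (he : 0 < e) {f1 f2 f3 : ℝ → ℝ} (h1 : Continuous f1)
    (h2 : Continuous f2) (h3 : Continuous f3)
    (hgap : ∀ x y, (1 - lam) * f1 x + lam * f2 y ≤ f3 ((1 - lam) * x + lam * y)) (x y : ℝ) :
    (1 - lam) * sm3 e f1 x + lam * sm3 e f2 y ≤ sm3 e f3 ((1 - lam) * x + lam * y) := by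
  unfold sm3
  exact sm_gap he (continuous_sm (continuous_sm h1)) (continuous_sm (continuous_sm h2))
    (continuous_sm (continuous_sm h3))
    (sm_gap he (continuous_sm h1) (continuous_sm h2) (continuous_sm h3)
      (sm_gap he h1 h2 h3 hgap)) x y

/-- convergence of the smoothings -/
lemma tendsto_sm3 {f : ℝ → ℝ} (hf : Continuous f) (x : ℝ) {ι : Type*} {l : Filter ι} {e : ι → ℝ}
    (he : Tendsto e l (𝓝[>] 0)) : Tendsto (fun i => sm3 (e i) f x) l (𝓝 (f x)) := by
  rw [Metric.tendsto_nhds]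
  intro δ hδ
  obtain ⟨η, hη, hcl⟩ := Metric.continuous_iff.mp hf x (δ / 2) (by positivity)
  have h1 : ∀ᶠ i in l, e i < η / 4 := by
    have : Tendsto e l (𝓝 0) := he.mono_right nhdsWithin_le_nhds
    exact this.eventually_lt_const (by positivity)
  have h2 : ∀ᶠ i in l, 0 < e i := by
    have := he.eventually (self_mem_nhdsWithin)
    exact this
  filter_upwards [h1, h2] with i hi hi0
  have hnear : ∀ y ∈ Icc x (x + e i + e i + e i), |f y - f x| ≤ δ / 2 := by
    intro y hy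
    have := hcl y (by rw [Real.dist_eq, abs_of_nonneg (by linarith [hy.1])]; linarith [hy.2])
    rw [Real.dist_eq] at this
    exact this.le
  have a1 := sm_near hi0 hf hnear
  have a2 := sm_near hi0 (continuous_sm hf) a1
  have a3 := sm_near (b := x) hi0 (continuous_sm (continuous_sm hf)) a2 x ⟨le_rfl, le_rfl⟩
  rw [Real.dist_eq]
  unfold sm3
  linarith

lemma tendsto_TT_sm3 {K : ℝ} {f : ℝ → ℝ} (hf : Continuous f) (hb : ∀ x, |f x| ≤ K) (x : ℝ) :
    Tendsto (fun n : ℕ => TT 1 (sm3 (1 / ((n : ℝ) + 1)) f) x) atTop (𝓝 (TT 1 f x)) := by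
  have he : Tendsto (fun n : ℕ => 1 / ((n : ℝ) + 1)) atTop (𝓝[>] 0) := by
    rw [tendsto_nhdsWithin_iff]
    exact ⟨tendsto_one_div_add_atTop_nhds_zero_nat,
      Eventually.of_forall fun n => by show (0 : ℝ) < _; positivity⟩
  have h1 : Tendsto (fun n : ℕ => gav 1 (fun y => Phi (sm3 (1 / ((n : ℝ) + 1)) f y)) x) atTop
      (𝓝 (gav 1 (fun y => Phi (f y)) x)) := by
    unfold gav
    apply tendsto_integral_of_dominated_convergence (bound := fun _ => (1 : ℝ))
    · intro n
      exact (by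
        have := continuous_sm3 (e := 1 / ((n : ℝ) + 1)) hf
        fun_prop : Continuous fun y => Phi (sm3 (1 / ((n : ℝ) + 1)) f (x + y))).aestronglyMeasurable
    · exact integrable_const _
    · intro n
      exact ae_of_all _ fun y => abs_Phi_le _
    · exact ae_of_all _ fun y =>
        (continuous_Phi.tendsto _).comp (tendsto_sm3 hf (x + y) he)
  exact (continuousAt_PhiInv (Icc_Phi_subset K (gav_Phi_mem hf hb 1 x))).tendsto.comp h1

/-- **one-dimensional functional Ehrhard inequality** -/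
theorem ehr1 {K lam : ℝ} (hl0 : 0 ≤ lam) (hl1 : lam ≤ 1) {f1 f2 f3 : ℝ → ℝ}
    (h1 : Continuous f1) (h2 : Continuous f2) (h3 : Continuous f3)
    (b1 : ∀ x, |f1 x| ≤ K) (b2 : ∀ x, |f2 x| ≤ K) (b3 : ∀ x, |f3 x| ≤ K)
    (hgap : ∀ x y, (1 - lam) * f1 x + lam * f2 y ≤ f3 ((1 - lam) * x + lam * y)) (x y : ℝ) :
    (1 - lam) * TT 1 f1 x + lam * TT 1 f2 y ≤ TT 1 f3 ((1 - lam) * x + lam * y) := by
  have hK : 0 ≤ K := (abs_nonneg _).trans (b1 0)
  have key : ∀ n : ℕ, (1 - lam) * TT 1 (sm3 (1 / ((n : ℝ) + 1)) f1) x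
      + lam * TT 1 (sm3 (1 / ((n : ℝ) + 1)) f2) y
      ≤ TT 1 (sm3 (1 / ((n : ℝ) + 1)) f3) ((1 - lam) * x + lam * y) := by
    intro n
    obtain ⟨e, he⟩ : ∃ e : ℝ, e = 1 / ((n : ℝ) + 1) := ⟨_, rfl⟩
    rw [← he]
    have he0 : 0 < e := by rw [he]; positivity
    have j1 := (jetOn_Phi hK).comp (sm3_jet he0 hK h1 b1)
      (fun z => abs_le.mp (abs_sm3_le he0 h1 b1 z))
    have j2 := (jetOn_Phi hK).comp (sm3_jet he0 hK h2 b2)
      (fun z => abs_le.mp (abs_sm3_le he0 h2 b2 z))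
    have j3 := (jetOn_Phi hK).comp (sm3_jet he0 hK h3 b3)
      (fun z => abs_le.mp (abs_sm3_le he0 h3 b3 z))
    exact ehr_jet hK hl0 hl1 j1 j2 j3 (fun z => Phi_mem_Icc (abs_sm3_le he0 h1 b1 z))
      (fun z => Phi_mem_Icc (abs_sm3_le he0 h2 b2 z))
      (fun z => Phi_mem_Icc (abs_sm3_le he0 h3 b3 z))
      (fun x y => by
        rw [PhiInv_Phi, PhiInv_Phi, PhiInv_Phi]
        exact sm3_gap he0 h1 h2 h3 hgap x y) x y
  exact le_of_tendsto_of_tendsto'
    (((tendsto_TT_sm3 h1 b1 x).const_mul (1 - lam)).add ((tendsto_TT_sm3 h2 b2 y).const_mul lam))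
    (tendsto_TT_sm3 h3 b3 _) key

end Vale.Agent.P226.Ehr1
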