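import Vale.Agent.P226.EhrY
import Vale.Agent.P226.Ehr1Cont
import Vale.Agent.P226.Bound

/-!
# P226: the Ehrhard bound, assembled
-/

noncomputable section

namespace Vale.Agent.P226.EhrM

open MeasureTheory ProbabilityTheory Set Filter Topology
open Vale.Agent.P226.EhrPhi

theorem ehr1_prop : Ehr1 := by
  intro lam K h0 h1 φ1 φ2 φ3 c1 c2 c3 b1 b2 b3 h
  have := Vale.Agent.P226.Ehr1.ehr1 h0 h1 c1 c2 c3 b1 b2 b3 h 0 0
  simpa only [TT, gav, zero_add, mul_zero, add_zero] using this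

/-- **The Ehrhard bound** for convex functions of a Gaussian vector, no hypothesis left. -/
theorem ehr_bound : Vale.Agent.P226.GP.EhrBound := by
  intro n Y hY hYc hi
  set p : ℝ := ∫ y, Q (Y y) ∂(gpi n) with hp
  have hmem : p ∈ Ioo (0 : ℝ) 1 := by
    have := FF_mem hY 0
    unfold FF at this
    simpa [hp] using this
  have h1 := ehr_of_ehr1 ehr1_prop Y hY hYc hi (-PhiInv p)
    (by rw [Q_eq, neg_neg, Phi_PhiInv hmem])
  have h2 : JJ p = gpdf (-PhiInv p) * psi (-PhiInv p) := by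
    rw [← JJ_Q, Q_eq, neg_neg, Phi_PhiInv hmem]
  rw [h2]
  exact h1

end Vale.Agent.P226.EhrM
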