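import Vale.Agent.P226.Tens

/-!
# P226: the Ehrhard bound `E φ(Y) · E ψ(Y) ≤ J(E Q(Y))` for convex `Y`, from the one-dimensional
functional Ehrhard inequality
-/

noncomputable section

namespace Vale.Agent.P226.EhrM

open MeasureTheory ProbabilityTheory Set Filter Topology
open Vale.Agent.P226.EhrPhi

/-- clipping to `[-a, b]` -/
def clip (a b x : ℝ) : ℝ := max (-a) (min x b)

lemma clip3 {a b c lam Kp Km Kh : ℝ} (h : (1 - lam) * a + lam * b ≤ c) (h0 : 0 < lam)
    (h1 : lam < 1) (hp : 0 ≤ Kp) (hm : Kh ≤ Km)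
    (e1 : Kh ≤ (1 - lam) * Km - lam * Kp) (e2 : Kh ≤ lam * Km - (1 - lam) * Kp) (hh : 0 ≤ Kh) :
    (1 - lam) * clip Km Kp a + lam * clip Km Kp b ≤ clip Kh Kp c := by
  unfold clip
  have l1 : 0 < 1 - lam := by linarith
  have ua : ∀ x, max (-Km) (min x Kp) ≤ Kp := fun x => max_le (by linarith) (min_le_right _ _)
  have ub : ∀ x, -Km ≤ x → max (-Km) (min x Kp) ≤ x := fun x hx => max_le hx (min_le_left _ _)
  have uc : ∀ x, x ≤ -Km → max (-Km) (min x Kp) = -Km := fun x hx =>
    max_eq_left ((min_le_left _ _).trans hx)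
  by_cases hc : Kp ≤ c
  · rw [min_eq_right hc, max_eq_right (show -Kh ≤ Kp by linarith)]
    have := mul_le_mul_of_nonneg_left (ua a) l1.le
    have := mul_le_mul_of_nonneg_left (ua b) h0.le
    linarith
  · push Not at hc
    rw [min_eq_left hc.le]
    rcases le_or_gt (-Km) a with ha | ha
    · rcases le_or_gt (-Km) b with hb | hb
      · apply le_max_of_le_right
        have := mul_le_mul_of_nonneg_left (ub a ha) l1.le
        have := mul_le_mul_of_nonneg_left (ub b hb) h0.le
        linarith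
      · apply le_max_of_le_left
        rw [uc b hb.le]
        have := mul_le_mul_of_nonneg_left (ua a) l1.le
        linarith
    · apply le_max_of_le_left
      rw [uc a ha.le]
      have := mul_le_mul_of_nonneg_left (ua b) h0.le
      linarith

lemma abs_clip_le {a b x : ℝ} (ha : 0 ≤ a) (_hb : 0 ≤ b) : |clip a b x| ≤ max a b := by
  unfold clip
  rw [abs_le]
  constructor
  · have : -max a b ≤ -a := neg_le_neg (le_max_left _ _)
    exact this.trans (le_max_left _ _)
  · apply max_le
    · linarith [le_max_left a b]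
    · exact (min_le_right _ _).trans (le_max_right _ _)

lemma continuous_clip (a b : ℝ) : Continuous (clip a b) := by unfold clip; fun_prop

lemma clip_eq {a b x : ℝ} (h1 : -a ≤ x) (h2 : x ≤ b) : clip a b x = x := by
  unfold clip; rw [min_eq_left h2, max_eq_right h1]

variable {n : ℕ}

/-- `F(r) = E Q(Y + r)` -/
def FF (Y : (Fin n → ℝ) → ℝ) (r : ℝ) : ℝ := ∫ y, Q (Y y + r) ∂(gpi n)

lemma tendsto_clip {Y : (Fin n → ℝ) → ℝ} (hY : Continuous Y) (r : ℝ) {a b : ℕ → ℝ}
    (ha : Tendsto a atTop atTop) (hb : Tendsto b atTop atTop) :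
    Tendsto (fun j : ℕ => PhiInv (∫ y, Phi (clip (a j) (b j) (-(Y y + r))) ∂(gpi n))) atTop
      (𝓝 (PhiInv (FF Y r))) := by
  have hmem : FF Y r ∈ Ioo (0 : ℝ) 1 := by
    unfold FF
    simp only [Q_eq]
    exact integral_Phi_mem_Ioo (by fun_prop)
  have h1 : Tendsto (fun j : ℕ => ∫ y, Phi (clip (a j) (b j) (-(Y y + r))) ∂(gpi n)) atTop
      (𝓝 (FF Y r)) := by
    unfold FF
    simp only [Q_eq]
    apply tendsto_integral_of_dominated_convergence (fun _ => (1 : ℝ))
    · intro j
      have : Continuous fun y => Phi (clip (a j) (b j) (-(Y y + r))) :=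
        continuous_Phi.comp ((continuous_clip _ _).comp (by fun_prop))
      exact this.aestronglyMeasurable
    · exact integrable_const _
    · intro j
      exact ae_of_all _ fun y => abs_Phi_le _
    · refine ae_of_all _ fun y => ?_
      apply tendsto_const_nhds.congr'
      filter_upwards [ha.eventually_ge_atTop (Y y + r), hb.eventually_ge_atTop (-(Y y + r))]
        with j h1 h2
      rw [clip_eq (by linarith) h2]
  exact (continuousAt_PhiInv hmem).tendsto.comp h1

lemma FF_mem {Y : (Fin n → ℝ) → ℝ} (hY : Continuous Y) (r : ℝ) : FF Y r ∈ Ioo (0 : ℝ) 1 := by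
  unfold FF
  simp only [Q_eq]
  exact integral_Phi_mem_Ioo (by fun_prop)

theorem FF_concave (H : Ehr1) {Y : (Fin n → ℝ) → ℝ} (hY : Continuous Y)
    (hYc : ConvexOn ℝ univ Y) : ConcaveOn ℝ univ (fun r => PhiInv (FF Y r)) := by
  refine ⟨convex_univ, ?_⟩
  intro r1 _ r2 _ a lam ha h0 hal
  obtain rfl : a = 1 - lam := by linarith
  rcases eq_or_lt_of_le h0 with h0' | h0'
  · subst h0'
    simp
  rcases eq_or_lt_of_le ha with ha' | ha'
  · have : lam = 1 := by linarith
    subst this
    simp
  have h1 : lam < 1 := by linarith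
  simp only [smul_eq_mul]
  set L : ℝ := 2 / min lam (1 - lam) with hL
  have hmin : 0 < min lam (1 - lam) := lt_min h0' ha'
  have hLpos : 0 < L := by positivity
  have hL1 : 2 ≤ lam * L := by
    rw [hL, mul_div_assoc', le_div_iff₀ hmin]
    have := min_le_left lam (1 - lam)
    linarith
  have hL2 : 2 ≤ (1 - lam) * L := by
    rw [hL, mul_div_assoc', le_div_iff₀ hmin]
    have := min_le_right lam (1 - lam)
    linarith
  have hL3 : 1 ≤ L := by
    have : lam * L ≤ 1 * L := mul_le_mul_of_nonneg_right h1.le hLpos.le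
    linarith
  have tj : Tendsto (fun j : ℕ => (j : ℝ)) atTop atTop := tendsto_natCast_atTop_atTop
  have tL : Tendsto (fun j : ℕ => L * (j : ℝ)) atTop atTop := tj.const_mul_atTop hLpos
  have T1 := tendsto_clip hY r1 tL tj
  have T2 := tendsto_clip hY r2 tL tj
  have T3 := tendsto_clip hY ((1 - lam) * r1 + lam * r2) tj tj
  refine le_of_tendsto_of_tendsto' ((T1.const_mul (1 - lam)).add (T2.const_mul lam)) T3 ?_
  intro j
  have hj : (0 : ℝ) ≤ j := Nat.cast_nonneg j
  have hLj : (j : ℝ) ≤ L * j := le_mul_of_one_le_left hj hL3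
  refine ehrN H n lam (L * j) h0 h1.le _ _ _ ((continuous_clip _ _).comp (by fun_prop))
    ((continuous_clip _ _).comp (by fun_prop)) ((continuous_clip _ _).comp (by fun_prop)) ?_ ?_ ?_ ?_
  · intro x
    have := abs_clip_le (x := -(Y x + r1)) (mul_nonneg hLpos.le hj) hj
    rwa [max_eq_left hLj] at this
  · intro x
    have := abs_clip_le (x := -(Y x + r2)) (mul_nonneg hLpos.le hj) hj
    rwa [max_eq_left hLj] at this
  · intro x
    have := abs_clip_le (x := -(Y x + ((1 - lam) * r1 + lam * r2))) hj hj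
    rw [max_self] at this
    exact this.trans hLj
  · intro x y
    apply clip3 _ h0' h1 hj hLj _ _ hj
    · have := hYc.2 (mem_univ x) (mem_univ y) ha h0 hal
      simp only [smul_eq_mul] at this
      linarith
    · nlinarith [mul_le_mul_of_nonneg_right hL2 hj]
    · nlinarith [mul_le_mul_of_nonneg_right hL1 hj]

/-! ### differentiation in `r` -/

lemma Q_abs_le (x : ℝ) : |Q x| ≤ 1 := by
  rw [abs_of_pos (Q_pos x)]; exact (Q_lt_one x).le

lemma gpdf_abs_le (x : ℝ) : |gpdf x| ≤ 1 := by
  rw [abs_of_pos (gpdf_pos x)]; exact gpdf_le_one x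

lemma hasDerivAt_FF {Y : (Fin n → ℝ) → ℝ} (hY : Continuous Y) (r : ℝ) :
    HasDerivAt (FF Y) (-∫ y, gpdf (Y y + r) ∂(gpi n)) r := by
  have h := hasDerivAt_integral_of_dominated_loc_of_deriv_le (μ := gpi n) (𝕜 := ℝ)
    (F := fun r y => Q (Y y + r)) (F' := fun r y => -gpdf (Y y + r)) (x₀ := r) (s := univ)
    (bound := fun _ => 1) univ_mem
    (Eventually.of_forall fun x => (by fun_prop : Continuous fun y => Q (Y y + x)).aestronglyMeasurable)
    (Integrable.of_bound (by fun_prop : Continuous fun y => Q (Y y + r)).aestronglyMeasurable 1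
      (ae_of_all _ fun x => Q_abs_le _))
    (by fun_prop : Continuous fun y => -gpdf (Y y + r)).aestronglyMeasurable
    (ae_of_all _ fun y x _ => by rw [norm_neg]; exact gpdf_abs_le _)
    (integrable_const _)
    (ae_of_all _ fun y x _ => by
      have h1 : HasDerivAt (fun x : ℝ => Y y + x) 1 x := (hasDerivAt_id x).const_add _
      have h2 := (hasDerivAt_Q (Y y + x)).comp x h1
      rw [mul_one] at h2
      exact h2)
  have h2 := h.2
  rw [integral_neg] at h2
  exact h2

lemma abs_psi_le (x : ℝ) : |psi x| ≤ 1 + |x| := by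
  unfold psi
  have h1 := gpdf_abs_le x
  have h2 : |x * Q x| ≤ |x| := by
    rw [abs_mul]
    exact mul_le_of_le_one_right (abs_nonneg _) (Q_abs_le x)
  have h3 := abs_sub (gpdf x) (x * Q x)
  linarith

/-- `A(r) = E ψ(Y + r)` -/
def AA (Y : (Fin n → ℝ) → ℝ) (r : ℝ) : ℝ := ∫ y, psi (Y y + r) ∂(gpi n)

lemma integrable_psi {Y : (Fin n → ℝ) → ℝ} (hY : Continuous Y) (hi : Integrable Y (gpi n)) (r : ℝ) :
    Integrable (fun y => psi (Y y + r)) (gpi n) := by
  have h1 : Integrable (fun y => 1 + |Y y + r|) (gpi n) :=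
    (integrable_const 1).add ((hi.add (integrable_const r)).abs)
  refine h1.mono' (by fun_prop : Continuous fun y => psi (Y y + r)).aestronglyMeasurable
    (ae_of_all _ fun y => ?_)
  exact abs_psi_le _

lemma hasDerivAt_AA {Y : (Fin n → ℝ) → ℝ} (hY : Continuous Y) (hi : Integrable Y (gpi n)) (r : ℝ) :
    HasDerivAt (AA Y) (-FF Y r) r := by
  have h := hasDerivAt_integral_of_dominated_loc_of_deriv_le (μ := gpi n) (𝕜 := ℝ)
    (F := fun r y => psi (Y y + r)) (F' := fun r y => -Q (Y y + r)) (x₀ := r) (s := univ)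
    (bound := fun _ => 1) univ_mem
    (Eventually.of_forall fun x => (by fun_prop : Continuous fun y => psi (Y y + x)).aestronglyMeasurable)
    (integrable_psi hY hi r)
    (by fun_prop : Continuous fun y => -Q (Y y + r)).aestronglyMeasurable
    (ae_of_all _ fun y x _ => by rw [norm_neg]; exact Q_abs_le _)
    (integrable_const _)
    (ae_of_all _ fun y x _ => by
      have h1 : HasDerivAt (fun x : ℝ => Y y + x) 1 x := (hasDerivAt_id x).const_add _
      have h2 := (hasDerivAt_psi (Y y + x)).comp x h1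
      rw [mul_one] at h2
      exact h2)
  have h2 := h.2
  rw [integral_neg] at h2
  exact h2

/-! ### the limit at infinity -/

lemma Q_le_one (x : ℝ) : Q x ≤ 1 := (Q_lt_one x).le

lemma antitone_psi : Antitone psi := by
  apply antitone_of_deriv_nonpos
  · intro x; exact (hasDerivAt_psi x).differentiableAt
  · intro x
    rw [(hasDerivAt_psi x).deriv]
    linarith [Q_pos x]

lemma tendsto_gpdf : Tendsto gpdf atTop (𝓝 0) := by
  unfold gpdf
  have h1 : Tendsto (fun x : ℝ => Real.exp (-x ^ 2 / 2)) atTop (𝓝 0) := by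
    apply Real.tendsto_exp_atBot.comp
    have h2 : Tendsto (fun x : ℝ => x ^ 2) atTop atTop := tendsto_pow_atTop two_ne_zero
    have h3 : Tendsto (fun x : ℝ => -(x ^ 2)) atTop atBot := tendsto_neg_atTop_atBot.comp h2
    exact h3.atBot_div_const (by norm_num)
  have := h1.div_const (√(2 * Real.pi))
  simpa using this

lemma tendsto_Q : Tendsto Q atTop (𝓝 0) := by
  unfold Q
  have := tendsto_Phi_atTop.const_sub 1
  simpa using this

/-- `x Q(x) ≤ φ(x)` : from `ψ ≥ 0`; we prove `ψ → 0` and `ψ ≥ 0` together. -/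
lemma mul_Q_le {x : ℝ} (hx : 0 < x) : Q x * x ≤ gpdf x := by
  have hg : ∀ t, HasDerivAt (fun t => gpdf t / x) (-t * gpdf t / x) t := fun t =>
    (hasDerivAt_gpdf t).div_const x
  -- `gpdf/x - Q` is antitone on `[x, ∞)` with limit `0`
  have hanti : AntitoneOn (fun t => gpdf t / x - Q t) (Ici x) := by
    apply antitoneOn_of_deriv_nonpos (convex_Ici x)
    · exact (by fun_prop : Continuous fun t => gpdf t / x - Q t).continuousOn
    · intro t _
      exact ((hg t).sub (hasDerivAt_Q t)).differentiableAt.differentiableWithinAt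
    · intro t ht
      rw [interior_Ici] at ht
      have h1 : HasDerivAt (fun t => gpdf t / x - Q t) (-t * gpdf t / x - -gpdf t) t :=
        (hg t).sub (hasDerivAt_Q t)
      rw [h1.deriv]
      have h2 : gpdf t ≤ t * gpdf t / x := by
        rw [le_div_iff₀ hx]
        have := mul_le_mul_of_nonneg_right (mem_Ioi.mp ht).le (gpdf_nonneg t)
        linarith
      have h3 : -t * gpdf t / x = -(t * gpdf t / x) := by ring
      rw [h3]; linarith
  have hlim : Tendsto (fun t => gpdf t / x - Q t) atTop (𝓝 0) := by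
    have := (tendsto_gpdf.div_const x).sub tendsto_Q
    simpa using this
  have h0 : 0 ≤ gpdf x / x - Q x := by
    apply le_of_tendsto hlim
    filter_upwards [eventually_ge_atTop x] with t ht
    exact hanti (mem_Ici.mpr le_rfl) (mem_Ici.mpr ht) ht
  have h1 : Q x ≤ gpdf x / x := by linarith
  rwa [le_div_iff₀ hx] at h1

lemma tendsto_psi : Tendsto psi atTop (𝓝 0) := by
  apply tendsto_of_tendsto_of_tendsto_of_le_of_le' tendsto_const_nhds tendsto_gpdf
  · filter_upwards [eventually_gt_atTop (0 : ℝ)] with x hx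
    unfold psi
    have := mul_Q_le hx
    linarith
  · filter_upwards [eventually_gt_atTop (0 : ℝ)] with x hx
    unfold psi
    have := mul_pos hx (Q_pos x)
    linarith

lemma psi_nonneg (x : ℝ) : 0 ≤ psi x := by
  apply le_of_tendsto tendsto_psi
  filter_upwards [eventually_ge_atTop x] with t ht
  exact antitone_psi ht

lemma tendsto_AA {Y : (Fin n → ℝ) → ℝ} (hY : Continuous Y) (hi : Integrable Y (gpi n)) :
    Tendsto (AA Y) atTop (𝓝 0) := by
  unfold AA
  have h0 : (0 : ℝ) = ∫ _y : Fin n → ℝ, (0 : ℝ) ∂(gpi n) := by simp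
  rw [h0]
  apply tendsto_integral_filter_of_dominated_convergence (fun y => psi (Y y + 0))
  · exact Eventually.of_forall fun x =>
      (by fun_prop : Continuous fun y => psi (Y y + x)).aestronglyMeasurable
  · filter_upwards [eventually_ge_atTop (0 : ℝ)] with r hr
    refine ae_of_all _ fun y => ?_
    rw [Real.norm_eq_abs, abs_of_nonneg (psi_nonneg _)]
    exact antitone_psi (by linarith)
  · exact integrable_psi hY hi 0
  · refine ae_of_all _ fun y => ?_
    exact tendsto_psi.comp (tendsto_atTop_add_const_left _ _ tendsto_id)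

/-- **The Ehrhard bound.** -/
theorem ehr_of_ehr1 (H : Ehr1) (Y : (Fin n → ℝ) → ℝ) (hY : Continuous Y)
    (hYc : ConvexOn ℝ univ Y) (hi : Integrable Y (gpi n)) (τ : ℝ)
    (hτ : ∫ y, Q (Y y) ∂(gpi n) = Q τ) :
    (∫ y, gpdf (Y y) ∂(gpi n)) * (∫ y, psi (Y y) ∂(gpi n)) ≤ gpdf τ * psi τ := by
  set b : ℝ := ∫ y, gpdf (Y y) ∂(gpi n) with hb
  have hbpos : 0 < b := by
    have hint : Integrable (fun y => gpdf (Y y)) (gpi n) :=
      Integrable.of_bound (by fun_prop : Continuous fun y => gpdf (Y y)).aestronglyMeasurable 1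
        (ae_of_all _ fun x => gpdf_abs_le _)
    rw [hb]
    apply (integral_pos_iff_support_of_nonneg (fun x => (gpdf_pos _).le) hint).mpr
    have : Function.support (fun x => gpdf (Y x)) = univ := by
      ext x; simp [(gpdf_pos (Y x)).ne']
    rw [this]; simp
  have hF0 : FF Y 0 = Q τ := by unfold FF; simpa using hτ
  have hG0 : PhiInv (FF Y 0) = -τ := by rw [hF0, Q_eq, PhiInv_Phi]
  have hI : 0 < gpdf τ := gpdf_pos τ
  have hdF : HasDerivAt (FF Y) (-b) 0 := by
    have := hasDerivAt_FF hY 0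
    simpa using this
  have hdG : HasDerivAt (fun r => PhiInv (FF Y r)) (-(b / gpdf τ)) 0 := by
    have h1 := (hasDerivAt_PhiInv (FF_mem hY 0)).comp (0 : ℝ) hdF
    rw [hG0, gpdf_neg] at h1
    have e : (gpdf τ)⁻¹ * -b = -(b / gpdf τ) := by rw [div_eq_inv_mul]; ring
    rw [e] at h1
    exact h1
  have hconc := FF_concave H hY hYc
  have htan : ∀ r, 0 < r → PhiInv (FF Y r) ≤ -τ - b / gpdf τ * r := by
    intro r hr
    have h1 := hconc.slope_le_of_hasDerivAt (mem_univ 0) (mem_univ r) hr hdG
    rw [slope_def_field, hG0, sub_zero, div_le_iff₀ hr] at h1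
    linarith
  have hFle : ∀ r, 0 < r → FF Y r ≤ Q (τ + b / gpdf τ * r) := by
    intro r hr
    have h1 := htan r hr
    rw [PhiInv_le_iff' (FF_mem hY r)] at h1
    rw [Q_eq]
    have e : -(τ + b / gpdf τ * r) = -τ - b / gpdf τ * r := by ring
    rw [e]; exact h1
  -- monotonicity of `A(r) - (I/b) ψ(τ + (b/I) r)`
  set c : ℝ := b / gpdf τ with hc
  have hcpos : 0 < c := div_pos hbpos hI
  have hdB : ∀ r, HasDerivAt (fun r => psi (τ + c * r) / c) (-Q (τ + c * r)) r := by
    intro r
    have h1 : HasDerivAt (fun r : ℝ => τ + c * r) c r := by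
      have := ((hasDerivAt_id r).const_mul c).const_add τ
      simpa using this
    have h2 := ((hasDerivAt_psi (τ + c * r)).comp r h1).div_const c
    have e : -Q (τ + c * r) * c / c = -Q (τ + c * r) := by field_simp
    rw [e] at h2
    exact h2
  have hmono : MonotoneOn (fun r => AA Y r - psi (τ + c * r) / c) (Ici 0) := by
    apply monotoneOn_of_deriv_nonneg (convex_Ici 0)
    · intro r _
      exact ((hasDerivAt_AA hY hi r).sub (hdB r)).continuousAt.continuousWithinAt
    · intro r _
      exact ((hasDerivAt_AA hY hi r).sub (hdB r)).differentiableAt.differentiableWithinAt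
    · intro r hr
      rw [interior_Ici] at hr
      have h1 : HasDerivAt (fun r => AA Y r - psi (τ + c * r) / c) (-FF Y r - -Q (τ + c * r)) r :=
        (hasDerivAt_AA hY hi r).sub (hdB r)
      rw [h1.deriv]
      have := hFle r hr
      linarith
  have hlim : Tendsto (fun r => AA Y r - psi (τ + c * r) / c) atTop (𝓝 0) := by
    have h1 : Tendsto (fun r : ℝ => τ + c * r) atTop atTop :=
      tendsto_atTop_add_const_left _ _ (tendsto_id.const_mul_atTop hcpos)
    have h2 := (tendsto_AA hY hi).sub ((tendsto_psi.comp h1).div_const c)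
    simpa using h2
  have hfin : AA Y 0 - psi (τ + c * 0) / c ≤ 0 := by
    apply ge_of_tendsto hlim
    filter_upwards [eventually_ge_atTop (0 : ℝ)] with t ht
    exact hmono (mem_Ici.mpr le_rfl) (mem_Ici.mpr ht) ht
  have hA0 : AA Y 0 = ∫ y, psi (Y y) ∂(gpi n) := by unfold AA; simp
  rw [hA0, mul_zero, add_zero] at hfin
  have h3 : ∫ y, psi (Y y) ∂(gpi n) ≤ psi τ / c := by linarith
  calc b * ∫ y, psi (Y y) ∂(gpi n) ≤ b * (psi τ / c) := mul_le_mul_of_nonneg_left h3 hbpos.le
    _ = gpdf τ * psi τ := by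
      rw [hc]; field_simp

end Vale.Agent.P226.EhrM
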