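import Mathlib

/-!
# P226: the Gaussian distribution function `Phi` and its inverse `PhiInv`
-/

noncomputable section

namespace Vale.Agent.P226.EhrPhi

open MeasureTheory ProbabilityTheory Set Filter Topology

/-- the standard Gaussian density -/
def gpdf (x : ℝ) : ℝ := Real.exp (-x ^ 2 / 2) / √(2 * Real.pi)

lemma gpdf_eq (x : ℝ) : gaussianPDFReal 0 1 x = gpdf x := by
  unfold gaussianPDFReal gpdf
  simp only [NNReal.coe_one, mul_one, sub_zero]
  rw [div_eq_inv_mul (Real.exp _)]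

lemma sqrt_two_pi_pos : 0 < √(2 * Real.pi) := Real.sqrt_pos.mpr (by positivity)

lemma two_lt_sqrt_two_pi : 2 < √(2 * Real.pi) := by
  apply Real.lt_sqrt_of_sq_lt
  nlinarith [Real.pi_gt_three]

lemma gpdf_pos (x : ℝ) : 0 < gpdf x := div_pos (Real.exp_pos _) sqrt_two_pi_pos

lemma gpdf_nonneg (x : ℝ) : 0 ≤ gpdf x := (gpdf_pos x).le

lemma gpdf_neg (x : ℝ) : gpdf (-x) = gpdf x := by unfold gpdf; rw [neg_sq]

lemma gpdf_abs (x : ℝ) : gpdf |x| = gpdf x := by unfold gpdf; rw [sq_abs]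

lemma gpdf_le_of_abs_le {x y : ℝ} (h : |x| ≤ |y|) : gpdf y ≤ gpdf x := by
  unfold gpdf
  apply div_le_div_of_nonneg_right _ sqrt_two_pi_pos.le
  apply Real.exp_le_exp.mpr
  have := sq_le_sq.mpr h
  linarith

lemma gpdf_le_half (x : ℝ) : gpdf x ≤ 1 / 2 := by
  unfold gpdf
  rw [div_le_iff₀ sqrt_two_pi_pos]
  have h1 : Real.exp (-x ^ 2 / 2) ≤ 1 := Real.exp_le_one_iff.mpr (by nlinarith [sq_nonneg x])
  have := two_lt_sqrt_two_pi
  linarith

lemma gpdf_le_one (x : ℝ) : gpdf x ≤ 1 := (gpdf_le_half x).trans (by norm_num)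

@[fun_prop]
lemma continuous_gpdf : Continuous gpdf := by unfold gpdf; fun_prop

lemma integrable_gpdf : Integrable gpdf := by
  have := integrable_gaussianPDFReal 0 1
  simpa only [show gaussianPDFReal 0 1 = gpdf from funext gpdf_eq] using this

lemma integral_gpdf : ∫ x, gpdf x = 1 := by
  have := integral_gaussianPDFReal_eq_one 0 (v := 1) (by norm_num)
  simpa only [gpdf_eq] using this

lemma hasDerivAt_gpdf (x : ℝ) : HasDerivAt gpdf (-x * gpdf x) x := by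
  have h1 : HasDerivAt (fun x : ℝ => -x ^ 2 / 2) (-x) x := by
    have h := ((hasDerivAt_pow 2 x).neg).div_const 2
    have e : -(((2 : ℕ) : ℝ) * x ^ (2 - 1)) / 2 = -x := by norm_num; ring
    rw [e] at h
    exact h
  have h2 := (h1.exp).div_const (√(2 * Real.pi))
  have h3 : -x * gpdf x = Real.exp (-x ^ 2 / 2) * -x / √(2 * Real.pi) := by
    unfold gpdf; ring
  rw [h3]
  exact h2

/-- the standard Gaussian distribution function -/
def Phi (x : ℝ) : ℝ := ∫ t in Iic x, gpdf t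

lemma Phi_sub (x y : ℝ) : Phi y - Phi x = ∫ t in x..y, gpdf t :=
  intervalIntegral.integral_Iic_sub_Iic integrable_gpdf.integrableOn integrable_gpdf.integrableOn

lemma hasDerivAt_Phi (x : ℝ) : HasDerivAt Phi (gpdf x) x := by
  have h1 : HasDerivAt (fun y => Phi 0 + ∫ t in (0 : ℝ)..y, gpdf t) (gpdf x) x :=
    (intervalIntegral.integral_hasDerivAt_right (continuous_gpdf.intervalIntegrable _ _)
      (continuous_gpdf.stronglyMeasurableAtFilter _ _) continuous_gpdf.continuousAt).const_add _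
  have h2 : Phi = fun y => Phi 0 + ∫ t in (0 : ℝ)..y, gpdf t := by
    funext y
    rw [← Phi_sub]
    ring
  rw [h2]
  exact h1

@[fun_prop]
lemma continuous_Phi : Continuous Phi :=
  continuous_iff_continuousAt.mpr fun x => (hasDerivAt_Phi x).continuousAt

lemma strictMono_Phi : StrictMono Phi :=
  strictMono_of_deriv_pos fun x => by rw [(hasDerivAt_Phi x).deriv]; exact gpdf_pos x

lemma tendsto_Phi_atTop : Tendsto Phi atTop (𝓝 1) := by
  have := (aecover_Iic (μ := (volume : Measure ℝ)) tendsto_id).integral_tendsto_of_countably_generated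
    integrable_gpdf
  rw [integral_gpdf] at this
  exact this

lemma Phi_add_neg (x : ℝ) : Phi x + Phi (-x) = 1 := by
  have h1 : Phi (-x) = ∫ t in Ioi x, gpdf t := by
    unfold Phi
    have := integral_comp_neg_Iic (-x) gpdf
    simp only [gpdf_neg, neg_neg] at this
    exact this
  rw [h1]
  unfold Phi
  have := integral_add_compl (μ := volume) (s := Iic x) measurableSet_Iic integrable_gpdf
  rw [compl_Iic, integral_gpdf] at this
  exact this

lemma Phi_neg (x : ℝ) : Phi (-x) = 1 - Phi x := by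
  have := Phi_add_neg x
  linarith

lemma tendsto_Phi_atBot : Tendsto Phi atBot (𝓝 0) := by
  have h1 : Tendsto (fun x => 1 - Phi (-x)) atBot (𝓝 (1 - 1)) :=
    tendsto_const_nhds.sub (tendsto_Phi_atTop.comp tendsto_neg_atBot_atTop)
  have h2 : (fun x => 1 - Phi (-x)) = Phi := by
    funext x
    have := Phi_add_neg x
    linarith
  rw [h2, sub_self] at h1
  exact h1

lemma Phi_zero : Phi 0 = 1 / 2 := by
  have := Phi_add_neg 0
  rw [neg_zero] at this
  linarith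

lemma Phi_nonneg (x : ℝ) : 0 ≤ Phi x := by
  unfold Phi
  exact setIntegral_nonneg measurableSet_Iic fun t _ => gpdf_nonneg t

lemma Phi_pos (x : ℝ) : 0 < Phi x :=
  (Phi_nonneg (x - 1)).trans_lt (strictMono_Phi (by linarith))

lemma Phi_lt_one (x : ℝ) : Phi x < 1 := by
  have := Phi_pos (-x)
  have h2 := Phi_add_neg x
  linarith

lemma Phi_mem (x : ℝ) : Phi x ∈ Ioo (0 : ℝ) 1 := ⟨Phi_pos x, Phi_lt_one x⟩

lemma exists_Phi_eq {p : ℝ} (hp : p ∈ Ioo (0 : ℝ) 1) : ∃ x, Phi x = p := by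
  have h1 : ∃ a, Phi a < p := (tendsto_Phi_atBot.eventually_lt_const hp.1).exists
  have h2 : ∃ b, p < Phi b := (tendsto_Phi_atTop.eventually_const_lt hp.2).exists
  obtain ⟨a, ha⟩ := h1
  obtain ⟨b, hb⟩ := h2
  have := mem_range_of_exists_le_of_exists_ge continuous_Phi ⟨a, ha.le⟩ ⟨b, hb.le⟩
  exact this

/-- the inverse of `Phi` -/
def PhiInv (p : ℝ) : ℝ := Function.invFun Phi p

@[simp] lemma PhiInv_Phi (x : ℝ) : PhiInv (Phi x) = x :=
  Function.leftInverse_invFun strictMono_Phi.injective x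

lemma Phi_PhiInv {p : ℝ} (hp : p ∈ Ioo (0 : ℝ) 1) : Phi (PhiInv p) = p :=
  Function.invFun_eq (exists_Phi_eq hp)

lemma PhiInv_lt_iff {p q : ℝ} (hp : p ∈ Ioo (0 : ℝ) 1) (hq : q ∈ Ioo (0 : ℝ) 1) :
    PhiInv p < PhiInv q ↔ p < q := by
  rw [← strictMono_Phi.lt_iff_lt, Phi_PhiInv hp, Phi_PhiInv hq]

lemma PhiInv_le_iff {p q : ℝ} (hp : p ∈ Ioo (0 : ℝ) 1) (hq : q ∈ Ioo (0 : ℝ) 1) :
    PhiInv p ≤ PhiInv q ↔ p ≤ q := by
  rw [← strictMono_Phi.le_iff_le, Phi_PhiInv hp, Phi_PhiInv hq]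

lemma PhiInv_le_iff' {p y : ℝ} (hp : p ∈ Ioo (0 : ℝ) 1) : PhiInv p ≤ y ↔ p ≤ Phi y := by
  rw [← strictMono_Phi.le_iff_le, Phi_PhiInv hp]

lemma le_PhiInv_iff {p y : ℝ} (hp : p ∈ Ioo (0 : ℝ) 1) : y ≤ PhiInv p ↔ Phi y ≤ p := by
  rw [← strictMono_Phi.le_iff_le, Phi_PhiInv hp]

lemma strictMonoOn_PhiInv : StrictMonoOn PhiInv (Ioo 0 1) := fun _ hp _ hq h =>
  (PhiInv_lt_iff hp hq).mpr h

lemma PhiInv_half : PhiInv (1 / 2) = 0 := by rw [← Phi_zero, PhiInv_Phi]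

lemma PhiInv_one_sub {p : ℝ} (hp : p ∈ Ioo (0 : ℝ) 1) : PhiInv (1 - p) = -PhiInv p := by
  obtain ⟨x, rfl⟩ := exists_Phi_eq hp
  rw [← Phi_neg, PhiInv_Phi, PhiInv_Phi]

lemma continuousAt_PhiInv {p : ℝ} (hp : p ∈ Ioo (0 : ℝ) 1) : ContinuousAt PhiInv p := by
  apply strictMonoOn_PhiInv.continuousAt_of_image_mem_nhds (Ioo_mem_nhds hp.1 hp.2)
  have : PhiInv '' Ioo 0 1 = univ := by
    apply eq_univ_of_forall
    intro x
    exact ⟨Phi x, Phi_mem x, PhiInv_Phi x⟩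
  rw [this]
  exact univ_mem

lemma hasDerivAt_PhiInv {p : ℝ} (hp : p ∈ Ioo (0 : ℝ) 1) :
    HasDerivAt PhiInv (gpdf (PhiInv p))⁻¹ p := by
  apply HasDerivAt.of_local_left_inverse (continuousAt_PhiInv hp) (hasDerivAt_Phi _)
    (gpdf_pos _).ne'
  filter_upwards [Ioo_mem_nhds hp.1 hp.2] with q hq
  exact Phi_PhiInv hq

/-- the Gaussian tail -/
def Q (x : ℝ) : ℝ := 1 - Phi x

lemma Q_eq (x : ℝ) : Q x = Phi (-x) := (Phi_neg x).symm

lemma hasDerivAt_Q (x : ℝ) : HasDerivAt Q (-gpdf x) x := (hasDerivAt_Phi x).const_sub 1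

@[fun_prop]
lemma continuous_Q : Continuous Q := by unfold Q; fun_prop

lemma Q_pos (x : ℝ) : 0 < Q x := by unfold Q; linarith [Phi_lt_one x]

lemma Q_lt_one (x : ℝ) : Q x < 1 := by unfold Q; linarith [Phi_pos x]

lemma strictAnti_Q : StrictAnti Q := fun _ _ h => by
  unfold Q; linarith [strictMono_Phi h]

lemma Q_neg (x : ℝ) : Q (-x) = 1 - Q x := by unfold Q; rw [Phi_neg]

lemma Q_eq_integral (x : ℝ) : Q x = ∫ t in Ioi x, gpdf t := by
  have := integral_add_compl (μ := volume) (s := Iic x) measurableSet_Iic integrable_gpdf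
  rw [compl_Iic, integral_gpdf] at this
  unfold Q Phi
  linarith

/-- `psi x = E (N - x)_+ = ∫_x^∞ Q` -/
def psi (x : ℝ) : ℝ := gpdf x - x * Q x

lemma hasDerivAt_psi (x : ℝ) : HasDerivAt psi (-Q x) x := by
  have h := (hasDerivAt_gpdf x).sub ((hasDerivAt_id x).mul (hasDerivAt_Q x))
  have e : -x * gpdf x - (1 * Q x + id x * -gpdf x) = -Q x := by simp
  rw [e] at h
  exact h

@[fun_prop]
lemma continuous_psi : Continuous psi := by unfold psi; fun_prop

/-- Gaussian isoperimetric profile -/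
def II (p : ℝ) : ℝ := gpdf (PhiInv p)

/-- `JJ p = I(p) (I(p) - τ p)`, `τ = Q⁻¹(p) = - Φ⁻¹(p)`, the extremal value of
`E φ(Y) * E ψ(Y)` -/
def JJ (p : ℝ) : ℝ := II p * (II p + PhiInv p * p)

lemma II_Q (t : ℝ) : II (Q t) = gpdf t := by
  unfold II; rw [Q_eq, PhiInv_Phi, gpdf_neg]

lemma JJ_Q (t : ℝ) : JJ (Q t) = gpdf t * psi t := by
  unfold JJ psi; rw [II_Q, Q_eq, PhiInv_Phi]; ring

end Vale.Agent.P226.EhrPhi
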