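import Vale.Agent.P226.Crit
import Vale.Agent.P226.GPhi

/-!
# P226: fibres of a cell in the altitude direction
-/

open MeasureTheory Set ProbabilityTheory Filter Topology
open scoped RealInnerProductSpace
open Vale.Agent.P226.EhrPhi

namespace Vale.Agent.P226

namespace GP

set_option linter.unusedSectionVars false

noncomputable section

lemma gaussianReal_eq : gaussianReal 0 1 = volume.withDensity (fun x => ENNReal.ofReal (gpdf x)) := by
  rw [gaussianReal_of_var_ne_zero _ one_ne_zero]
  congr 1
  ext x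
  unfold gaussianPDF
  rw [gpdf_eq]

lemma integral_gauss {f : ℝ → ℝ} (S : Set ℝ) (hS : MeasurableSet S) :
    ∫ x in S, f x ∂(gaussianReal 0 1) = ∫ x in S, gpdf x * f x := by
  rw [gaussianReal_eq]
  rw [setIntegral_withDensity_eq_setIntegral_toReal_smul (by fun_prop)
    (by simp) _ hS]
  apply setIntegral_congr_fun hS
  intro x _
  simp only [smul_eq_mul]
  rw [ENNReal.toReal_ofReal (gpdf_nonneg x)]

lemma gauss_Ioi (t : ℝ) : (gaussianReal 0 1).real (Ioi t) = Q t := by
  have h := integral_gauss (f := fun _ => 1) (Ioi t) measurableSet_Ioi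
  rw [setIntegral_const, smul_eq_mul, mul_one] at h
  rw [h, Q_eq_integral]
  simp only [mul_one]

lemma gpdf_tendsto : Tendsto gpdf atTop (𝓝 0) := by
  unfold gpdf
  have h1 : Tendsto (fun x : ℝ => Real.exp (-x ^ 2 / 2)) atTop (𝓝 0) := by
    apply Real.tendsto_exp_atBot.comp
    have h2 : Tendsto (fun x : ℝ => x ^ 2) atTop atTop := tendsto_pow_atTop two_ne_zero
    have h3 : Tendsto (fun x : ℝ => -(x ^ 2)) atTop atBot := tendsto_neg_atTop_atBot.comp h2
    exact h3.atBot_div_const (by norm_num)
  have := h1.div_const (√(2 * Real.pi))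
  simpa using this

lemma integral_Ioi_mul_gpdf (t : ℝ) : ∫ x in Ioi t, gpdf x * x = gpdf t := by
  have h1 : ∀ x ∈ Ici t, HasDerivAt (fun x => - gpdf x) (gpdf x * x) x := by
    intro x _
    have := (hasDerivAt_gpdf x).neg
    have e : -(-x * gpdf x) = gpdf x * x := by ring
    rw [e] at this
    exact this
  have hint : IntegrableOn (fun x => gpdf x * x) (Ioi t) := by
    have h2 : Integrable (fun x : ℝ => x * Real.exp (-(1/2) * x ^ 2)) :=
      integrable_mul_exp_neg_mul_sq (by norm_num)
    have h3 : (fun x => gpdf x * x) = fun x => (√(2 * Real.pi))⁻¹ * (x * Real.exp (-(1/2) * x ^ 2)) := by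
      ext x
      unfold gpdf
      rw [show -x ^ 2 / 2 = -(1/2) * x ^ 2 by ring]
      ring
    rw [h3]
    exact (h2.const_mul _).integrableOn
  have h4 := integral_Ioi_of_hasDerivAt_of_tendsto' (f := fun x => - gpdf x) (f' := fun x => gpdf x * x)
    (a := t) (m := 0) h1 hint (by simpa using gpdf_tendsto.neg)
  rw [h4]
  ring

lemma gauss_first (t : ℝ) : ∫ s in Ioi t, s ∂(gaussianReal 0 1) = gpdf t := by
  rw [integral_gauss (f := fun s => s) (Ioi t) measurableSet_Ioi]
  exact integral_Ioi_mul_gpdf t

lemma integrable_id_gauss : Integrable (fun s : ℝ => s) (gaussianReal 0 1) :=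
  (memLp_id_gaussianReal 1).integrable le_rfl

lemma gauss_psi (t : ℝ) : ∫ s, max (s - t) 0 ∂(gaussianReal 0 1) = psi t := by
  have h1 : ∀ s : ℝ, max (s - t) 0 = (Ioi t).indicator (fun s => s - t) s := by
    intro s
    by_cases h : t < s
    · rw [indicator_of_mem (by exact h), max_eq_left (by linarith)]
    · rw [indicator_of_notMem (by exact h), max_eq_right (by linarith)]
  simp only [h1]
  rw [integral_indicator measurableSet_Ioi]
  rw [integral_sub integrable_id_gauss.integrableOn (integrable_const t).integrableOn]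
  rw [gauss_first, setIntegral_const, gauss_Ioi, smul_eq_mul]
  unfold psi
  ring

variable {E : Type*} [NormedAddCommGroup E] [InnerProductSpace ℝ E] [FiniteDimensional ℝ E]
  [MeasurableSpace E] [BorelSpace E]

/-- Adapted coordinates for a unit vector. -/
lemma exists_adapted_unit {v : E} (hv : ‖v‖ = 1) :
    ∃ (n : ℕ) (L : (ℝ × (Fin n → ℝ)) →ₗ[ℝ] E), Continuous L ∧
      ((gaussianReal 0 1).prod (Measure.pi (fun _ : Fin n => gaussianReal 0 1))).map L
        = stdGaussian E ∧ (∀ p, inner ℝ (L p) v = p.1) ∧ L (1, 0) = v := by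
  have hv0 : v ≠ 0 := by
    rintro rfl
    simp at hv
  have hnt : Nontrivial E := ⟨v, 0, hv0⟩
  have hpos : 0 < Module.finrank ℝ E := Module.finrank_pos
  obtain ⟨n, hn⟩ : ∃ n, Module.finrank ℝ E = n + 1 := ⟨_, (Nat.succ_pred_eq_of_pos hpos).symm⟩
  have horth : Orthonormal ℝ (({0} : Set (Fin (n+1))).domRestrict (fun _ => v)) := by
    constructor
    · intro i
      exact hv
    · intro i j hij
      exact absurd (Subsingleton.elim i j) hij
  obtain ⟨b, hb⟩ := horth.exists_orthonormalBasis_extension_of_card_eq (by simpa using hn)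
  have hb0 : b 0 = v := hb 0 rfl
  have hmp := (measurePreserving_piFinSuccAbove (fun _ : Fin (n+1) => gaussianReal 0 1) 0).symm
  let L0 : (Fin (n+1) → ℝ) →ₗ[ℝ] E :=
    { toFun := fun x => ∑ i, x i • b i
      map_add' := by intro x y; simp [add_smul, Finset.sum_add_distrib]
      map_smul' := by intro r x; simp [mul_smul, Finset.smul_sum] }
  let L1 : (ℝ × (Fin n → ℝ)) →ₗ[ℝ] (Fin (n+1) → ℝ) :=
      { toFun := (MeasurableEquiv.piFinSuccAbove (fun _ : Fin (n+1) => ℝ) 0).symm
        map_add' := by
          intro x y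
          ext i
          refine Fin.cases ?_ ?_ i <;> simp [MeasurableEquiv.piFinSuccAbove]
        map_smul' := by
          intro r x
          ext i
          refine Fin.cases ?_ ?_ i <;> simp [MeasurableEquiv.piFinSuccAbove] }
  have hL0 : Measurable L0 := by
    show Measurable (fun x : Fin (n+1) → ℝ => ∑ i, x i • b i)
    fun_prop
  have hL1 : ∀ p, (L1 p) 0 = p.1 := by
    intro p
    show (MeasurableEquiv.piFinSuccAbove (fun _ : Fin (n+1) => ℝ) 0).symm p 0 = p.1
    simp [MeasurableEquiv.piFinSuccAbove]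
  refine ⟨n, L0.comp L1, LinearMap.continuous_of_finiteDimensional _, ?_, ?_, ?_⟩
  · have e1 : ((gaussianReal 0 1).prod (Measure.pi (fun _ : Fin n => gaussianReal 0 1))).map L1
        = Measure.pi (fun _ : Fin (n+1) => gaussianReal 0 1) := hmp.map_eq
    have e2 : ((gaussianReal 0 1).prod (Measure.pi (fun _ : Fin n => gaussianReal 0 1))).map (L0.comp L1)
        = (((gaussianReal 0 1).prod (Measure.pi (fun _ : Fin n => gaussianReal 0 1))).map L1).map L0 :=
      (Measure.map_map hL0 hmp.measurable).symm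
    rw [e2, e1, stdGaussian_eq_map_pi_orthonormalBasis b]
    rfl
  · intro p
    show inner ℝ (∑ i, (L1 p) i • b i) v = _
    conv_lhs => rw [← hb0]
    rw [sum_inner]
    simp only [inner_smul_left, RCLike.conj_to_real]
    rw [Finset.sum_eq_single 0]
    · rw [hL1]
      have : inner ℝ (b 0) (b 0) = (1:ℝ) := by
        rw [real_inner_self_eq_norm_sq, b.orthonormal.1 0]; norm_num
      rw [this]; ring
    · intro i _ hi
      rw [b.orthonormal.2 hi]; ring
    · intro h; exact absurd (Finset.mem_univ _) h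
  · show ∑ i, (L1 (1, 0)) i • b i = v
    rw [Fin.sum_univ_succ, hL1, one_smul, hb0]
    have : ∀ i : Fin n, (L1 (1, 0)) i.succ = 0 := by
      intro i
      show (MeasurableEquiv.piFinSuccAbove (fun _ : Fin (n+1) => ℝ) 0).symm (1, 0) i.succ = 0
      simp [MeasurableEquiv.piFinSuccAbove]
    simp [this]

section

variable {ι : Type} [Fintype ι] [Nontrivial ι] [DecidableEq ι]

/-- the data of the fibres of cell `i` -/
structure FibreData (z : ι → E) (i : ι) (n : ℕ) (Y : (Fin n → ℝ) → ℝ) (b : ℝ) : Prop where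
  cont : Continuous Y
  conv : ConvexOn ℝ univ Y
  int : Integrable Y (Measure.pi (fun _ : Fin n => gaussianReal 0 1))
  b_pos : 0 < b
  b_le : b ≤ ‖z i‖
  p_eq : (stdGaussian E).real (cell z i)
    = ∫ y, Q (Y y) ∂(Measure.pi (fun _ : Fin n => gaussianReal 0 1))
  b_eq : b = ∫ y, gpdf (Y y) ∂(Measure.pi (fun _ : Fin n => gaussianReal 0 1))
  D_eq : DD z i = (Fintype.card ι : ℝ) / (Fintype.card ι - 1) * b *
    ∫ y, psi (Y y) ∂(Measure.pi (fun _ : Fin n => gaussianReal 0 1))

omit [FiniteDimensional ℝ E] [MeasurableSpace E] [BorelSpace E] in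
lemma mo_add (z : ι → E) (i : ι) (x y : E) {c : ℝ} (h : ∀ j, j ≠ i → ⟪x, z j⟫ = c) :
    mo z i (x + y) = c + mo z i y := by
  unfold mo
  apply le_antisymm
  · apply mx_le
    intro j
    rw [inner_add_left, h j j.2]
    have := inner_le_mx (fun j : {j : ι // j ≠ i} => z j) y j
    linarith
  · obtain ⟨j, hj⟩ := exists_mx (fun j : {j : ι // j ≠ i} => z j) y
    rw [hj]
    have := inner_le_mx (fun j : {j : ι // j ≠ i} => z j) (x + y) j
    rw [inner_add_left, h j j.2] at this
    exact this

omit [FiniteDimensional ℝ E] [MeasurableSpace E] [BorelSpace E] in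
lemma mo_convex (z : ι → E) (i : ι) (x y : E) {a b : ℝ} (ha : 0 ≤ a) (hb : 0 ≤ b) :
    mo z i (a • x + b • y) ≤ a * mo z i x + b * mo z i y := by
  unfold mo
  apply mx_le
  intro j
  rw [inner_add_left, inner_smul_left, inner_smul_left]
  simp only [RCLike.conj_to_real]
  have h1 := inner_le_mx (fun j : {j : ι // j ≠ i} => z j) x j
  have h2 := inner_le_mx (fun j : {j : ι // j ≠ i} => z j) y j
  have h3 := mul_le_mul_of_nonneg_left h1 ha
  have h4 := mul_le_mul_of_nonneg_left h2 hb
  linarith

lemma exists_fibre {z : ι → E} (h0 : ∑ i, z i = 0)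
    (hneg : ∀ i j, i ≠ j → ⟪z i, z j⟫ < 0)
    (hm : ∀ i, ∫ x in cell z i, x ∂(stdGaussian E) = z i) (i : ι) :
    ∃ (n : ℕ) (Y : (Fin n → ℝ) → ℝ) (b : ℝ), FibreData z i n Y b := by
  obtain ⟨v, h, hv, hh, hvj, hvi⟩ := exists_altitude h0 hneg i
  obtain ⟨n, L, hL, hmap, hin, hL1⟩ := exists_adapted_unit hv
  set μ := Measure.pi (fun _ : Fin n => gaussianReal 0 1) with hμ
  have hc : 1 < Fintype.card ι := Fintype.one_lt_card
  set N : ℝ := (Fintype.card ι : ℝ) with hN
  have hN1 : 0 < N - 1 := by
    have : (1 : ℝ) < (Fintype.card ι : ℝ) := by exact_mod_cast hc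
    linarith
  have hN0 : 0 < N := by linarith
  have hNh : 0 < N * h := mul_pos hN0 hh
  set Y : (Fin n → ℝ) → ℝ := fun y => (mo z i (L (0, y)) - ⟪L (0, y), z i⟫) / (N * h) with hY
  have hdec : ∀ s y, L (s, y) = s • v + L (0, y) := by
    intro s y
    rw [← hL1, ← map_smul, ← map_add]
    congr 1
    ext <;> simp
  have hkey : ∀ s y, ⟪L (s, y), z i⟫ - mo z i (L (s, y)) = N * h * (s - Y y) := by
    intro s y
    rw [hdec]
    rw [mo_add z i (s • v) (L (0, y)) (c := - (h * s))
      (fun j hj => by
        rw [inner_smul_left, real_inner_comm, hvj j hj]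
        simp only [RCLike.conj_to_real]
        ring)]
    rw [inner_add_left, inner_smul_left, real_inner_comm (z i) v]
    simp only [RCLike.conj_to_real, hvi]
    have e : Y y * (N * h) = mo z i (L (0, y)) - ⟪L (0, y), z i⟫ := by
      simp only [hY]
      field_simp
    linarith
  have hYc : Continuous Y := by
    apply Continuous.div_const
    have h1 : Continuous (fun y : Fin n → ℝ => L (0, y)) := hL.comp (by fun_prop)
    exact ((continuous_mo z i).comp h1).sub (h1.inner continuous_const)
  have hmem : ∀ s y, L (s, y) ∈ cell z i ↔ Y y < s := by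
    intro s y
    rw [mem_cell_iff]
    have h1 := hkey s y
    constructor
    · intro h2
      have h3 : 0 < N * h * (s - Y y) := by rw [← h1]; linarith
      have h4 := (mul_pos_iff_of_pos_left hNh).mp h3
      linarith
    · intro h2
      have h3 : 0 < N * h * (s - Y y) := mul_pos hNh (by linarith)
      rw [← h1] at h3
      linarith
  have hLm : AEMeasurable L ((gaussianReal 0 1).prod μ) := hL.measurable.aemeasurable
  have hint_comp : ∀ f : E → ℝ, Integrable f (stdGaussian E) →
      Integrable (fun p => f (L p)) ((gaussianReal 0 1).prod μ) := by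
    intro f hf
    rw [← hmap] at hf
    exact hf.comp_measurable hL.measurable
  have hfub : ∀ f : E → ℝ, Integrable f (stdGaussian E) →
      ∫ x, f x ∂(stdGaussian E) = ∫ y, ∫ s, f (L (s, y)) ∂(gaussianReal 0 1) ∂μ := by
    intro f hf
    have h1 := hint_comp f hf
    rw [← hmap] at hf ⊢
    rw [integral_map hLm hf.aestronglyMeasurable]
    exact integral_prod_symm (fun p => f (L p)) h1
  have hpre : ∀ y, {s | L (s, y) ∈ cell z i} = Ioi (Y y) := by
    intro y
    ext s
    exact hmem s y
  refine ⟨n, Y, ⟪z i, v⟫, hYc, ?_, ?_, ?_, ?_, ?_, ?_, ?_⟩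
  · refine ⟨convex_univ, ?_⟩
    intro x _ y _ a b ha hb _
    have h1 : L (0, a • x + b • y) = a • L (0, x) + b • L (0, y) := by
      rw [← map_smul, ← map_smul, ← map_add]
      congr 1
      ext <;> simp
    simp only [hY, smul_eq_mul]
    rw [h1, inner_add_left, inner_smul_left, inner_smul_left]
    simp only [RCLike.conj_to_real]
    have h2 := mo_convex z i (L (0, x)) (L (0, y)) ha hb
    rw [← mul_div_assoc, ← mul_div_assoc, ← add_div]
    apply div_le_div_of_nonneg_right _ hNh.le
    linarith
  · -- integrability of Y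
    have h1 : Integrable (fun x : E => (mo z i x - ⟪x, z i⟫) / (N * h) + ⟪x, v⟫) (stdGaussian E) :=
      (((integrable_mo z i).sub (integrable_inner_std _)).div_const _).add (integrable_inner_std v)
    have h2 := hint_comp _ h1
    have h3 : (fun p : ℝ × (Fin n → ℝ) => (mo z i (L p) - ⟪L p, z i⟫) / (N * h) + ⟪L p, v⟫)
        = fun p => Y p.2 := by
      ext p
      obtain ⟨s, y⟩ := p
      have h4 := hkey s y
      have h5 : mo z i (L (s, y)) - ⟪L (s, y), z i⟫ = (Y y - s) * (N * h) := by linarith
      show (mo z i (L (s, y)) - ⟪L (s, y), z i⟫) / (N * h) + ⟪L (s, y), v⟫ = Y y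
      rw [h5, hin, mul_div_assoc, div_self hNh.ne']
      ring
    rw [h3] at h2
    have h6 : MeasurePreserving (Prod.snd : ℝ × (Fin n → ℝ) → (Fin n → ℝ))
        ((gaussianReal 0 1).prod μ) μ := measurePreserving_snd
    exact (h6.integrable_comp hYc.aestronglyMeasurable).mp h2
  · rw [hvi]
    exact mul_pos hN1 hh
  · calc ⟪z i, v⟫ ≤ ‖z i‖ * ‖v‖ := real_inner_le_norm _ _
      _ = ‖z i‖ := by rw [hv, mul_one]
  · -- p
    have h1 : (stdGaussian E).real (cell z i)
        = ∫ x, (cell z i).indicator (fun _ => (1 : ℝ)) x ∂(stdGaussian E) := by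
      rw [integral_indicator (measurableSet_cell z i), setIntegral_const, smul_eq_mul, mul_one]
    rw [h1, hfub _ ((integrable_const (1 : ℝ)).indicator (measurableSet_cell z i))]
    congr 1
    ext y
    have h2 : ∀ s, (cell z i).indicator (fun _ => (1 : ℝ)) (L (s, y))
        = (Ioi (Y y)).indicator (fun _ => (1 : ℝ)) s := by
      intro s
      simp only [indicator, mem_Ioi, hmem]
    simp only [h2]
    rw [integral_indicator measurableSet_Ioi, setIntegral_const, gauss_Ioi, smul_eq_mul, mul_one]
  · -- b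
    rw [← hm i]
    rw [hm i, real_inner_comm]
    have h0' : ⟪v, z i⟫ = ∫ x in cell z i, ⟪x, v⟫ ∂(stdGaussian E) := by
      rw [← inner_setIntegral, hm i]
    rw [h0', ← integral_indicator (measurableSet_cell z i),
      hfub _ ((integrable_inner_std v).indicator (measurableSet_cell z i))]
    congr 1
    ext y
    have h2 : ∀ s, (cell z i).indicator (fun x => ⟪x, v⟫) (L (s, y))
        = (Ioi (Y y)).indicator (fun s => s) s := by
      intro s
      simp only [indicator, mem_Ioi, hmem, hin]
    simp only [h2]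
    rw [integral_indicator measurableSet_Ioi, gauss_first]
  · -- D
    unfold DD
    have hi : Integrable (fun x => max (⟪x, z i⟫ - mo z i x) 0) (stdGaussian E) :=
      ((integrable_inner_std _).sub (integrable_mo z i)).pos_part
    rw [hfub _ hi]
    have h2 : ∀ s y, max (⟪L (s, y), z i⟫ - mo z i (L (s, y))) 0
        = N * h * max (s - Y y) 0 := by
      intro s y
      rw [hkey, mul_max_of_nonneg _ _ hNh.le, mul_zero]
    simp only [h2]
    have h3 : ∀ y, ∫ s, N * h * max (s - Y y) 0 ∂(gaussianReal 0 1) = N * h * psi (Y y) := by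
      intro y
      rw [integral_const_mul, gauss_psi]
    simp only [h3]
    rw [integral_const_mul, hvi]
    congr 1
    rw [← hN]
    field_simp

end

end

end GP

end Vale.Agent.P226
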