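import Mathlib
import Vale.Agent.P226.GPhi

/-!
# P226: certified numerics for the Gaussian functions

Rational enclosures of `gpdf`, `Q`, `psi`, evaluated by the kernel.
-/

namespace Vale.Agent.P226.GNum

open MeasureTheory ProbabilityTheory Set Filter Topology Finset
open Vale.Agent.P226.EhrPhi

/-! ### alternating partial sums of `exp (-u)` -/

/-- Horner form: `hE N k u = ∑_{n<N} (-u)^n k!/(k+n)!` -/
def hE : ℕ → ℕ → ℚ → ℚ
  | 0, _, _ => 0
  | N + 1, k, u => 1 + (-u) / (k + 1) * hE N (k + 1) u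

/-- Horner form: `hG N k u = ∑_{n<N} (-u)^n k!/((k+n)! (2(k+n)+1))` -/
def hG : ℕ → ℕ → ℚ → ℚ
  | 0, _, _ => 0
  | N + 1, k, u => 1 / (2 * k + 1) + (-u) / (k + 1) * hG N (k + 1) u

/-- partial sums of `exp (-u)` -/
noncomputable def eP (N : ℕ) (u : ℝ) : ℝ := ∑ n ∈ range N, (-u) ^ n / (n.factorial : ℝ)

lemma hE_eq (N k : ℕ) (u : ℚ) :
    ((hE N k u : ℚ) : ℝ) = ∑ n ∈ range N, (-(u : ℝ)) ^ n * (k.factorial : ℝ) / ((k + n).factorial : ℝ) := by
  induction N generalizing k with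
  | zero => simp [hE]
  | succ N ih =>
    rw [Finset.sum_range_succ', hE]
    push_cast
    rw [ih, Finset.mul_sum]
    simp only [pow_zero, one_mul, add_zero]
    have hk : (k.factorial : ℝ) ≠ 0 := by positivity
    rw [div_self hk, add_comm]
    congr 1
    refine Finset.sum_congr rfl fun n _ => ?_
    have h1 : ((k + 1).factorial : ℝ) = (k + 1) * k.factorial := by
      rw [Nat.factorial_succ]; push_cast; ring
    have h2 : k + (n + 1) = k + 1 + n := by ring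
    rw [h1, h2, pow_succ]
    have h3 : ((k : ℝ) + 1) ≠ 0 := by positivity
    have h4 : (((k + 1 + n).factorial : ℕ) : ℝ) ≠ 0 := by positivity
    field_simp

lemma hE_zero (N : ℕ) (u : ℚ) : ((hE N 0 u : ℚ) : ℝ) = eP N u := by
  rw [hE_eq, eP]
  refine Finset.sum_congr rfl fun n _ => ?_
  simp

/-- partial sums for `∫₀ᵗ exp (-x²/2)` divided by `t`, as function of `u = t²/2` -/
noncomputable def gP (N : ℕ) (u : ℝ) : ℝ :=
  ∑ n ∈ range N, (-u) ^ n / ((n.factorial : ℝ) * (2 * n + 1))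

lemma hG_eq (N k : ℕ) (u : ℚ) :
    ((hG N k u : ℚ) : ℝ) = ∑ n ∈ range N, (-(u : ℝ)) ^ n * (k.factorial : ℝ) /
      (((k + n).factorial : ℝ) * (2 * (k + n : ℕ) + 1)) := by
  induction N generalizing k with
  | zero => simp [hG]
  | succ N ih =>
    rw [Finset.sum_range_succ', hG]
    push_cast
    rw [ih, Finset.mul_sum]
    simp only [pow_zero, one_mul, add_zero]
    have hk : (k.factorial : ℝ) ≠ 0 := by positivity
    rw [add_comm]
    congr 1
    · refine Finset.sum_congr rfl fun n _ => ?_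
      have h1 : ((k + 1).factorial : ℝ) = (k + 1) * k.factorial := by
        rw [Nat.factorial_succ]; push_cast; ring
      have h2 : k + (n + 1) = k + 1 + n := by ring
      rw [h1, h2, pow_succ]
      have h3 : ((k : ℝ) + 1) ≠ 0 := by positivity
      have h4 : (((k + 1 + n).factorial : ℕ) : ℝ) ≠ 0 := by positivity
      have h5 : (2 * (((k + 1 + n : ℕ)) : ℝ) + 1) ≠ 0 := by positivity
      push_cast at h5 ⊢
      have h6 : (2 * ((k : ℝ) + (n + 1)) + 1) = 2 * ((k : ℝ) + 1 + n) + 1 := by ring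
      rw [h6]
      field_simp
    · push_cast
      field_simp

lemma hG_zero (N : ℕ) (u : ℚ) : ((hG N 0 u : ℚ) : ℝ) = gP N u := by
  rw [hG_eq, gP]
  refine Finset.sum_congr rfl fun n _ => ?_
  simp

lemma hasDerivAt_eP (N : ℕ) (u : ℝ) : HasDerivAt (eP (N + 1)) (-eP N u) u := by
  have h : eP (N + 1) = fun u => ∑ n ∈ range N, (-u) ^ (n + 1) / ((n + 1).factorial : ℝ) + 1 := by
    funext u
    rw [eP, Finset.sum_range_succ']
    simp
  rw [h, eP, ← Finset.sum_neg_distrib]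
  apply HasDerivAt.add_const
  apply HasDerivAt.fun_sum
  intro n _
  have h1 : HasDerivAt (fun u : ℝ => (-u) ^ (n + 1)) (((n + 1 : ℕ) : ℝ) * (-u) ^ n * (-1)) u := by
    have := (hasDerivAt_neg u).fun_pow (n + 1)
    exact this.congr_deriv (by simp)
  have h2 := h1.div_const ((n + 1).factorial : ℝ)
  refine h2.congr_deriv ?_
  rw [Nat.factorial_succ]
  push_cast
  have h3 : ((n : ℝ) + 1) ≠ 0 := by positivity
  field_simp

lemma alt_exp (N : ℕ) : ∀ u : ℝ, 0 ≤ u → 0 ≤ (-1) ^ N * (Real.exp (-u) - eP N u) := by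
  induction N with
  | zero => intro u _; simp [eP]; positivity
  | succ N ih =>
    intro u hu
    have hd : ∀ x : ℝ, HasDerivAt (fun x => (-1 : ℝ) ^ (N + 1) * (Real.exp (-x) - eP (N + 1) x))
        ((-1) ^ N * (Real.exp (-x) - eP N x)) x := by
      intro x
      have h1 : HasDerivAt (fun x : ℝ => Real.exp (-x)) (-Real.exp (-x)) x := by
        have := (hasDerivAt_neg x).exp
        simpa using this
      have h2 := (h1.sub (hasDerivAt_eP N x)).const_mul ((-1 : ℝ) ^ (N + 1))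
      exact h2.congr_deriv (by rw [pow_succ]; ring)
    have hmono : MonotoneOn (fun x => (-1 : ℝ) ^ (N + 1) * (Real.exp (-x) - eP (N + 1) x)) (Ici 0) := by
      apply monotoneOn_of_deriv_nonneg (convex_Ici 0)
      · exact fun x _ => (hd x).continuousAt.continuousWithinAt
      · exact fun x _ => (hd x).differentiableAt.differentiableWithinAt
      · intro x hx
        rw [interior_Ici] at hx
        rw [(hd x).deriv]
        exact ih x (le_of_lt hx)
    have h0 : (fun x => (-1 : ℝ) ^ (N + 1) * (Real.exp (-x) - eP (N + 1) x)) 0 = 0 := by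
      have : eP (N + 1) 0 = 1 := by
        rw [eP, Finset.sum_range_succ']
        simp
      simp [this]
    have := hmono (mem_Ici.2 le_rfl) (mem_Ici.2 hu) hu
    rw [h0] at this
    exact this

/-- `∫₀ᵗ exp(-x²/2) dx` -/
noncomputable def gI (t : ℝ) : ℝ := ∫ x in (0 : ℝ)..t, Real.exp (-(x ^ 2 / 2))

lemma hasDerivAt_gI (t : ℝ) : HasDerivAt gI (Real.exp (-(t ^ 2 / 2))) t := by
  have hc : Continuous fun x : ℝ => Real.exp (-(x ^ 2 / 2)) := by fun_prop
  exact intervalIntegral.integral_hasDerivAt_right (hc.intervalIntegrable _ _)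
    (hc.stronglyMeasurableAtFilter _ _) hc.continuousAt

lemma hasDerivAt_tgP (N : ℕ) (t : ℝ) :
    HasDerivAt (fun t : ℝ => t * gP N (t ^ 2 / 2)) (eP N (t ^ 2 / 2)) t := by
  have h : (fun t : ℝ => t * gP N (t ^ 2 / 2)) = fun t => ∑ n ∈ range N,
      (-1 / 2 : ℝ) ^ n * t ^ (2 * n + 1) / ((n.factorial : ℝ) * (2 * n + 1)) := by
    funext t
    rw [gP, Finset.mul_sum]
    refine Finset.sum_congr rfl fun n _ => ?_
    have : (-(t ^ 2 / 2)) ^ n = (-1 / 2 : ℝ) ^ n * t ^ (2 * n) := by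
      rw [pow_mul, ← mul_pow]; congr 1; ring
    rw [this]; ring
  rw [h, eP]
  apply HasDerivAt.fun_sum
  intro n _
  have h1 : HasDerivAt (fun t : ℝ => t ^ (2 * n + 1)) (((2 * n + 1 : ℕ) : ℝ) * t ^ (2 * n)) t := by
    have := hasDerivAt_pow (2 * n + 1) t
    simpa using this
  have h2 := (h1.const_mul ((-1 / 2 : ℝ) ^ n)).div_const ((n.factorial : ℝ) * (2 * n + 1))
  refine h2.congr_deriv ?_
  have : (-(t ^ 2 / 2)) ^ n = (-1 / 2 : ℝ) ^ n * t ^ (2 * n) := by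
    rw [pow_mul, ← mul_pow]; congr 1; ring
  rw [this]
  push_cast
  have h3 : (2 * (n : ℝ) + 1) ≠ 0 := by positivity
  field_simp

lemma alt_gI (N : ℕ) (t : ℝ) (ht : 0 ≤ t) : 0 ≤ (-1) ^ N * (gI t - t * gP N (t ^ 2 / 2)) := by
  have hd : ∀ x : ℝ, HasDerivAt (fun x => (-1 : ℝ) ^ N * (gI x - x * gP N (x ^ 2 / 2)))
      ((-1) ^ N * (Real.exp (-(x ^ 2 / 2)) - eP N (x ^ 2 / 2))) x := fun x =>
    ((hasDerivAt_gI x).sub (hasDerivAt_tgP N x)).const_mul _
  have hmono : MonotoneOn (fun x => (-1 : ℝ) ^ N * (gI x - x * gP N (x ^ 2 / 2))) (Ici 0) := by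
    apply monotoneOn_of_deriv_nonneg (convex_Ici 0)
    · exact fun x _ => (hd x).continuousAt.continuousWithinAt
    · exact fun x _ => (hd x).differentiableAt.differentiableWithinAt
    · intro x _
      rw [(hd x).deriv]
      exact alt_exp N _ (by positivity)
  have h0 : (fun x => (-1 : ℝ) ^ N * (gI x - x * gP N (x ^ 2 / 2))) 0 = 0 := by
    simp [gI]
  have := hmono (mem_Ici.2 le_rfl) (mem_Ici.2 ht) ht
  rw [h0] at this
  exact this

/-! ### the constant `c = 1/√(2π)` -/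

noncomputable def cc : ℝ := 1 / √(2 * Real.pi)

lemma cc_pos : 0 < cc := div_pos one_pos sqrt_two_pi_pos

lemma cc_sq : cc ^ 2 = 1 / (2 * Real.pi) := by
  unfold cc
  rw [div_pow, Real.sq_sqrt (by positivity)]; norm_num

def cl : ℚ := 39894223 / 100000000
def cu : ℚ := 39894235 / 100000000

lemma cl_le : (cl : ℝ) ≤ cc := by
  have h1 := Real.pi_lt_d6
  have h2 := Real.pi_pos
  have h3 : ((cl : ℚ) : ℝ) ^ 2 ≤ cc ^ 2 := by
    rw [cc_sq, le_div_iff₀ (by positivity)]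
    unfold cl
    push_cast
    nlinarith
  exact (pow_le_pow_iff_left₀ (by unfold cl; norm_num) cc_pos.le two_ne_zero).1 h3

lemma le_cu : cc ≤ (cu : ℝ) := by
  have h1 := Real.pi_gt_d6
  have h2 := Real.pi_pos
  have h3 : cc ^ 2 ≤ ((cu : ℚ) : ℝ) ^ 2 := by
    rw [cc_sq, div_le_iff₀ (by positivity)]
    unfold cu
    push_cast
    nlinarith
  exact (pow_le_pow_iff_left₀ cc_pos.le (by unfold cu; norm_num) two_ne_zero).1 h3

lemma gpdf_eq_cc (t : ℝ) : gpdf t = cc * Real.exp (-(t ^ 2 / 2)) := by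
  unfold gpdf cc
  rw [neg_div]; ring

lemma Q_eq_gI (t : ℝ) : Q t = 1 / 2 - cc * gI t := by
  have h1 : Phi t - Phi 0 = cc * gI t := by
    rw [Phi_sub, gI, ← intervalIntegral.integral_const_mul]
    exact intervalIntegral.integral_congr fun x _ => gpdf_eq_cc x
  rw [Phi_zero] at h1
  unfold Q
  linarith

/-! ### nodes -/

structure Nd where
  t : ℚ
  fl : ℚ
  fu : ℚ
  ql : ℚ
  qu : ℚ

def mk (t : ℚ) : Nd :=
  ⟨t, cl * hE 16 0 (t ^ 2 / 2), cu * hE 17 0 (t ^ 2 / 2),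
    1 / 2 - cu * (t * hG 17 0 (t ^ 2 / 2)), 1 / 2 - cl * (t * hG 16 0 (t ^ 2 / 2))⟩

/-- validity of a node -/
structure Ok (n : Nd) : Prop where
  t0 : 0 ≤ n.t
  f0 : 0 ≤ n.fl
  q0 : 0 ≤ n.ql
  fl : (n.fl : ℝ) ≤ gpdf n.t
  fu : gpdf n.t ≤ n.fu
  ql : (n.ql : ℝ) ≤ Q n.t
  qu : Q n.t ≤ n.qu

def okb (t : ℚ) : Bool := decide (0 ≤ t) && decide (0 ≤ (mk t).fl) && decide (0 ≤ (mk t).ql) &&
  decide (0 ≤ hE 16 0 (t ^ 2 / 2)) && decide (0 ≤ hG 16 0 (t ^ 2 / 2))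

lemma ok_mk (t : ℚ) (h : okb t = true) : Ok (mk t) := by
  unfold okb at h
  simp only [Bool.and_eq_true, decide_eq_true_eq] at h
  obtain ⟨⟨⟨⟨h0, h1⟩, h2⟩, h3⟩, h4⟩ := h
  have ht : (0 : ℝ) ≤ t := by exact_mod_cast h0
  have e1 : ((mk t).t : ℝ) = t := rfl
  have a1 := alt_exp 16 ((t : ℝ) ^ 2 / 2) (by positivity)
  have a2 := alt_exp 17 ((t : ℝ) ^ 2 / 2) (by positivity)
  have a3 := alt_gI 16 t ht
  have a4 := alt_gI 17 t ht
  have n1 : (-1 : ℝ) ^ 16 = 1 := by norm_num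
  have n2 : (-1 : ℝ) ^ 17 = -1 := by norm_num
  rw [n1] at a1 a3
  rw [n2] at a2 a4
  have c1 := cl_le
  have c2 := le_cu
  have c0 := cc_pos
  have b1 : ((hE 16 0 (t ^ 2 / 2) : ℚ) : ℝ) = eP 16 ((t : ℝ) ^ 2 / 2) := by
    rw [hE_zero]; push_cast; rfl
  have b2 : ((hE 17 0 (t ^ 2 / 2) : ℚ) : ℝ) = eP 17 ((t : ℝ) ^ 2 / 2) := by
    rw [hE_zero]; push_cast; rfl
  have b3 : ((hG 16 0 (t ^ 2 / 2) : ℚ) : ℝ) = gP 16 ((t : ℝ) ^ 2 / 2) := by
    rw [hG_zero]; push_cast; rfl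
  have b4 : ((hG 17 0 (t ^ 2 / 2) : ℚ) : ℝ) = gP 17 ((t : ℝ) ^ 2 / 2) := by
    rw [hG_zero]; push_cast; rfl
  have h3' : (0 : ℝ) ≤ eP 16 ((t : ℝ) ^ 2 / 2) := by rw [← b1]; exact_mod_cast h3
  have h4' : (0 : ℝ) ≤ gP 16 ((t : ℝ) ^ 2 / 2) := by rw [← b3]; exact_mod_cast h4
  refine ⟨h0, h1, h2, ?_, ?_, ?_, ?_⟩
  · rw [e1, gpdf_eq_cc]
    have : ((mk t).fl : ℝ) = cl * eP 16 ((t : ℝ) ^ 2 / 2) := by
      rw [← b1]; unfold mk; push_cast; rfl
    rw [this]
    exact mul_le_mul c1 (by linarith) h3' c0.le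
  · rw [e1, gpdf_eq_cc]
    have : ((mk t).fu : ℝ) = cu * eP 17 ((t : ℝ) ^ 2 / 2) := by
      rw [← b2]; unfold mk; push_cast; rfl
    rw [this]
    exact mul_le_mul c2 (by linarith) (Real.exp_pos _).le (c0.le.trans c2)
  · rw [e1, Q_eq_gI]
    have : ((mk t).ql : ℝ) = 1 / 2 - cu * (t * gP 17 ((t : ℝ) ^ 2 / 2)) := by
      rw [← b4]; unfold mk; push_cast; rfl
    rw [this]
    have hg : 0 ≤ gI t := by
      have : 0 ≤ (t : ℝ) * gP 16 ((t : ℝ) ^ 2 / 2) := mul_nonneg ht h4'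
      linarith
    have := mul_le_mul c2 (show gI t ≤ t * gP 17 ((t : ℝ) ^ 2 / 2) by linarith) hg
      (c0.le.trans c2)
    linarith
  · rw [e1, Q_eq_gI]
    have : ((mk t).qu : ℝ) = 1 / 2 - cl * (t * gP 16 ((t : ℝ) ^ 2 / 2)) := by
      rw [← b3]; unfold mk; push_cast; rfl
    rw [this]
    have := mul_le_mul c1 (show t * gP 16 ((t : ℝ) ^ 2 / 2) ≤ gI t by linarith)
      (mul_nonneg ht h4') c0.le
    linarith

end Vale.Agent.P226.GNum
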