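import Mathlib
import Vale.Agent.P226.GNum

/-!
# P226: piecewise linear majorants of `2 JJ p - κ (JJ p)^2 / C`, decided by the kernel
-/

namespace Vale.Agent.P226.GNum

open MeasureTheory ProbabilityTheory Set Filter Topology Finset
open Vale.Agent.P226.EhrPhi

lemma tendsto_gpdf_atTop' : Tendsto gpdf atTop (𝓝 0) := by
  have h1 : Tendsto (fun x : ℝ => -x ^ 2 / 2) atTop atBot := by
    have h2 : Tendsto (fun x : ℝ => x ^ 2) atTop atTop := tendsto_pow_atTop two_ne_zero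
    have h3 := (tendsto_neg_atTop_atBot.comp h2).atBot_div_const (two_pos : (0 : ℝ) < 2)
    exact h3
  have := (Real.tendsto_exp_atBot.comp h1).div_const (√(2 * Real.pi))
  rw [zero_div] at this
  exact this

lemma mills' (x : ℝ) : x * Q x ≤ gpdf x := by
  have hI : IntegrableOn (fun t => t * gpdf t) (Ioi x) := by
    have h := integrable_mul_exp_neg_mul_sq (b := 1 / 2) (by norm_num)
    have e : (fun t : ℝ => t * gpdf t)
        = fun t => (t * Real.exp (-(1 / 2) * t ^ 2)) / √(2 * Real.pi) := by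
      funext t
      unfold gpdf
      rw [show -t ^ 2 / 2 = -(1 / 2) * t ^ 2 by ring]
      ring
    rw [e]
    exact (h.div_const _).integrableOn
  have h1 : ∫ t in Ioi x, t * gpdf t = gpdf x := by
    have hd : ∀ t ∈ Ici x, HasDerivAt (fun t => -gpdf t) (t * gpdf t) t := by
      intro t _
      have := (hasDerivAt_gpdf t).neg
      rw [show -(-t * gpdf t) = t * gpdf t by ring] at this
      exact this
    have := integral_Ioi_of_hasDerivAt_of_tendsto' hd hI tendsto_gpdf_atTop'.neg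
    rw [this]
    simp
  rw [Q_eq_integral, ← integral_const_mul, ← h1]
  apply setIntegral_mono_on (integrable_gpdf.integrableOn.const_mul x) hI measurableSet_Ioi
  intro t ht
  exact mul_le_mul_of_nonneg_right (le_of_lt ht) (gpdf_nonneg t)

lemma psi_nonneg' (x : ℝ) : 0 ≤ psi x := by
  rcases le_total 0 x with h | h
  · unfold psi; linarith [mills' x]
  · unfold psi
    have h1 := gpdf_pos x
    have h2 := Q_pos x
    nlinarith

/-- `J = gpdf * psi` -/
noncomputable def J (t : ℝ) : ℝ := gpdf t * psi t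

/-- `W = t psi + Q`, so that `J' = - gpdf * W` -/
noncomputable def W (t : ℝ) : ℝ := t * psi t + Q t

lemma J_nonneg (t : ℝ) : 0 ≤ J t := mul_nonneg (gpdf_nonneg t) (psi_nonneg' t)

lemma W_pos {t : ℝ} (ht : 0 ≤ t) : 0 < W t :=
  add_pos_of_nonneg_of_pos (mul_nonneg ht (psi_nonneg' t)) (Q_pos t)

lemma hasDerivAt_J (t : ℝ) : HasDerivAt J (-(gpdf t * W t)) t := by
  have h := (hasDerivAt_gpdf t).mul (hasDerivAt_psi t)
  exact h.congr_deriv (by unfold W; ring)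

lemma hasDerivAt_W (t : ℝ) : HasDerivAt W (-(2 * t * Q t)) t := by
  have h := ((hasDerivAt_id t).mul (hasDerivAt_psi t)).add (hasDerivAt_Q t)
  exact h.congr_deriv (by simp only [id]; unfold psi; ring)

lemma antitoneOn_J : AntitoneOn J (Ici 0) := by
  apply antitoneOn_of_deriv_nonpos (convex_Ici 0)
  · exact fun x _ => (hasDerivAt_J x).continuousAt.continuousWithinAt
  · exact fun x _ => (hasDerivAt_J x).differentiableAt.differentiableWithinAt
  · intro x hx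
    rw [interior_Ici] at hx
    rw [(hasDerivAt_J x).deriv]
    have := mul_pos (gpdf_pos x) (W_pos (le_of_lt hx))
    linarith

lemma antitoneOn_W : AntitoneOn W (Ici 0) := by
  apply antitoneOn_of_deriv_nonpos (convex_Ici 0)
  · exact fun x _ => (hasDerivAt_W x).continuousAt.continuousWithinAt
  · exact fun x _ => (hasDerivAt_W x).differentiableAt.differentiableWithinAt
  · intro x hx
    rw [interior_Ici] at hx
    rw [(hasDerivAt_W x).deriv]
    have := mul_pos hx (Q_pos x)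
    linarith

/-- `1/C = 8π/9` -/
noncomputable def iC : ℝ := 8 * Real.pi / 9

def icl : ℚ := 27925261 / 10000000
def icu : ℚ := 27925272 / 10000000

lemma icl_le : (icl : ℝ) ≤ iC := by
  have h1 := Real.pi_gt_d6
  unfold icl iC; push_cast; linarith

lemma le_icu : iC ≤ (icu : ℝ) := by
  have h1 := Real.pi_lt_d6
  unfold icu iC; push_cast; linarith

lemma iC_pos : 0 < iC := by unfold iC; have := Real.pi_pos; positivity

/-- the function `2J - κ J²/C` of `t` -/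
noncomputable def BB (κ t : ℝ) : ℝ := 2 * J t - κ * J t ^ 2 * iC

lemma hasDerivAt_BB (κ t : ℝ) :
    HasDerivAt (BB κ) (-(gpdf t * (2 * (1 - κ * J t * iC) * W t))) t := by
  have h := ((hasDerivAt_J t).const_mul 2).sub ((((hasDerivAt_J t).pow 2).const_mul κ).mul_const iC)
  exact h.congr_deriv (by push_cast; ring)

lemma cellA {κ t0 t1 t slo : ℝ} (h0 : t0 ≤ t) (h1 : t ≤ t1)
    (hs : ∀ x ∈ Icc t0 t1, slo ≤ 2 * (1 - κ * J x * iC) * W x) :
    BB κ t ≤ BB κ t0 - slo * (Q t0 - Q t) := by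
  have hd : ∀ x, HasDerivAt (fun x => BB κ x - slo * Q x)
      (-(gpdf x * (2 * (1 - κ * J x * iC) * W x)) - slo * (-gpdf x)) x := fun x =>
    (hasDerivAt_BB κ x).sub ((hasDerivAt_Q x).const_mul slo)
  have hanti : AntitoneOn (fun x => BB κ x - slo * Q x) (Icc t0 t1) := by
    apply antitoneOn_of_deriv_nonpos (convex_Icc t0 t1)
    · exact fun x _ => (hd x).continuousAt.continuousWithinAt
    · exact fun x _ => (hd x).differentiableAt.differentiableWithinAt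
    · intro x hx
      rw [(hd x).deriv]
      have := hs x (interior_subset hx)
      have hg := gpdf_pos x
      nlinarith
  have := hanti ⟨le_rfl, h0.trans h1⟩ ⟨h0, h1⟩ h0
  simp only at this
  linarith

lemma cellB {κ t0 t1 t shi : ℝ} (h0 : t0 ≤ t) (h1 : t ≤ t1)
    (hs : ∀ x ∈ Icc t0 t1, 2 * (1 - κ * J x * iC) * W x ≤ shi) :
    BB κ t ≤ BB κ t1 + shi * (Q t - Q t1) := by
  have hd : ∀ x, HasDerivAt (fun x => BB κ x - shi * Q x)
      (-(gpdf x * (2 * (1 - κ * J x * iC) * W x)) - shi * (-gpdf x)) x := fun x =>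
    (hasDerivAt_BB κ x).sub ((hasDerivAt_Q x).const_mul shi)
  have hmono : MonotoneOn (fun x => BB κ x - shi * Q x) (Icc t0 t1) := by
    apply monotoneOn_of_deriv_nonneg (convex_Icc t0 t1)
    · exact fun x _ => (hd x).continuousAt.continuousWithinAt
    · exact fun x _ => (hd x).differentiableAt.differentiableWithinAt
    · intro x hx
      rw [(hd x).deriv]
      have := hs x (interior_subset hx)
      have hg := gpdf_pos x
      nlinarith
  have := hmono ⟨h0, h1⟩ ⟨h0.trans h1, le_rfl⟩ h1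
  simp only at this
  linarith

/-! ### rational checks -/

def psl (n : Nd) : ℚ := n.fl - n.t * n.qu
def psu (n : Nd) : ℚ := n.fu - n.t * n.ql
def Jl (n : Nd) : ℚ := n.fl * psl n
def Ju (n : Nd) : ℚ := n.fu * psu n
def Wl (n : Nd) : ℚ := n.t * psl n + n.ql
def Wu (n : Nd) : ℚ := n.t * psu n + n.qu

lemma Ok.psl {n : Nd} (h : Ok n) : ((psl n : ℚ) : ℝ) ≤ psi n.t := by
  unfold GNum.psl psi
  push_cast
  have ht : (0 : ℝ) ≤ n.t := by exact_mod_cast h.t0
  have := mul_le_mul_of_nonneg_left h.qu ht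
  linarith [h.fl]

lemma Ok.psu {n : Nd} (h : Ok n) : psi n.t ≤ ((psu n : ℚ) : ℝ) := by
  unfold GNum.psu psi
  push_cast
  have ht : (0 : ℝ) ≤ n.t := by exact_mod_cast h.t0
  have := mul_le_mul_of_nonneg_left h.ql ht
  linarith [h.fu]

lemma Ok.Ju {n : Nd} (h : Ok n) : J n.t ≤ ((Ju n : ℚ) : ℝ) := by
  unfold GNum.Ju J
  push_cast
  exact mul_le_mul h.fu h.psu (psi_nonneg' _) ((gpdf_nonneg _).trans h.fu)

lemma Ok.Jl {n : Nd} (h : Ok n) : ((Jl n : ℚ) : ℝ) ≤ J n.t := by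
  unfold GNum.Jl J
  push_cast
  have hf : (0 : ℝ) ≤ n.fl := by exact_mod_cast h.f0
  calc (n.fl : ℝ) * ((GNum.psl n : ℚ) : ℝ) ≤ n.fl * psi n.t := mul_le_mul_of_nonneg_left h.psl hf
    _ ≤ gpdf n.t * psi n.t := mul_le_mul_of_nonneg_right h.fl (psi_nonneg' _)

lemma Ok.Wl {n : Nd} (h : Ok n) : ((Wl n : ℚ) : ℝ) ≤ W n.t := by
  unfold GNum.Wl W
  push_cast
  have ht : (0 : ℝ) ≤ n.t := by exact_mod_cast h.t0
  have := mul_le_mul_of_nonneg_left h.psl ht
  linarith [h.ql]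

lemma Ok.Wu {n : Nd} (h : Ok n) : W n.t ≤ ((Wu n : ℚ) : ℝ) := by
  unfold GNum.Wu W
  push_cast
  have ht : (0 : ℝ) ≤ n.t := by exact_mod_cast h.t0
  have := mul_le_mul_of_nonneg_left h.psu ht
  linarith [h.qu]

/-- upper bound of `BB` at a node -/
def Bu (κ : ℚ) (n : Nd) : ℚ := 2 * Ju n - κ * Ju n ^ 2 * icl

lemma Ok.Bu {n : Nd} (h : Ok n) {κ : ℚ} (hκ : 0 ≤ κ) (hpre : κ * GNum.Ju n * icu ≤ 1) :
    BB κ n.t ≤ ((Bu κ n : ℚ) : ℝ) := by
  unfold GNum.Bu BB
  push_cast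
  have h1 := h.Ju
  have h0 := J_nonneg n.t
  have hκ' : (0 : ℝ) ≤ κ := by exact_mod_cast hκ
  have hp : (κ : ℝ) * ((GNum.Ju n : ℚ) : ℝ) * (icu : ℝ) ≤ 1 := by exact_mod_cast hpre
  have i1 := icl_le
  have i2 := le_icu
  have i0 := iC_pos
  set x := J n.t
  set y := ((GNum.Ju n : ℚ) : ℝ)
  have hy : 0 ≤ y := h0.trans h1
  have h2 : (κ : ℝ) * y * iC ≤ 1 := by
    refine le_trans ?_ hp
    exact mul_le_mul_of_nonneg_left i2 (mul_nonneg hκ' hy)
  have h3 : (κ : ℝ) * y ^ 2 * (icl : ℝ) ≤ κ * y ^ 2 * iC :=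
    mul_le_mul_of_nonneg_left i1 (mul_nonneg hκ' (sq_nonneg _))
  have h4 : (κ : ℝ) * x * iC ≤ κ * y * iC :=
    mul_le_mul_of_nonneg_right (mul_le_mul_of_nonneg_left h1 hκ') i0.le
  -- 2x - κ x² iC ≤ 2y - κ y² iC
  have h5 : 0 ≤ (y - x) * (2 - κ * y * iC - κ * x * iC) := by
    apply mul_nonneg (by linarith)
    linarith
  nlinarith

def cellCheck (κ a b : ℚ) (n0 n1 : Nd) : Bool :=
  decide (n0.t ≤ n1.t) && decide (0 ≤ b) && decide (κ * Ju n0 * icu ≤ 1) &&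
  decide (κ * Ju n1 * icu ≤ 1) && decide (0 ≤ Wl n1) && decide (n1.qu ≤ n0.ql) &&
  ((decide (Bu κ n0 ≤ a + b * n0.ql) &&
      decide (Bu κ n0 - 2 * (1 - κ * Ju n0 * icu) * Wl n1 * (n0.ql - n1.qu) ≤ a + b * n1.ql)) ||
   (decide (0 ≤ Jl n1) && decide (Bu κ n1 ≤ a + b * n1.ql) &&
      decide (Bu κ n1 + 2 * (1 - κ * Jl n1 * icl) * Wu n0 * (n0.qu - n1.ql) ≤ a + b * n0.ql)))

lemma cellCheck_sound {κ a b : ℚ} {n0 n1 : Nd} (hκ : 0 ≤ κ) (h0 : Ok n0) (h1 : Ok n1)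
    (h : cellCheck κ a b n0 n1 = true) {t : ℝ} (ht0 : (n0.t : ℝ) ≤ t) (ht1 : t ≤ n1.t) :
    BB κ t ≤ a + b * Q t := by
  unfold cellCheck at h
  simp only [Bool.and_eq_true, Bool.or_eq_true, decide_eq_true_eq] at h
  obtain ⟨⟨⟨⟨⟨⟨c1, c2⟩, c3⟩, c4⟩, c5⟩, c6⟩, c7⟩ := h
  have hκ' : (0 : ℝ) ≤ κ := by exact_mod_cast hκ
  have hb : (0 : ℝ) ≤ b := by exact_mod_cast c2
  have t00 : (0 : ℝ) ≤ n0.t := by exact_mod_cast h0.t0
  have hQ0 : Q t ≤ Q n0.t := strictAnti_Q.antitone ht0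
  have hQ1 : Q n1.t ≤ Q t := strictAnti_Q.antitone ht1
  have i1 := icl_le
  have i2 := le_icu
  have i0 := iC_pos
  have c3' : (κ : ℝ) * ((Ju n0 : ℚ) : ℝ) * (icu : ℝ) ≤ 1 := by exact_mod_cast c3
  have c5' : (0 : ℝ) ≤ ((Wl n1 : ℚ) : ℝ) := by exact_mod_cast c5
  have c6' : (n1.qu : ℝ) ≤ n0.ql := by exact_mod_cast c6
  have hJx : ∀ x ∈ Icc (n0.t : ℝ) n1.t, J n1.t ≤ J x ∧ J x ≤ J n0.t := fun x hx =>
    ⟨antitoneOn_J (mem_Ici.2 (t00.trans hx.1)) (mem_Ici.2 (t00.trans (hx.1.trans hx.2))) hx.2,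
     antitoneOn_J (mem_Ici.2 t00) (mem_Ici.2 (t00.trans hx.1)) hx.1⟩
  have hWx : ∀ x ∈ Icc (n0.t : ℝ) n1.t, W n1.t ≤ W x ∧ W x ≤ W n0.t := fun x hx =>
    ⟨antitoneOn_W (mem_Ici.2 (t00.trans hx.1)) (mem_Ici.2 (t00.trans (hx.1.trans hx.2))) hx.2,
     antitoneOn_W (mem_Ici.2 t00) (mem_Ici.2 (t00.trans hx.1)) hx.1⟩
  have q0l := h0.ql
  have q0u := h0.qu
  have q1l := h1.ql
  have q1u := h1.qu
  rcases c7 with ⟨d1, d2⟩ | ⟨⟨d0, d1⟩, d2⟩
  · have e1 := h0.Bu hκ c3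
    set slo : ℝ := 2 * (1 - κ * ((Ju n0 : ℚ) : ℝ) * (icu : ℝ)) * ((Wl n1 : ℚ) : ℝ) with hslo
    have hs0 : 0 ≤ slo := by
      rw [hslo]; apply mul_nonneg _ c5'; linarith
    have e2 := cellA (κ := κ) (slo := slo) ht0 ht1 (by
      intro x hx
      obtain ⟨hj1, hj2⟩ := hJx x hx
      obtain ⟨hw1, hw2⟩ := hWx x hx
      have k1 : (κ : ℝ) * J x * iC ≤ κ * ((Ju n0 : ℚ) : ℝ) * (icu : ℝ) := by
        apply mul_le_mul (mul_le_mul_of_nonneg_left (hj2.trans h0.Ju) hκ') i2 i0.le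
        exact mul_nonneg hκ' ((J_nonneg _).trans h0.Ju)
      have k2 : ((Wl n1 : ℚ) : ℝ) ≤ W x := h1.Wl.trans hw1
      rw [hslo]
      apply mul_le_mul _ k2 c5' (by linarith)
      linarith)
    have d1' : ((Bu κ n0 : ℚ) : ℝ) ≤ a + b * n0.ql := by exact_mod_cast d1
    have d2' : ((Bu κ n0 : ℚ) : ℝ) - slo * (n0.ql - n1.qu) ≤ a + b * n1.ql := by
      rw [hslo]; exact_mod_cast d2
    rcases le_total slo b with hle | hle
    · -- worst at Q t = Q n1
      have k3 : (b : ℝ) * n1.ql ≤ b * Q n1.t := mul_le_mul_of_nonneg_left q1l hb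
      have k4 : slo * (n0.ql - n1.qu) ≤ slo * (Q n0.t - Q n1.t) :=
        mul_le_mul_of_nonneg_left (by linarith) hs0
      have k5 : 0 ≤ (b - slo) * (Q t - Q n1.t) := mul_nonneg (by linarith) (by linarith)
      nlinarith
    · have k3 : (b : ℝ) * n0.ql ≤ b * Q n0.t := mul_le_mul_of_nonneg_left q0l hb
      have k5 : 0 ≤ (slo - b) * (Q n0.t - Q t) := mul_nonneg (by linarith) (by linarith)
      nlinarith
  · have e1 := h1.Bu hκ c4
    have d0' : (0 : ℝ) ≤ ((Jl n1 : ℚ) : ℝ) := by exact_mod_cast d0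
    set shi : ℝ := 2 * (1 - κ * ((Jl n1 : ℚ) : ℝ) * (icl : ℝ)) * ((Wu n0 : ℚ) : ℝ) with hshi
    have e2 := cellB (κ := κ) (shi := shi) ht0 ht1 (by
      intro x hx
      obtain ⟨hj1, hj2⟩ := hJx x hx
      obtain ⟨hw1, hw2⟩ := hWx x hx
      have k1 : (κ : ℝ) * ((Jl n1 : ℚ) : ℝ) * (icl : ℝ) ≤ κ * J x * iC := by
        apply mul_le_mul (mul_le_mul_of_nonneg_left (h1.Jl.trans hj1) hκ') i1
        · unfold icl; norm_num
        · exact mul_nonneg hκ' (J_nonneg _)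
      have k1b : (κ : ℝ) * J x * iC ≤ 1 := by
        refine le_trans ?_ c3'
        apply mul_le_mul (mul_le_mul_of_nonneg_left (hj2.trans h0.Ju) hκ') i2 i0.le
        exact mul_nonneg hκ' ((J_nonneg _).trans h0.Ju)
      have k2 : W x ≤ ((Wu n0 : ℚ) : ℝ) := hw2.trans h0.Wu
      rw [hshi]
      apply mul_le_mul _ k2 (W_pos (t00.trans hx.1)).le _
      · linarith
      · linarith)
    have d1' : ((Bu κ n1 : ℚ) : ℝ) ≤ a + b * n1.ql := by exact_mod_cast d1
    have d2' : ((Bu κ n1 : ℚ) : ℝ) + shi * (n0.qu - n1.ql) ≤ a + b * n0.ql := by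
      rw [hshi]; exact_mod_cast d2
    rcases le_total shi b with hle | hle
    · have k3 : (b : ℝ) * n1.ql ≤ b * Q n1.t := mul_le_mul_of_nonneg_left q1l hb
      have k5 : 0 ≤ (b - shi) * (Q t - Q n1.t) := mul_nonneg (by linarith) (by linarith)
      nlinarith
    · have hs0 : 0 ≤ shi := hb.trans hle
      have k3 : (b : ℝ) * n0.ql ≤ b * Q n0.t := mul_le_mul_of_nonneg_left q0l hb
      have k4 : shi * (Q n0.t - Q n1.t) ≤ shi * (n0.qu - n1.ql) :=
        mul_le_mul_of_nonneg_left (by linarith) hs0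
      have k5 : 0 ≤ (shi - b) * (Q n0.t - Q t) := mul_nonneg (by linarith) (by linarith)
      nlinarith

/-- check a list of consecutive nodes `t₀ ≤ t₁ ≤ ...` -/
def listCheck (κ a b : ℚ) : List ℚ → Bool
  | [] => true
  | [_] => true
  | s :: t :: l => okb s && okb t && cellCheck κ a b (mk s) (mk t) && listCheck κ a b (t :: l)

lemma listCheck_sound {κ a b : ℚ} (hκ : 0 ≤ κ) : ∀ (l : List ℚ) (s : ℚ),
    listCheck κ a b (s :: l) = true → ∀ t : ℝ, (s : ℝ) ≤ t → t ≤ (((s :: l).getLast (by simp) : ℚ) : ℝ) →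
      (l ≠ []) → BB κ t ≤ a + b * Q t := by
  intro l
  induction l with
  | nil => intro s _ t _ _ h; exact absurd rfl h
  | cons r l ih =>
    intro s h t h1 h2 _
    rw [listCheck] at h
    simp only [Bool.and_eq_true] at h
    obtain ⟨⟨⟨ha, hb⟩, hc⟩, hd⟩ := h
    rcases le_total t r with h3 | h3
    · exact cellCheck_sound hκ (ok_mk s ha) (ok_mk r hb) hc h1 h3
    · rcases l with _ | ⟨r', l'⟩
      · simp only [ne_eq, reduceCtorEq, not_false_eq_true, List.getLast_cons,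
          List.getLast_singleton] at h2
        have : t = r := le_antisymm h2 h3
        rw [this]
        exact cellCheck_sound hκ (ok_mk s ha) (ok_mk r hb) hc (this ▸ h1) le_rfl
      · refine ih r hd t h3 ?_ (by simp)
        rw [List.getLast_cons (by simp)] at h2
        exact h2

lemma exists_Q_eq {p : ℝ} (hp : p ∈ Ioo (0 : ℝ) 1) : ∃ t, Q t = p := by
  obtain ⟨x, hx⟩ := exists_Phi_eq hp
  exact ⟨-x, by rw [Q_eq, neg_neg, hx]⟩

/-- full check: list of nodes `s :: l`, the `p`-range `[plo, phi]` is covered -/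
def majCheck (κ a b plo phi : ℚ) (s : ℚ) (l : List ℚ) : Bool :=
  decide (0 ≤ κ) && !l.isEmpty && decide (phi ≤ (mk s).ql) &&
  decide ((mk ((s :: l).getLast (by simp))).qu ≤ plo) && okb s && okb ((s :: l).getLast (by simp)) &&
  listCheck κ a b (s :: l)

theorem maj (κ a b plo phi : ℚ) (s : ℚ) (l : List ℚ) (h : majCheck κ a b plo phi s l = true)
    {p : ℝ} (hp : p ∈ Ioo (0 : ℝ) 1) (h1 : (plo : ℝ) ≤ p) (h2 : p ≤ phi) :
    2 * JJ p - κ * JJ p ^ 2 / (9 / (8 * Real.pi)) ≤ a + b * p := by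
  unfold majCheck at h
  simp only [Bool.and_eq_true, decide_eq_true_eq, Bool.not_eq_true'] at h
  obtain ⟨⟨⟨⟨⟨⟨c1, c2⟩, c3⟩, c4⟩, c5⟩, c6⟩, c7⟩ := h
  obtain ⟨t, rfl⟩ := exists_Q_eq hp
  have hne : l ≠ [] := by
    intro hl; rw [hl] at c2; simp at c2
  have o1 := ok_mk s c5
  have o2 := ok_mk _ c6
  have k1 : (s : ℝ) ≤ t := by
    rw [← strictAnti_Q.le_iff_ge]
    have e : ((phi : ℚ) : ℝ) ≤ ((mk s).ql : ℝ) := by exact_mod_cast c3
    exact h2.trans (e.trans o1.ql)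
  have k2 : t ≤ (((s :: l).getLast (by simp) : ℚ) : ℝ) := by
    rw [← strictAnti_Q.le_iff_ge]
    have e : ((mk ((s :: l).getLast (by simp))).qu : ℝ) ≤ ((plo : ℚ) : ℝ) := by exact_mod_cast c4
    exact o2.qu.trans (e.trans h1)
  have := listCheck_sound c1 l s c7 t k1 k2 hne
  rw [JJ_Q]
  have hpi := Real.pi_pos
  unfold BB J iC at this
  have e : (κ : ℝ) * (gpdf t * psi t) ^ 2 / (9 / (8 * Real.pi))
      = κ * (gpdf t * psi t) ^ 2 * (8 * Real.pi / 9) := by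
    field_simp
  rw [e]
  exact this

/-- pure upper bound of `JJ` (case `κ = 0`) -/
theorem maj_JJ (a b plo phi : ℚ) (s : ℚ) (l : List ℚ) (h : majCheck 0 (2 * a) (2 * b) plo phi s l = true)
    {p : ℝ} (hp : p ∈ Ioo (0 : ℝ) 1) (h1 : (plo : ℝ) ≤ p) (h2 : p ≤ phi) :
    JJ p ≤ a + b * p := by
  have := maj 0 (2 * a) (2 * b) plo phi s l h hp h1 h2
  push_cast at this
  simp only [zero_mul, zero_div, sub_zero] at this
  linarith

/-- `2 JJ p - κ JJ²/C ≤ m` for all `p ≤ p₀` (monotonicity), `κ JJ(p₀)/C ≤ 1` -/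
theorem maj_const (κ m p0 : ℚ) (s : ℚ)
    (h : (decide (0 ≤ κ) && okb s && decide (p0 ≤ (mk s).ql) && decide (κ * Ju (mk s) * icu ≤ 1) &&
      decide (Bu κ (mk s) ≤ m)) = true)
    {p : ℝ} (hp : p ∈ Ioo (0 : ℝ) 1) (h2 : p ≤ p0) :
    2 * JJ p - κ * JJ p ^ 2 / (9 / (8 * Real.pi)) ≤ m := by
  simp only [Bool.and_eq_true, decide_eq_true_eq] at h
  obtain ⟨⟨⟨⟨c1, c2⟩, c3⟩, c4⟩, c5⟩ := h
  obtain ⟨t, rfl⟩ := exists_Q_eq hp
  have o1 := ok_mk s c2
  have k1 : (s : ℝ) ≤ t := by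
    rw [← strictAnti_Q.le_iff_ge]
    have e : ((p0 : ℚ) : ℝ) ≤ ((mk s).ql : ℝ) := by exact_mod_cast c3
    exact h2.trans (e.trans o1.ql)
  have hB := o1.Bu c1 c4
  have s0 : (0 : ℝ) ≤ s := by exact_mod_cast o1.t0
  have hJ : J t ≤ J s := antitoneOn_J (mem_Ici.2 s0) (mem_Ici.2 (s0.trans k1)) k1
  have e1 : ((mk s).t : ℝ) = s := rfl
  rw [e1] at hB
  have c5' : ((Bu κ (mk s) : ℚ) : ℝ) ≤ m := by exact_mod_cast c5
  have hκ : (0 : ℝ) ≤ κ := by exact_mod_cast c1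
  have c4' : (κ : ℝ) * ((Ju (mk s) : ℚ) : ℝ) * (icu : ℝ) ≤ 1 := by exact_mod_cast c4
  have i2 := le_icu
  have i0 := iC_pos
  have hu := o1.Ju
  rw [e1] at hu
  have k3 : (κ : ℝ) * J s * iC ≤ 1 := by
    refine le_trans ?_ c4'
    apply mul_le_mul (mul_le_mul_of_nonneg_left hu hκ) i2 i0.le
    exact mul_nonneg hκ ((J_nonneg _).trans hu)
  have k4 : (κ : ℝ) * J t * iC ≤ κ * J s * iC :=
    mul_le_mul_of_nonneg_right (mul_le_mul_of_nonneg_left hJ hκ) i0.le
  rw [JJ_Q]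
  have hpi := Real.pi_pos
  have e : (κ : ℝ) * (gpdf t * psi t) ^ 2 / (9 / (8 * Real.pi)) = κ * J t ^ 2 * iC := by
    unfold J iC; field_simp
  rw [e]
  change 2 * J t - κ * J t ^ 2 * iC ≤ m
  unfold BB at hB
  have h5 : 0 ≤ (J s - J t) * (2 - κ * J s * iC - κ * J t * iC) :=
    mul_nonneg (by linarith) (by linarith)
  nlinarith

/-! ### the bound `II p ^ 2`: tangent lines -/

lemma hasDerivAt_tphi (t : ℝ) : HasDerivAt (fun t => t * gpdf t) ((1 - t ^ 2) * gpdf t) t := by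
  have h := (hasDerivAt_id t).mul (hasDerivAt_gpdf t)
  exact h.congr_deriv (by simp only [id]; ring)

lemma tphi_mono {x y : ℝ} (hx : -1 ≤ x) (hxy : x ≤ y) (hy : y ≤ 1) : x * gpdf x ≤ y * gpdf y := by
  have hmono : MonotoneOn (fun t => t * gpdf t) (Icc (-1) 1) := by
    apply monotoneOn_of_deriv_nonneg (convex_Icc _ _)
    · exact fun x _ => (hasDerivAt_tphi x).continuousAt.continuousWithinAt
    · exact fun x _ => (hasDerivAt_tphi x).differentiableAt.differentiableWithinAt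
    · intro z hz
      rw [interior_Icc] at hz
      rw [(hasDerivAt_tphi z).deriv]
      have := gpdf_pos z
      have h1 := hz.1
      have h2 := hz.2
      apply mul_nonneg _ this.le
      nlinarith
  exact hmono ⟨hx, hxy.trans hy⟩ ⟨hx.trans hxy, hy⟩ hxy

/-- tangent line to `II²` at `Q s`, valid on `Q t`, `t ≤ 1` -/
lemma tangent_II {s t : ℝ} (hs0 : 0 ≤ s) (hs1 : s ≤ 1) (ht : t ≤ 1) :
    gpdf t ^ 2 ≤ gpdf s ^ 2 + 2 * (s * gpdf s) * (Q t - Q s) := by
  set F : ℝ → ℝ := fun x => gpdf x ^ 2 - 2 * (s * gpdf s) * Q x with hF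
  have hd : ∀ x, HasDerivAt F (2 * gpdf x * (s * gpdf s - x * gpdf x)) x := by
    intro x
    have h := ((hasDerivAt_gpdf x).pow 2).sub ((hasDerivAt_Q x).const_mul (2 * (s * gpdf s)))
    exact h.congr_deriv (by push_cast; ring)
  have key : F t ≤ F s := by
    rcases le_total t s with h | h
    · -- F monotone on (-∞, s]
      have hm : MonotoneOn F (Iic s) := by
        apply monotoneOn_of_deriv_nonneg (convex_Iic s)
        · exact fun x _ => (hd x).continuousAt.continuousWithinAt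
        · exact fun x _ => (hd x).differentiableAt.differentiableWithinAt
        · intro x hx
          rw [interior_Iic] at hx
          rw [(hd x).deriv]
          have hg := gpdf_pos x
          have : x * gpdf x ≤ s * gpdf s := by
            rcases le_total x 0 with h0 | h0
            · have h1 : x * gpdf x ≤ 0 := mul_nonpos_of_nonpos_of_nonneg h0 hg.le
              exact h1.trans (mul_nonneg hs0 (gpdf_nonneg s))
            · exact tphi_mono (by linarith) (le_of_lt hx) hs1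
          have h3 : 0 ≤ s * gpdf s - x * gpdf x := by linarith
          positivity
      exact hm (mem_Iic.2 h) (mem_Iic.2 le_rfl) h
    · have hm : AntitoneOn F (Icc s 1) := by
        apply antitoneOn_of_deriv_nonpos (convex_Icc s 1)
        · exact fun x _ => (hd x).continuousAt.continuousWithinAt
        · exact fun x _ => (hd x).differentiableAt.differentiableWithinAt
        · intro x hx
          have hx' := interior_subset hx
          rw [(hd x).deriv]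
          have hg := gpdf_pos x
          have := tphi_mono (x := s) (y := x) (by linarith) hx'.1 hx'.2
          nlinarith
      exact hm ⟨le_rfl, hs1⟩ ⟨h, ht⟩ h
  simp only [hF] at key
  linarith

/-- linear majorant of `II²` on `[plo, 1)`: `plo ≥ Q 1`, tangent at `Q s` -/
def tanCheck (a b plo : ℚ) (s : ℚ) : Bool :=
  okb s && okb 1 && decide (s ≤ 1) && decide ((mk 1).qu ≤ plo) &&
  decide ((mk s).fu ^ 2 + 2 * (s * (mk s).fu) * (1 - (mk s).ql) ≤ a + b * 1) &&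
  decide ((mk s).fu ^ 2 + 2 * (s * (mk s).fl) * (plo - (mk s).ql) ≤ a + b * plo) &&
  decide (plo ≤ (mk s).ql)

theorem maj_II (a b plo : ℚ) (s : ℚ) (h : tanCheck a b plo s = true)
    {p : ℝ} (hp : p ∈ Ioo (0 : ℝ) 1) (h1 : (plo : ℝ) ≤ p) : II p ^ 2 ≤ a + b * p := by
  unfold tanCheck at h
  simp only [Bool.and_eq_true, decide_eq_true_eq] at h
  obtain ⟨⟨⟨⟨⟨⟨c1, c2⟩, c3⟩, c4⟩, c5⟩, c6⟩, c7⟩ := h
  obtain ⟨t, rfl⟩ := exists_Q_eq hp
  have o1 := ok_mk s c1
  have o2 := ok_mk 1 c2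
  have e1 : ((mk s).t : ℝ) = s := rfl
  have e2 : ((mk 1).t : ℝ) = 1 := by simp [mk]
  have s0 : (0 : ℝ) ≤ s := by exact_mod_cast o1.t0
  have s1 : (s : ℝ) ≤ 1 := by exact_mod_cast c3
  have ht : t ≤ 1 := by
    rw [← e2, ← strictAnti_Q.le_iff_ge]
    have e : (((mk 1).qu : ℚ) : ℝ) ≤ ((plo : ℚ) : ℝ) := by exact_mod_cast c4
    exact o2.qu.trans (e.trans h1)
  have key := tangent_II s0 s1 ht
  rw [II_Q]
  have f1 := o1.fl
  have f2 := o1.fu
  have q1 := o1.ql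
  have q2 := o1.qu
  rw [e1] at f1 f2 q1 q2
  have c5' : ((mk s).fu : ℝ) ^ 2 + 2 * (s * (mk s).fu) * (1 - (mk s).ql) ≤ a + b * 1 := by
    exact_mod_cast c5
  have c6' : ((mk s).fu : ℝ) ^ 2 + 2 * (s * (mk s).fl) * (plo - (mk s).ql) ≤ a + b * plo := by
    exact_mod_cast c6
  have c7' : (plo : ℝ) ≤ (mk s).ql := by exact_mod_cast c7
  have hg0 := gpdf_nonneg (s : ℝ)
  have hQ1 := Q_lt_one t
  have hsq : gpdf (s : ℝ) ^ 2 ≤ ((mk s).fu : ℝ) ^ 2 := pow_le_pow_left₀ hg0 f2 2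
  have hsg : 0 ≤ (s : ℝ) * gpdf s := mul_nonneg s0 hg0
  -- the tangent is ≤ the chord between `plo` and `1`; check the end points
  have hA : gpdf (s : ℝ) ^ 2 + 2 * (s * gpdf s) * (1 - Q s) ≤ a + b * 1 := by
    refine le_trans ?_ c5'
    have k1 : (s : ℝ) * gpdf s ≤ s * (mk s).fu := mul_le_mul_of_nonneg_left f2 s0
    have k2 : 1 - Q (s : ℝ) ≤ 1 - (mk s).ql := by linarith
    have k3 : 0 ≤ 1 - Q (s : ℝ) := by linarith [Q_lt_one (s : ℝ)]
    have k4 : (s : ℝ) * gpdf s * (1 - Q s) ≤ s * (mk s).fu * (1 - (mk s).ql) :=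
      mul_le_mul k1 k2 k3 (hsg.trans k1)
    nlinarith
  have hB : gpdf (s : ℝ) ^ 2 + 2 * (s * gpdf s) * (plo - Q s) ≤ a + b * plo := by
    refine le_trans ?_ c6'
    have k1 : (s : ℝ) * (mk s).fl ≤ s * gpdf s := mul_le_mul_of_nonneg_left f1 s0
    have k2 : 0 ≤ (mk s).ql - (plo : ℝ) := by linarith
    have k3 : (s : ℝ) * (mk s).fl * ((mk s).ql - plo) ≤ s * gpdf s * ((mk s).ql - plo) :=
      mul_le_mul_of_nonneg_right k1 k2
    have k4 : s * gpdf s * ((mk s).ql - plo) ≤ s * gpdf s * (Q s - plo) :=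
      mul_le_mul_of_nonneg_left (by linarith) hsg
    nlinarith
  have hplo1 : (plo : ℝ) < 1 := lt_of_le_of_lt h1 hQ1
  -- interpolate
  set x := Q t
  have hx1 : 0 ≤ 1 - x := by linarith
  have hx2 : 0 ≤ x - plo := by linarith
  have m1 := mul_le_mul_of_nonneg_left hA hx2
  have m2 := mul_le_mul_of_nonneg_left hB hx1
  have hden : 0 < 1 - (plo : ℝ) := by linarith
  have : (gpdf t ^ 2) * (1 - plo) ≤ (a + b * x) * (1 - plo) := by
    have k := mul_le_mul_of_nonneg_right key hden.le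
    nlinarith
  exact le_of_mul_le_mul_right this hden

end Vale.Agent.P226.GNum
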