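import Mathlib
import Vale.Agent.P226.GMaj

/-!
# P226: explicit linear majorants of `B₁ p = min (II p ^ 2) (2 JJ p - JJ p ^ 2 / C)`

Points: (0,0), (0.04, 0.00279), (0.08, 0.01071), (0.12, 0.02325), (0.16, 0.03981), (0.2, 0.05979), (0.25, 0.08853), (0.3025, 0.12183).
-/

namespace Vale.Agent.P226.GNum

open MeasureTheory ProbabilityTheory Set Filter Topology Finset
open Vale.Agent.P226.EhrPhi

lemma tendsto_t_gpdf : Tendsto (fun t : ℝ => t * gpdf t) atTop (𝓝 0) := by
  have h1 : ∀ t : ℝ, 0 < t → t * gpdf t ≤ 2 / t := by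
    intro t ht
    have h2 : gpdf t ≤ Real.exp (-(t ^ 2 / 2)) := by
      rw [gpdf_eq_cc]
      have h3 : cc ≤ 1 := le_cu.trans (by unfold cu; norm_num)
      have := Real.exp_pos (-(t ^ 2 / 2))
      nlinarith
    have h4 : Real.exp (-(t ^ 2 / 2)) ≤ 2 / t ^ 2 := by
      rw [Real.exp_neg, inv_le_comm₀ (Real.exp_pos _) (by positivity), inv_div]
      have := Real.add_one_le_exp (t ^ 2 / 2)
      linarith
    calc t * gpdf t ≤ t * (2 / t ^ 2) := mul_le_mul_of_nonneg_left (h2.trans h4) ht.le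
      _ = 2 / t := by field_simp
  have h2 : Tendsto (fun t : ℝ => 2 / t) atTop (𝓝 0) := tendsto_const_nhds.div_atTop tendsto_id
  refine squeeze_zero' ?_ ?_ h2
  · filter_upwards [eventually_gt_atTop 0] with t ht
    exact mul_nonneg ht.le (gpdf_nonneg t)
  · filter_upwards [eventually_gt_atTop 0] with t ht
    exact h1 t ht

lemma tendsto_Q_atTop' : Tendsto Q atTop (𝓝 0) := by
  have h := tendsto_Phi_atTop.const_sub 1
  rw [sub_self] at h
  exact h

/-- `t ψ(t) ≤ Q(t)` -/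
lemma t_psi_le (t : ℝ) : t * psi t ≤ Q t := by
  have hd : ∀ x, HasDerivAt (fun x => Q x - x * psi x) (-(2 * psi x)) x := by
    intro x
    have h := (hasDerivAt_Q x).sub ((hasDerivAt_id x).mul (hasDerivAt_psi x))
    exact h.congr_deriv (by simp only [id]; unfold psi; ring)
  have hanti : Antitone (fun x => Q x - x * psi x) := by
    apply antitone_of_deriv_nonpos (fun x => (hd x).differentiableAt)
    intro x
    rw [(hd x).deriv]
    linarith [psi_nonneg' x]
  have hlim : Tendsto (fun x => Q x - x * psi x) atTop (𝓝 (0 - 0)) := by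
    apply tendsto_Q_atTop'.sub
    refine squeeze_zero' ?_ ?_ tendsto_t_gpdf
    · filter_upwards [eventually_gt_atTop 0] with x hx
      exact mul_nonneg hx.le (psi_nonneg' x)
    · filter_upwards [eventually_gt_atTop 0] with x hx
      apply mul_le_mul_of_nonneg_left _ hx.le
      unfold psi
      have := mul_nonneg hx.le (Q_pos x).le
      linarith
  rw [sub_zero] at hlim
  have := hanti.le_of_tendsto hlim t
  linarith

/-- tail estimate: `2 JJ p - κ JJ²/C ≤ b p` for all small `p` -/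
theorem maj_tail (κ b phi : ℚ) (s : ℚ)
    (h : (decide (0 ≤ κ) && okb s && decide (0 < s) && decide (phi ≤ (mk s).ql) &&
      decide (2 * (mk s).fu ≤ b * s)) = true)
    {p : ℝ} (hp : p ∈ Ioo (0 : ℝ) 1) (h2 : p ≤ phi) :
    2 * JJ p - κ * JJ p ^ 2 / (9 / (8 * Real.pi)) ≤ b * p := by
  simp only [Bool.and_eq_true, decide_eq_true_eq] at h
  obtain ⟨⟨⟨⟨c1, c2⟩, c3⟩, c4⟩, c5⟩ := h
  obtain ⟨t, rfl⟩ := exists_Q_eq hp
  have o1 := ok_mk s c2
  have k1 : (s : ℝ) ≤ t := by
    rw [← strictAnti_Q.le_iff_ge]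
    have e : ((phi : ℚ) : ℝ) ≤ ((mk s).ql : ℝ) := by exact_mod_cast c4
    exact h2.trans (e.trans o1.ql)
  have s0 : (0 : ℝ) < s := by exact_mod_cast c3
  have t0 : 0 < t := s0.trans_le k1
  have hκ : (0 : ℝ) ≤ κ := by exact_mod_cast c1
  have c5' : 2 * ((mk s).fu : ℝ) ≤ b * s := by exact_mod_cast c5
  have hfu := o1.fu
  have e1 : ((mk s).t : ℝ) = s := rfl
  rw [e1] at hfu
  have hg : gpdf t ≤ gpdf s := gpdf_le_of_abs_le (by rw [abs_of_pos s0, abs_of_pos t0]; exact k1)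
  rw [JJ_Q]
  have h3 : 0 ≤ (κ : ℝ) * (gpdf t * psi t) ^ 2 / (9 / (8 * Real.pi)) := by
    have := Real.pi_pos
    positivity
  have h4 := t_psi_le t
  have h5 := psi_nonneg' t
  have h6 := Q_pos t
  have h7 := gpdf_pos t
  -- 2 φ ψ ≤ b s ψ ≤ b t ψ ≤ b Q
  have h8 : 2 * gpdf t ≤ b * s := by linarith
  have hb : (0 : ℝ) ≤ b := by
    by_contra hneg
    push Not at hneg
    have : (b : ℝ) * s < 0 := mul_neg_of_neg_of_pos hneg s0
    linarith
  calc 2 * (gpdf t * psi t) - κ * (gpdf t * psi t) ^ 2 / (9 / (8 * Real.pi))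
      ≤ 2 * gpdf t * psi t := by linarith
    _ ≤ b * s * psi t := mul_le_mul_of_nonneg_right h8 h5
    _ ≤ b * t * psi t := by
        apply mul_le_mul_of_nonneg_right _ h5
        exact mul_le_mul_of_nonneg_left k1 hb
    _ = b * (t * psi t) := by ring
    _ ≤ b * Q t := mul_le_mul_of_nonneg_left h4 hb

/-- `B₁ p ≤ 0.06975 p` on `(0, 0.04]` -/
theorem line0 {p : ℝ} (h0 : 0 < p) (h2 : p ≤ (1/25)) :
    2 * JJ p - 1 * JJ p ^ 2 / (9 / (8 * Real.pi)) ≤ (279/4000) * p := by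
  rcases le_total p (3 / 200) with h | h
  · have h := maj_tail 1 (279/4000) (3 / 200) 2 (by decide +kernel)
      (p := p) ⟨h0, by linarith⟩ (by push_cast; linarith)
    push_cast at h
    linarith
  · have h := maj 1 0 (279/4000) (3 / 200) (1/25) (35013/20000) [37013/20000, 39013/20000, 41013/20000, 43013/20000, 21701/10000] (by decide +kernel)
      (p := p) ⟨h0, by linarith⟩ (by push_cast; linarith) (by push_cast; linarith)
    push_cast at h
    linarith

/-- `B₁ p ≤ -0.00513 + 0.198 p` on `[0.04, 0.08]` -/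
theorem line1 {p : ℝ} (h1 : ((1/25) : ℝ) ≤ p) (h2 : p ≤ (2/25)) :
    2 * JJ p - 1 * JJ p ^ 2 / (9 / (8 * Real.pi)) ≤ (-513/100000) + (99/500) * p := by
  have h := maj 1 (-513/100000) (99/500) (1/25) (2/25) (28101/20000) [30101/20000, 32101/20000, 34101/20000, 17507/10000] (by decide +kernel)
    (p := p) ⟨by linarith, by linarith⟩ (by push_cast; linarith) (by push_cast; linarith)
  push_cast at h
  linarith

/-- `B₁ p ≤ -0.01437 + 0.3135 p` on `[0.08, 0.12]` -/
theorem line2 {p : ℝ} (h1 : ((2/25) : ℝ) ≤ p) (h2 : p ≤ (3/25)) :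
    2 * JJ p - 1 * JJ p ^ 2 / (9 / (8 * Real.pi)) ≤ (-1437/100000) + (627/2000) * p := by
  have h := maj 1 (-1437/100000) (627/2000) (2/25) (3/25) (23499/20000) [25499/20000, 27499/20000, 14051/10000] (by decide +kernel)
    (p := p) ⟨by linarith, by linarith⟩ (by push_cast; linarith) (by push_cast; linarith)
  push_cast at h
  linarith

/-- `B₁ p ≤ -0.02643 + 0.414 p` on `[0.12, 0.16]` -/
theorem line3 {p : ℝ} (h1 : ((3/25) : ℝ) ≤ p) (h2 : p ≤ (4/25)) :
    2 * JJ p - 1 * JJ p ^ 2 / (9 / (8 * Real.pi)) ≤ (-2643/100000) + (207/500) * p := by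
  have h := maj 1 (-2643/100000) (207/500) (3/25) (4/25) (19889/20000) [20889/20000, 21889/20000, 47/40] (by decide +kernel)
    (p := p) ⟨by linarith, by linarith⟩ (by push_cast; linarith) (by push_cast; linarith)
  push_cast at h
  linarith

/-- `B₁ p ≤ -0.04011 + 0.4995 p` on `[0.16, 0.2]` -/
theorem line4 {p : ℝ} (h1 : ((4/25) : ℝ) ≤ p) (h2 : p ≤ (1/5)) :
    2 * JJ p - 1 * JJ p ^ 2 / (9 / (8 * Real.pi)) ≤ (-4011/100000) + (999/2000) * p := by
  have h := maj 1 (-4011/100000) (999/2000) (4/25) (1/5) (526/625) [2229/2500, 1177/1250, 1989/2000] (by decide +kernel)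
    (p := p) ⟨by linarith, by linarith⟩ (by push_cast; linarith) (by push_cast; linarith)
  push_cast at h
  linarith

/-- `B₁ p ≤ -0.05517 + 0.5748 p` on `[0.2, 0.25]` -/
theorem line5 {p : ℝ} (h1 : ((1/5) : ℝ) ≤ p) (h2 : p ≤ (1/4)) :
    2 * JJ p - 1 * JJ p ^ 2 / (9 / (8 * Real.pi)) ≤ (-5517/100000) + (1437/2500) * p := by
  have h := maj 1 (-5517/100000) (1437/2500) (1/5) (1/4) (13489/20000) [14489/20000, 15489/20000, 16489/20000, 16833/20000] (by decide +kernel)
    (p := p) ⟨by linarith, by linarith⟩ (by push_cast; linarith) (by push_cast; linarith)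
  push_cast at h
  linarith

/-- `B₁ p ≤ -0.07004142857142857 + 0.6342857142857142 p` on `[0.25, 0.3025]` -/
theorem line6 {p : ℝ} (h1 : ((1/4) : ℝ) ≤ p) (h2 : p ≤ (121/400)) :
    2 * JJ p - 1 * JJ p ^ 2 / (9 / (8 * Real.pi)) ≤ (-49029/700000) + (111/175) * p := by
  have h := maj 1 (-49029/700000) (111/175) (1/4) (121/400) (1293/2500) [1393/2500, 1493/2500, 1593/2500, 1349/2000] (by decide +kernel)
    (p := p) ⟨by linarith, by linarith⟩ (by push_cast; linarith) (by push_cast; linarith)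
  push_cast at h
  linarith

/-- the last chord is a majorant of `II²` on `[0.3025, 1)` -/
theorem line6_II {p : ℝ} (h1 : (121/400 : ℝ) ≤ p) (h2 : p < 1) :
    II p ^ 2 ≤ (-49029/700000) + (111/175) * p := by
  have h := maj_II (-49029/700000) (111/175) (121/400) (514/1000) (by decide +kernel)
    (p := p) ⟨by linarith, h2⟩ (by push_cast; linarith)
  push_cast at h
  linarith

/-- `II² ≤ 0.01373 + 0.3573 p` on `[1/5, 1)` -/
theorem tan305 {p : ℝ} (h1 : (1/5 : ℝ) ≤ p) (h2 : p < 1) :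
    II p ^ 2 ≤ (1373/100000) + (3573/10000) * p := by
  have h := maj_II (1373/100000) (3573/10000) (1/5) (51/100) (by decide +kernel)
    (p := p) ⟨by linarith, h2⟩ (by push_cast; linarith)
  push_cast at h
  linarith

/-- `II² ≤ 0.04354 + 0.2679 p` on `[1/5, 1)` -/
theorem tan36 {p : ℝ} (h1 : (1/5 : ℝ) ≤ p) (h2 : p < 1) :
    II p ^ 2 ≤ (2177/50000) + (2679/10000) * p := by
  have h := maj_II (2177/50000) (2679/10000) (1/5) (179/500) (by decide +kernel)
    (p := p) ⟨by linarith, h2⟩ (by push_cast; linarith)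
  push_cast at h
  linarith

/-- `II² ≤ 0.0865 + 0.1579 p` on `[1/5, 1)` -/
theorem tan42 {p : ℝ} (h1 : (1/5 : ℝ) ≤ p) (h2 : p < 1) :
    II p ^ 2 ≤ (173/2000) + (1579/10000) * p := by
  have h := maj_II (173/2000) (1579/10000) (1/5) (101/500) (by decide +kernel)
    (p := p) ⟨by linarith, h2⟩ (by push_cast; linarith)
  push_cast at h
  linarith

/-- ray bound on `(0, 0.04]`: slope 0.06975 -/
theorem ray1 {p : ℝ} (h0 : 0 < p) (h2 : p ≤ (1/25)) :
    2 * JJ p - 1 * JJ p ^ 2 / (9 / (8 * Real.pi)) ≤ (279/4000) * p := line0 h0 h2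

/-- ray bound on `(0, 0.08]`: slope 0.133875 -/
theorem ray2 {p : ℝ} (h0 : 0 < p) (h2 : p ≤ (2/25)) :
    2 * JJ p - 1 * JJ p ^ 2 / (9 / (8 * Real.pi)) ≤ (1071/8000) * p := by
  rcases le_total p (1/25) with h | h
  · have := ray1 h0 h
    linarith
  · have := line1 h h2
    linarith

/-- ray bound on `(0, 0.12]`: slope 0.19375 -/
theorem ray3 {p : ℝ} (h0 : 0 < p) (h2 : p ≤ (3/25)) :
    2 * JJ p - 1 * JJ p ^ 2 / (9 / (8 * Real.pi)) ≤ (31/160) * p := by
  rcases le_total p (2/25) with h | h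
  · have := ray2 h0 h
    linarith
  · have := line2 h h2
    linarith

/-- ray bound on `(0, 0.16]`: slope 0.2488125 -/
theorem ray4 {p : ℝ} (h0 : 0 < p) (h2 : p ≤ (4/25)) :
    2 * JJ p - 1 * JJ p ^ 2 / (9 / (8 * Real.pi)) ≤ (3981/16000) * p := by
  rcases le_total p (3/25) with h | h
  · have := ray3 h0 h
    linarith
  · have := line3 h h2
    linarith

/-- ray bound on `(0, 0.2]`: slope 0.29895 -/
theorem ray5 {p : ℝ} (h0 : 0 < p) (h2 : p ≤ (1/5)) :
    2 * JJ p - 1 * JJ p ^ 2 / (9 / (8 * Real.pi)) ≤ (5979/20000) * p := by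
  rcases le_total p (4/25) with h | h
  · have := ray4 h0 h
    linarith
  · have := line4 h h2
    linarith

/-- ray bound on `(0, 0.25]`: slope 0.35412 -/
theorem ray6 {p : ℝ} (h0 : 0 < p) (h2 : p ≤ (1/4)) :
    2 * JJ p - 1 * JJ p ^ 2 / (9 / (8 * Real.pi)) ≤ (8853/25000) * p := by
  rcases le_total p (1/5) with h | h
  · have := ray5 h0 h
    linarith
  · have := line5 h h2
    linarith

/-- `II² ≤ 1/(2π) < 0.15916` -/
theorem II_sq_le (p : ℝ) : II p ^ 2 ≤ 15916 / 100000 := by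
  have h1 : gpdf (PhiInv p) ≤ gpdf 0 := gpdf_le_of_abs_le (by simp)
  have h2 : gpdf 0 = cc := by rw [gpdf_eq_cc]; simp
  have h3 : II p ≤ cu := by unfold II; rw [h2] at h1; exact h1.trans le_cu
  have h4 : 0 ≤ II p := gpdf_nonneg _
  have h5 : II p ^ 2 ≤ (cu : ℝ) ^ 2 := pow_le_pow_left₀ h4 h3 2
  refine h5.trans ?_
  unfold cu; push_cast; norm_num

/-- the last chord for all `p ≥ 1/4` -/
theorem seg6 {p σ : ℝ} (h1 : (1/4 : ℝ) ≤ p) (h2 : p < 1) (hI : σ ≤ II p ^ 2)
    (hB : σ ≤ 2 * JJ p - 1 * JJ p ^ 2 / (9 / (8 * Real.pi))) :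
    σ ≤ (-49029/700000) + (111/175) * p := by
  rcases le_total p (121/400) with h | h
  · exact hB.trans (line6 h1 h)
  · exact hI.trans (line6_II h h2)

end Vale.Agent.P226.GNum
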