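import Mathlib
import Vale.Agent.P226.GLines

/-!
# P226: the majorants used in `Num5`
-/

namespace Vale.Agent.P226.GNum

open MeasureTheory ProbabilityTheory Set Filter Topology Finset
open Vale.Agent.P226.EhrPhi

theorem e0 {p : ℝ} (h0 : 0 < p) (h2 : p ≤ 4/100) :
    2 * JJ p - 1 * JJ p ^ 2 / (9 / (8 * Real.pi)) ≤ 0 + 7/100 * p := by
  have := line0 h0 (by linarith)
  linarith

theorem e1 {p : ℝ} (h1 : ((1/25) : ℝ) ≤ p) (h2 : p ≤ (2/25)) :
    2 * JJ p - 1 * JJ p ^ 2 / (9 / (8 * Real.pi)) ≤ (-103/20000) + (159/800) * p := by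
  have h := maj 1 (-103/20000) (159/800) (1/25) (2/25) (28101/20000) [30101/20000, 32101/20000, 34101/20000, 17507/10000] (by decide +kernel)
    (p := p) ⟨by linarith, by linarith⟩ (by push_cast; linarith) (by push_cast; linarith)
  push_cast at h
  linarith

theorem e2 {p : ℝ} (h1 : ((2/25) : ℝ) ≤ p) (h2 : p ≤ (4/25)) :
    2 * JJ p - 1 * JJ p ^ 2 / (9 / (8 * Real.pi)) ≤ (-23/1250) + (583/1600) * p := by
  have h := maj 1 (-23/1250) (583/1600) (2/25) (4/25) (19889/20000) [21889/20000, 23889/20000, 25889/20000, 27889/20000, 14051/10000] (by decide +kernel)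
    (p := p) ⟨by linarith, by linarith⟩ (by push_cast; linarith) (by push_cast; linarith)
  push_cast at h
  linarith

theorem e3 {p : ℝ} (h1 : ((4/25) : ℝ) ≤ p) (h2 : p ≤ (1/5)) :
    2 * JJ p - 1 * JJ p ^ 2 / (9 / (8 * Real.pi)) ≤ (-401/10000) + (1/2) * p := by
  have h := maj 1 (-401/10000) (1/2) (4/25) (1/5) (526/625) [2229/2500, 1177/1250, 1989/2000] (by decide +kernel)
    (p := p) ⟨by linarith, by linarith⟩ (by push_cast; linarith) (by push_cast; linarith)
  push_cast at h
  linarith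

theorem e4 {p : ℝ} (h1 : ((1/5) : ℝ) ≤ p) (h2 : p ≤ (1/4)) :
    2 * JJ p - 1 * JJ p ^ 2 / (9 / (8 * Real.pi)) ≤ (-549/10000) + (287/500) * p := by
  have h := maj 1 (-549/10000) (287/500) (1/5) (1/4) (13489/20000) [14489/20000, 15489/20000, 16833/20000] (by decide +kernel)
    (p := p) ⟨by linarith, by linarith⟩ (by push_cast; linarith) (by push_cast; linarith)
  push_cast at h
  linarith

theorem e5a {p : ℝ} (h1 : ((1/4) : ℝ) ≤ p) (h2 : p ≤ (121/400)) :
    2 * JJ p - 1 * JJ p ^ 2 / (9 / (8 * Real.pi)) ≤ (-699/10000) + (317/500) * p := by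
  have h := maj 1 (-699/10000) (317/500) (1/4) (121/400) (1293/2500) [1393/2500, 759/1250, 1643/2500, 1349/2000] (by decide +kernel)
    (p := p) ⟨by linarith, by linarith⟩ (by push_cast; linarith) (by push_cast; linarith)
  push_cast at h
  linarith

theorem e5b {p : ℝ} (h1 : ((121/400) : ℝ) ≤ p) (h2 : p < 1) :
    II p ^ 2 ≤ (-699/10000) + (317/500) * p := by
  have h := maj_II (-699/10000) (317/500) (121/400) (103/200) (by decide +kernel)
    (p := p) ⟨by linarith, h2⟩ (by push_cast; linarith)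
  push_cast at h
  linarith

theorem t0 {p : ℝ} (h1 : ((1/4) : ℝ) ≤ p) (h2 : p < 1) :
    II p ^ 2 ≤ (1303/100000) + (3603/10000) * p := by
  have h := maj_II (1303/100000) (3603/10000) (1/4) (25791/50000) (by decide +kernel)
    (p := p) ⟨by linarith, h2⟩ (by push_cast; linarith)
  push_cast at h
  linarith

theorem t1 {p : ℝ} (h1 : ((1/4) : ℝ) ≤ p) (h2 : p < 1) :
    II p ^ 2 ≤ (869/20000) + (1341/5000) * p := by
  have h := maj_II (869/20000) (1341/5000) (1/4) (8961/25000) (by decide +kernel)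
    (p := p) ⟨by linarith, h2⟩ (by push_cast; linarith)
  push_cast at h
  linarith

theorem t2 {p : ℝ} (h1 : ((1/4) : ℝ) ≤ p) (h2 : p < 1) :
    II p ^ 2 ≤ (1081/12500) + (79/500) * p := by
  have h := maj_II (1081/12500) (79/500) (1/4) (20211/100000) (by decide +kernel)
    (p := p) ⟨by linarith, h2⟩ (by push_cast; linarith)
  push_cast at h
  linarith

theorem t3 {p : ℝ} (h1 : ((1/4) : ℝ) ≤ p) (h2 : p < 1) :
    II p ^ 2 ≤ (3023/25000) + (797/10000) * p := by
  have h := maj_II (3023/25000) (797/10000) (1/4) (10039/100000) (by decide +kernel)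
    (p := p) ⟨by linarith, h2⟩ (by push_cast; linarith)
  push_cast at h
  linarith

theorem t4 (p : ℝ) : II p ^ 2 ≤ 15917/100000 + 0 * p := by
  have := II_sq_le p
  linarith

/-- `JJ` is small for `p ≤ 0.303` -/
theorem JJ_le_j {p : ℝ} (h0 : 0 < p) (h2 : p ≤ 303/1000) : JJ p ≤ 14/100 := by
  have h := maj_const 0 (28/100) (303/1000) (515/1000) (by decide +kernel)
    (p := p) ⟨h0, by linarith⟩ (by push_cast; linarith)
  push_cast at h
  simp only [zero_mul, zero_div, sub_zero] at h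
  linarith

end Vale.Agent.P226.GNum
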