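import Mathlib

/-!
# P226: the numerical part for at least five cells (pure real arithmetic)

`Maj s p` : the pair (squared length `s`, probability `p`) lies below the piecewise linear majorant.
-/

namespace Vale.Agent.P226.Num5

/-- piecewise linear majorant -/
structure Maj (s p : ℝ) : Prop where
  s0 : 0 ≤ s
  p0 : 0 ≤ p
  e0 : p ≤ 0.04 → s ≤ 0.07 * p
  e1 : 0.04 ≤ p → p ≤ 0.08 → s ≤ 0.19875 * p - 0.00515
  e2 : 0.08 ≤ p → p ≤ 0.16 → s ≤ 0.364375 * p - 0.0184
  e3 : 0.16 ≤ p → p ≤ 0.2 → s ≤ 0.5 * p - 0.0401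
  e4 : 0.2 ≤ p → p ≤ 0.25 → s ≤ 0.574 * p - 0.0549
  e5 : 0.25 ≤ p → p ≤ 0.303 → s ≤ 0.634 * p - 0.0699
  t0 : 0.25 ≤ p → s ≤ 0.3603 * p + 0.01303
  t1 : 0.25 ≤ p → s ≤ 0.2682 * p + 0.04345
  t2 : 0.25 ≤ p → s ≤ 0.158 * p + 0.08648
  t3 : 0.25 ≤ p → s ≤ 0.0797 * p + 0.12092
  t4 : 0.25 ≤ p → s ≤ 0.15917

namespace Maj

variable {s p : ℝ}

/-- case distinction over the intervals -/
lemma elim {P : Prop} (h : Maj s p)
    (h0 : p ≤ 0.04 → s ≤ 0.07 * p → P)
    (h1 : 0.04 ≤ p → p ≤ 0.08 → s ≤ 0.19875 * p - 0.00515 → P)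
    (h2 : 0.08 ≤ p → p ≤ 0.16 → s ≤ 0.364375 * p - 0.0184 → P)
    (h3 : 0.16 ≤ p → p ≤ 0.2 → s ≤ 0.5 * p - 0.0401 → P)
    (h4 : 0.2 ≤ p → p ≤ 0.25 → s ≤ 0.574 * p - 0.0549 → P)
    (h5 : 0.25 ≤ p → p ≤ 0.303 → s ≤ 0.634 * p - 0.0699 → P)
    (h6 : 0.303 ≤ p → s ≤ 0.3603 * p + 0.01303 → P) : P := by
  rcases le_total p 0.04 with c | c
  · exact h0 c (h.e0 c)
  rcases le_total p 0.08 with c2 | c2
  · exact h1 c c2 (h.e1 c c2)
  rcases le_total p 0.16 with c3 | c3
  · exact h2 c2 c3 (h.e2 c2 c3)
  rcases le_total p 0.2 with c4 | c4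
  · exact h3 c3 c4 (h.e3 c3 c4)
  rcases le_total p 0.25 with c5 | c5
  · exact h4 c4 c5 (h.e4 c4 c5)
  rcases le_total p 0.303 with c6 | c6
  · exact h5 c5 c6 (h.e5 c5 c6)
  · exact h6 c6 (h.t0 (by linarith))

lemma T0 (h : Maj s p) : s ≤ 0.3603 * p + 0.01303 := by
  have := h.p0
  rcases le_total p 0.25 with c | c
  · exact h.elim (by intros; linarith) (by intros; linarith) (by intros; linarith)
      (by intros; linarith) (by intros; linarith) (by intros; linarith) (by intros; linarith)
  · exact h.t0 c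

lemma T1 (h : Maj s p) : s ≤ 0.2682 * p + 0.04345 := by
  have := h.p0
  rcases le_total p 0.25 with c | c
  · exact h.elim (by intros; linarith) (by intros; linarith) (by intros; linarith)
      (by intros; linarith) (by intros; linarith) (by intros; linarith) (by intros; linarith)
  · exact h.t1 c

lemma T2 (h : Maj s p) : s ≤ 0.158 * p + 0.08648 := by
  have := h.p0
  rcases le_total p 0.25 with c | c
  · exact h.elim (by intros; linarith) (by intros; linarith) (by intros; linarith)
      (by intros; linarith) (by intros; linarith) (by intros; linarith) (by intros; linarith)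
  · exact h.t2 c

lemma T3 (h : Maj s p) : s ≤ 0.0797 * p + 0.12092 := by
  have := h.p0
  rcases le_total p 0.25 with c | c
  · exact h.elim (by intros; linarith) (by intros; linarith) (by intros; linarith)
      (by intros; linarith) (by intros; linarith) (by intros; linarith) (by intros; linarith)
  · exact h.t3 c

lemma R0 (h : Maj s p) : s ≤ 0.4034 * p := by
  have := h.p0
  exact h.elim (by intros; linarith) (by intros; linarith) (by intros; linarith)
      (by intros; linarith) (by intros; linarith) (by intros; linarith) (by intros; linarith)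

lemma R1 (h : Maj s p) (hs : 0.0028 ≤ s) : s ≤ 0.0028 + 0.4541 * (p - 0.04) := by
  have := h.p0
  exact h.elim (by intros; linarith) (by intros; linarith) (by intros; linarith)
      (by intros; linarith) (by intros; linarith) (by intros; linarith) (by intros; linarith)

lemma R2 (h : Maj s p) (hs : 0.01075 ≤ s) : s ≤ 0.01075 + 0.4999 * (p - 0.08) := by
  have := h.p0
  exact h.elim (by intros; linarith) (by intros; linarith) (by intros; linarith)
      (by intros; linarith) (by intros; linarith) (by intros; linarith) (by intros; linarith)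

lemma R3 (h : Maj s p) (hs : 0.0399 ≤ s) : s ≤ 0.0399 + 0.5756 * (p - 0.16) := by
  have := h.p0
  exact h.elim (by intros; linarith) (by intros; linarith) (by intros; linarith)
      (by intros; linarith) (by intros; linarith) (by intros; linarith) (by intros; linarith)

lemma R4 (h : Maj s p) (hs : 0.0599 ≤ s) : s ≤ 0.0599 + 0.605 * (p - 0.2) := by
  have := h.p0
  exact h.elim (by intros; linarith) (by intros; linarith) (by intros; linarith)
      (by intros; linarith) (by intros; linarith) (by intros; linarith) (by intros; linarith)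

lemma R5 (h : Maj s p) (hs : 0.0886 ≤ s) : s ≤ 0.0886 + 0.6342 * (p - 0.25) := by
  have := h.p0
  exact h.elim (by intros; linarith) (by intros; linarith) (by intros; linarith)
      (by intros; linarith) (by intros; linarith) (by intros; linarith) (by intros; linarith)

lemma E1 (h : Maj s p) (hs : 0.0028 ≤ s) (hs2 : s ≤ 0.01075) : s ≤ 0.19875 * p - 0.00515 := by
  have := h.p0
  exact h.elim (by intros; linarith) (by intros; linarith) (by intros; linarith)
      (by intros; linarith) (by intros; linarith) (by intros; linarith) (by intros; linarith)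

lemma O1 (h : Maj s p) (hs : s ≤ 0.0028) : s ≤ 0.07 * p := by
  have := h.p0
  exact h.elim (by intros; linarith) (by intros; linarith) (by intros; linarith)
      (by intros; linarith) (by intros; linarith) (by intros; linarith) (by intros; linarith)

lemma O2 (h : Maj s p) (hs : s ≤ 0.01075) : s ≤ 0.134375 * p := by
  have := h.p0
  exact h.elim (by intros; linarith) (by intros; linarith) (by intros; linarith)
      (by intros; linarith) (by intros; linarith) (by intros; linarith) (by intros; linarith)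

lemma O3 (h : Maj s p) (hs : s ≤ 0.0399) : s ≤ 0.249375 * p := by
  have := h.p0
  exact h.elim (by intros; linarith) (by intros; linarith) (by intros; linarith)
      (by intros; linarith) (by intros; linarith) (by intros; linarith) (by intros; linarith)

lemma O4 (h : Maj s p) (hs : s ≤ 0.0599) : s ≤ 0.2995 * p := by
  have := h.p0
  exact h.elim (by intros; linarith) (by intros; linarith) (by intros; linarith)
      (by intros; linarith) (by intros; linarith) (by intros; linarith) (by intros; linarith)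

end Maj

set_option linter.unusedSectionVars false

section core

variable {a b c d e q pa pb pc pd pe pq : ℝ}
  (ha : Maj a pa) (hb : Maj b pb) (hc : Maj c pc) (hd : Maj d pd) (he : Maj e pe)
  (hab : b ≤ a) (hbc : c ≤ b) (hcd : d ≤ c) (hde : e ≤ d)
  (hq0 : 0 ≤ q) (hpq0 : 0 ≤ pq)
  (Q7 : q ≤ 0.4034 * pq) (Q3 : e ≤ 0.0399 → q ≤ 0.249375 * pq)
  (Q2 : e ≤ 0.01075 → q ≤ 0.134375 * pq) (Q1 : e ≤ 0.0028 → q ≤ 0.07 * pq)
  (hp : pa + pb + pc + pd + pe + pq ≤ 1)
  (hF : 0.35809 ≤ a + b + c + d + e + q)
include ha hb hc hd he hab hbc hcd hde hq0 hpq0 Q7 Q3 Q2 Q1 hp hF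

theorem core_c : 5 / 9 * (d + e + q) + 10.4 * e + 0.26 * (a - b) ≤ c := by
  rcases le_total e 0.01075 with he2 | he2
  · have hQ := Q2 he2
    rcases le_total c 0.0399 with hc3 | hc3
    · linarith [ha.T1, hb.T1, hc.O3 hc3, hd.O3 (by linarith), he.R0]
    rcases le_total d 0.0599 with hd4 | hd4
    · rcases le_total e 0.0028 with he1 | he1
      · linarith [ha.T1, hb.R3 (by linarith), hc.R3 hc3, hd.O4 hd4, he.O1 he1, Q1 he1]
      · rcases le_total d 0.01075 with hd2 | hd2
        · linarith [ha.T0, hb.R3 (by linarith), hc.R3 hc3, hd.E1 (by linarith) hd2, he.E1 he1 he2]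
        · linarith [ha.T1, ha.R3 (by linarith), hb.T0, hb.R3 (by linarith), hc.R3 hc3, hd.R2 hd2,
            he.E1 he1 he2]
    · linarith [ha.T3, ha.R4 (by linarith), hb.R4 (by linarith), hc.R4 (by linarith), hd.R4 hd4,
        he.O2 he2]
  · linarith [ha.R2 (by linarith), hb.R2 (by linarith), hc.R2 (by linarith), hd.R2 (by linarith),
      he.R2 he2]

theorem core_b : d + e + q ≤ 0.09 := by
  rcases le_total d 0.0399 with hd3 | hd3
  · linarith [ha.R0, hb.R0, hc.R0, hd.O3 hd3, he.O3 (by linarith), Q3 (by linarith)]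
  rcases le_total e 0.0028 with he1 | he1
  · rcases le_total c 0.0886 with hc5 | hc5
    · linarith [ha.R3 (by linarith), hb.R3 (by linarith), hc.R3 (by linarith), hd.R3 hd3,
        he.O1 he1, Q1 he1]
    · linarith [ha.R5 (by linarith), hb.R5 (by linarith), hc.R5 hc5, hd.R3 hd3, he.R0, Q1 he1]
  · linarith [ha.R3 (by linarith), hb.R3 (by linarith), hc.R3 (by linarith), hd.R3 hd3,
      he.R1 he1]

theorem core_a : a - b ≤ 0.061 := by
  rcases le_total d 0.0399 with hd3 | hd3
  · rcases le_total c 0.0599 with hc4 | hc4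
    · linarith [ha.T2, ha.R0, hb.R0, hc.R0, hd.O3 hd3, he.O3 (by linarith), Q3 (by linarith)]
    · linarith [ha.T2, ha.T3, hb.R4 (by linarith), hc.R4 hc4, hd.O3 hd3, he.O3 (by linarith),
        Q3 (by linarith)]
  · linarith [ha.T1, ha.T0, hb.R3 (by linarith), hc.R3 (by linarith), hd.R3 hd3, he.R0, he.s0,
      he.p0]

end core

end Vale.Agent.P226.Num5
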