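import Vale.Agent.P226.NearK
import Vale.Agent.P226.Area5
import Vale.Agent.P226.Num5
import Vale.Agent.P226.GLines5
import Vale.Agent.P226.EhrFinal

/-!
# P226: no critical configuration with at least five cells
-/

open MeasureTheory Set ProbabilityTheory Filter Topology
open scoped RealInnerProductSpace
open Vale.Agent.P226.EhrPhi

namespace Vale.Agent.P226

namespace GP

open Near

noncomputable section

variable {E : Type*} [NormedAddCommGroup E] [InnerProductSpace ℝ E] [FiniteDimensional ℝ E]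
  [MeasurableSpace E] [BorelSpace E]

lemma CC_ge : (0.35809 : ℝ) ≤ CC := by
  unfold CC
  have h := Real.pi_lt_d6
  have h2 := Real.pi_pos
  rw [le_div_iff₀ (by positivity)]
  linarith

/-- the piecewise linear majorant holds for the cells of a critical configuration -/
theorem Crit.maj {m : ℕ} {z : Fin (m + 5) → E} (hz : Crit z) (i : Fin (m + 5)) :
    Num5.Maj (‖z i‖ ^ 2) (pc z i) := by
  have hp := hz.pc_mem i
  have hp0 := hp.1
  have hp1 := hp.2
  -- the two bounds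
  have hI : ‖z i‖ ^ 2 ≤ II (pc z i) ^ 2 := by
    have := hz.norm_le_II i
    have h0 := norm_nonneg (z i)
    exact pow_le_pow_left₀ h0 this 2
  have hk1 : 1 < kap (Fin (m + 5)) := one_lt_kap
  have hk2 : kap (Fin (m + 5)) ≤ 5 / 4 := by
    have := kap_le (ι := Fin (m + 5)) 5 (by norm_num) (by simp)
    norm_num at this
    exact this
  have hJ : pc z i ≤ 0.303 →
      ‖z i‖ ^ 2 ≤ 2 * JJ (pc z i) - 1 * JJ (pc z i) ^ 2 / (9 / (8 * Real.pi)) := by
    intro hle
    have h14 := GNum.JJ_le_j hp0 (by linarith)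
    have hJ0 : 0 ≤ JJ (pc z i) := by
      have h1 := hz.DD_le EhrM.ehr_bound i
      have h2 : 0 ≤ DD z i := integral_nonneg fun x => le_max_right _ _
      by_contra hneg
      push Not at hneg
      have : kap (Fin (m + 5)) * JJ (pc z i) < 0 := mul_neg_of_pos_of_neg kap_pos hneg
      linarith
    have hcc := CC_ge
    have h1 : kap (Fin (m + 5)) * JJ (pc z i) ≤ CC / 2 := by
      calc kap (Fin (m + 5)) * JJ (pc z i) ≤ 5 / 4 * (14 / 100) :=
            mul_le_mul hk2 h14 hJ0 (by norm_num)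
        _ ≤ CC / 2 := by linarith
    have h2 := hz.sq_le EhrM.ehr_bound i h1
    have h3 : 1 * JJ (pc z i) ^ 2 / CC ≤ kap (Fin (m + 5)) * JJ (pc z i) ^ 2 / CC := by
      apply div_le_div_of_nonneg_right _ CC_pos.le
      exact mul_le_mul_of_nonneg_right hk1.le (sq_nonneg _)
    have e : CC = 9 / (8 * Real.pi) := rfl
    rw [← e]
    linarith
  refine ⟨sq_nonneg _, hp0.le, ?_, ?_, ?_, ?_, ?_, ?_, ?_, ?_, ?_, ?_, ?_⟩
  · intro h
    have := GNum.e0 hp0 (by linarith)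
    linarith [hJ (by linarith)]
  · intro h1 h2
    have := GNum.e1 (p := pc z i) (by linarith) (by linarith)
    linarith [hJ (by linarith)]
  · intro h1 h2
    have := GNum.e2 (p := pc z i) (by linarith) (by linarith)
    linarith [hJ (by linarith)]
  · intro h1 h2
    have := GNum.e3 (p := pc z i) (by linarith) (by linarith)
    linarith [hJ (by linarith)]
  · intro h1 h2
    have := GNum.e4 (p := pc z i) (by linarith) (by linarith)
    linarith [hJ (by linarith)]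
  · intro h1 h2
    rcases le_total (pc z i) (121 / 400) with h3 | h3
    · have := GNum.e5a (p := pc z i) (by linarith) (by linarith)
      linarith [hJ (by linarith)]
    · have := GNum.e5b (p := pc z i) (by linarith) hp1
      linarith
  · intro h
    have := GNum.t0 (p := pc z i) (by linarith) hp1
    linarith
  · intro h
    have := GNum.t1 (p := pc z i) (by linarith) hp1
    linarith
  · intro h
    have := GNum.t2 (p := pc z i) (by linarith) hp1
    linarith
  · intro h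
    have := GNum.t3 (p := pc z i) (by linarith) hp1
    linarith
  · intro h
    have := GNum.t4 (pc z i)
    linarith

/-- the last numerical step -/
lemma fin_ineq {C a b c u s e K : ℝ} (hC : 0.35809 ≤ C) (hab : b ≤ a) (h1 : a - b ≤ 0.061)
    (h2 : u ≤ 0.09) (h3 : 5 / 9 * u + 10.4 * e + 0.26 * (a - b) ≤ c) (hs0 : 0 ≤ s)
    (hse : s ≤ e) (hS : a + b + c ≤ 0.4034) (hb : 0 ≤ b) (hc : 0 ≤ c) (hu : 0 ≤ u)
    (hK : (c - 5 / 9 * u) * (C - 4 / 3 * u) - (a - b) ^ 2 - 4 / 3 * (a + b + c) * s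
      - 4 / 9 * s ^ 2 ≤ K) : s ≤ 0.545 * K := by
  have t1 : 10.4 * s + 0.26 * (a - b) ≤ c - 5 / 9 * u := by linarith
  have t0 : 0 ≤ 10.4 * s + 0.26 * (a - b) := by linarith
  have t2 : 0.23809 ≤ C - 4 / 3 * u := by linarith
  have t3 : (10.4 * s + 0.26 * (a - b)) * 0.23809 ≤ (c - 5 / 9 * u) * (C - 4 / 3 * u) :=
    mul_le_mul t1 t2 (by norm_num) (by linarith)
  have t4 : (a - b) ^ 2 ≤ 0.061 * (a - b) := by nlinarith
  have t5 : (a + b + c) * s ≤ 0.4034 * s := mul_le_mul_of_nonneg_right hS hs0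
  have t6 : s ≤ 0.0388 := by linarith
  have t7 : s ^ 2 ≤ 0.0388 * s := by nlinarith
  linarith

theorem no_crit_five (m : ℕ) (h4 : PK E 4) (z : Fin (m + 5) → E) : ¬ Crit z := by
  intro hz
  -- sort the cells
  set π : Equiv.Perm (Fin (m + 5)) := Tuple.sort (fun i => -‖z i‖ ^ 2) with hπ
  have hmono : ∀ k l : Fin (m + 5), k ≤ l → ‖z (π l)‖ ^ 2 ≤ ‖z (π k)‖ ^ 2 := by
    intro k l hkl
    have := Tuple.monotone_sort (fun i => -‖z i‖ ^ 2) hkl
    simp only [Function.comp_apply] at this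
    linarith
  have split : ∀ f : Fin (m + 5) → ℝ, ∑ i, f i = f (π 0) + f (π 1) + f (π 2) + f (π 3) + f (π 4)
      + ∑ k : Fin m, f (π k.succ.succ.succ.succ.succ) := by
    intro f
    rw [← Equiv.sum_comp π f, Fin.sum_univ_succ, Fin.sum_univ_succ, Fin.sum_univ_succ,
      Fin.sum_univ_succ, Fin.sum_univ_succ]
    simp only [← add_assoc]
    rfl
  have M := fun i => hz.maj i
  set T : Fin 3 → Fin (m + 5) := ![π 0, π 1, π 2] with hT
  have hT0 : T 0 = π 0 := rfl
  have hT1 : T 1 = π 1 := rfl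
  have hT2 : T 2 = π 2 := rfl
  have v0 : ((0 : Fin (m + 5)) : ℕ) = 0 := rfl
  have v1 : ((1 : Fin (m + 5)) : ℕ) = 1 :=
    Nat.mod_eq_of_lt (show 1 < m + 5 by omega)
  have v2 : ((2 : Fin (m + 5)) : ℕ) = 2 :=
    Nat.mod_eq_of_lt (show 2 < m + 5 by omega)
  have v3 : ((3 : Fin (m + 5)) : ℕ) = 3 :=
    Nat.mod_eq_of_lt (show 3 < m + 5 by omega)
  have v4 : ((4 : Fin (m + 5)) : ℕ) = 4 :=
    Nat.mod_eq_of_lt (show 4 < m + 5 by omega)
  have hne : ∀ {k l : Fin (m + 5)}, (k : ℕ) ≠ (l : ℕ) → π k ≠ π l := fun h h' =>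
    h (congrArg Fin.val (π.injective h'))
  have hTinj : Function.Injective T := by
    have h01 : π 0 ≠ π 1 := hne (by omega)
    have h02 : π 0 ≠ π 2 := hne (by omega)
    have h12 : π 1 ≠ π 2 := hne (by omega)
    intro i j hij
    fin_cases i <;> fin_cases j <;> simp_all
  have o01 : (0 : Fin (m + 5)) ≤ 1 := by rw [Fin.le_def]; omega
  have o12 : (1 : Fin (m + 5)) ≤ 2 := by rw [Fin.le_def]; omega
  have o23 : (2 : Fin (m + 5)) ≤ 3 := by rw [Fin.le_def]; omega
  have o34 : (3 : Fin (m + 5)) ≤ 4 := by rw [Fin.le_def]; omega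
  -- abbreviations
  set a := ‖z (π 0)‖ ^ 2 with ha
  set b := ‖z (π 1)‖ ^ 2 with hb
  set c := ‖z (π 2)‖ ^ 2 with hc
  set d := ‖z (π 3)‖ ^ 2 with hd
  set e := ‖z (π 4)‖ ^ 2 with he
  set q := ∑ k : Fin m, ‖z (π k.succ.succ.succ.succ.succ)‖ ^ 2 with hq
  set pq := ∑ k : Fin m, pc z (π k.succ.succ.succ.succ.succ) with hpq
  have hsumσ : SQ z = a + b + c + d + e + q := split (fun i => ‖z i‖ ^ 2)
  have hsump : 1 = pc z (π 0) + pc z (π 1) + pc z (π 2) + pc z (π 3) + pc z (π 4) + pq := by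
    rw [← sum_pc hz.inj]
    exact split (fun i => pc z i)
  have hab : b ≤ a := hmono 0 1 o01
  have hbc : c ≤ b := hmono 1 2 o12
  have hcd : d ≤ c := hmono 2 3 o23
  have hde : e ≤ d := hmono 3 4 o34
  have hq0 : 0 ≤ q := Finset.sum_nonneg fun _ _ => sq_nonneg _
  have hpq0 : 0 ≤ pq := Finset.sum_nonneg fun _ _ => (M _).p0
  have hdust : ∀ k : Fin m, ‖z (π k.succ.succ.succ.succ.succ)‖ ^ 2 ≤ e := by
    intro k
    apply hmono
    rw [Fin.le_def, v4]
    simp only [Fin.val_succ]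
    omega
  have hQ : ∀ r : ℝ, (∀ k : Fin m, ‖z (π k.succ.succ.succ.succ.succ)‖ ^ 2
      ≤ r * pc z (π k.succ.succ.succ.succ.succ)) → q ≤ r * pq := by
    intro r h
    rw [hq, hpq, Finset.mul_sum]
    exact Finset.sum_le_sum fun k _ => h k
  have Q7 : q ≤ 0.4034 * pq := hQ _ fun k => (M _).R0
  have Q3 : e ≤ 0.0399 → q ≤ 0.249375 * pq := fun h => hQ _ fun k => (M _).O3 ((hdust k).trans h)
  have Q2 : e ≤ 0.01075 → q ≤ 0.134375 * pq := fun h => hQ _ fun k => (M _).O2 ((hdust k).trans h)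
  have Q1 : e ≤ 0.0028 → q ≤ 0.07 * pq := fun h => hQ _ fun k => (M _).O1 ((hdust k).trans h)
  have hF : 0.35809 ≤ a + b + c + d + e + q := by
    rw [← hsumσ]
    exact CC_ge.trans hz.gt.le
  have nc := Num5.core_c (M (π 0)) (M (π 1)) (M (π 2)) (M (π 3)) (M (π 4)) hab hbc hcd hde hq0
    hpq0 Q7 Q3 Q2 Q1 hsump.ge hF
  have nb := Num5.core_b (M (π 0)) (M (π 1)) (M (π 2)) (M (π 3)) (M (π 4)) hab hbc hcd hde hq0
    hpq0 Q7 Q3 Q2 Q1 hsump.ge hF
  have na := Num5.core_a (M (π 0)) (M (π 1)) (M (π 2)) (M (π 3)) (M (π 4)) hab hbc hcd hde hq0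
    hpq0 Q7 Q3 Q2 Q1 hsump.ge hF
  have he0 : 0 ≤ e := sq_nonneg _
  have hu : uU z T = d + e + q := by
    have h1 := sum_out hTinj (fun i => ‖z i‖ ^ 2)
    rw [Fin.sum_univ_three, hT0, hT1, hT2] at h1
    unfold uU
    have h2 : ∑ i, ‖z i‖ ^ 2 = a + b + c + d + e + q := hsumσ
    linarith
  have hS : a + b + c ≤ 0.4034 := by
    have h1 := (M (π 0)).R0
    have h2 := (M (π 1)).R0
    have h3 := (M (π 2)).R0
    have h4 := (M (π 3)).p0
    have h5 := (M (π 4)).p0
    linarith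
  have hi4 : π 3 ∈ out T := by
    rw [mem_out]
    have k0 : π 3 ≠ T 0 := hne (k := 3) (l := 0) (by omega)
    have k1 : π 3 ≠ T 1 := hne (k := 3) (l := 1) (by omega)
    have k2 : π 3 ≠ T 2 := hne (k := 3) (l := 2) (by omega)
    intro j
    fin_cases j
    exacts [k0, k1, k2]
  refine near5K hz h4 hTinj hi4 fun i hi hne4 => ?_
  -- the index of `i`
  obtain ⟨k, rfl⟩ := π.surjective i
  have hk : (4 : Fin (m + 5)) ≤ k := by
    rw [mem_out] at hi
    have n0 : k ≠ 0 := fun h => hi 0 (by rw [hT0, h])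
    have n1 : k ≠ 1 := fun h => hi 1 (by rw [hT1, h])
    have n2 : k ≠ 2 := fun h => hi 2 (by rw [hT2, h])
    have n3 : k ≠ 3 := fun h => hne4 (by rw [h])
    have w0 : (k : ℕ) ≠ 0 := fun h => n0 (Fin.ext (by rw [h, v0]))
    have w1 : (k : ℕ) ≠ 1 := fun h => n1 (Fin.ext (by rw [h, v1]))
    have w2 : (k : ℕ) ≠ 2 := fun h => n2 (Fin.ext (by rw [h, v2]))
    have w3 : (k : ℕ) ≠ 3 := fun h => n3 (Fin.ext (by rw [h, v3]))
    rw [Fin.le_def, v4]
    omega
  have hse : ‖z (π k)‖ ^ 2 ≤ e := hmono 4 k hk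
  have hs0 : 0 ≤ ‖z (π k)‖ ^ 2 := sq_nonneg _
  have hcc := CC_ge
  have hA := area5 hz hTinj (by rw [hT1, hT2]; exact hbc) (by rw [hT0, hT1]; exact hab)
    (by rw [hT2, hu]; linarith) (by rw [hu]; linarith) hi (Crit_ne_zero hz _)
  rw [hu, hT0, hT1, hT2] at hA
  exact fin_ineq hcc hab na nb (by linarith) hs0 hse hS (sq_nonneg _) (sq_nonneg _)
    (by linarith) hA

end

end GP

end Vale.Agent.P226
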