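import Vale.Agent.P226.K4Final
import Vale.Agent.P226.K5Final

/-!
# P226: final assembly
-/

open MeasureTheory Set ProbabilityTheory Filter Topology
open scoped RealInnerProductSpace

namespace Vale.Agent.P226

namespace GP

variable {E : Type*} [NormedAddCommGroup E] [InnerProductSpace ℝ E] [FiniteDimensional ℝ E]
  [MeasurableSpace E] [BorelSpace E]

/-- four vectors -/
theorem PK_four : PK E 4 := by
  have h : PK E (3 + 1) := by
    apply PK_of_fin
    intro z
    by_contra hc
    rw [not_le] at hc
    obtain ⟨y, hy⟩ := exists_crit (ι := Fin 4) (by rw [Fintype.card_fin]; exact PK_three) hc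
    exact no_crit_four y hy
  exact h

/-- the expected maximum inequality for every number of vectors -/
theorem PK_final (k : ℕ) : PK E (k + 1) := by
  apply PK_all
  intro m _ z
  match m, z with
  | 0, z => exact no_crit_four z
  | m + 1, z => exact no_crit_five m PK_four z

end GP

end Vale.Agent.P226
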