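import Vale.Agent.P226.Crit

/-!
# P226: the law of finitely many linear functionals only depends on the Gram matrix
-/

open MeasureTheory Set ProbabilityTheory
open scoped RealInnerProductSpace ENNReal

namespace Vale.Agent.P226

namespace GP

namespace Disc

noncomputable section

variable {E : Type*} [NormedAddCommGroup E] [InnerProductSpace ℝ E] [FiniteDimensional ℝ E]
  [MeasurableSpace E] [BorelSpace E]
variable {F : Type*} [NormedAddCommGroup F] [InnerProductSpace ℝ F] [FiniteDimensional ℝ F]
  [MeasurableSpace F] [BorelSpace F]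

lemma charFun_lin {ι : Type} [Fintype ι] (w : ι → E) (t : EuclideanSpace ℝ ι) :
    charFun ((stdGaussian E).map (fun x => (WithLp.toLp 2 (fun i => ⟪x, w i⟫) : EuclideanSpace ℝ ι))) t
      = Complex.exp (- ‖∑ i, t i • w i‖ ^ 2 / 2) := by
  rw [← charFun_stdGaussian, charFun_apply, charFun_apply, integral_map (by fun_prop) (by fun_prop)]
  congr 1
  ext x
  congr 3
  rw [inner_sum]
  simp only [inner_smul_right]
  rw [PiLp.inner_apply]
  simp

lemma gram_map {ι : Type} [Fintype ι] (w : ι → E) (w' : ι → F)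
    (h : ∀ i j, ⟪w i, w j⟫ = ⟪w' i, w' j⟫) :
    (stdGaussian E).map (fun x => (WithLp.toLp 2 (fun i => ⟪x, w i⟫) : EuclideanSpace ℝ ι))
      = (stdGaussian F).map (fun x => (WithLp.toLp 2 (fun i => ⟪x, w' i⟫) : EuclideanSpace ℝ ι)) := by
  haveI h1 : IsProbabilityMeasure ((stdGaussian E).map
      (fun x => (WithLp.toLp 2 (fun i => ⟪x, w i⟫) : EuclideanSpace ℝ ι))) :=
    Measure.isProbabilityMeasure_map (by fun_prop)
  haveI h2 : IsProbabilityMeasure ((stdGaussian F).map
      (fun x => (WithLp.toLp 2 (fun i => ⟪x, w' i⟫) : EuclideanSpace ℝ ι))) :=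
    Measure.isProbabilityMeasure_map (by fun_prop)
  apply Measure.ext_of_charFun
  ext t
  rw [charFun_lin, charFun_lin]
  have e : ‖∑ i, t i • w i‖ ^ 2 = ‖∑ i, t i • w' i‖ ^ 2 := by
    rw [← real_inner_self_eq_norm_sq, ← real_inner_self_eq_norm_sq]
    simp only [sum_inner, inner_sum, inner_smul_left, inner_smul_right, h]
  rw [← Complex.ofReal_pow, ← Complex.ofReal_pow, e]

end

end Disc

end GP

end Vale.Agent.P226
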