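import Vale.Agent.P226.Gram

open MeasureTheory Set ProbabilityTheory
open scoped RealInnerProductSpace ENNReal

namespace Vale.Agent.P226

namespace GP

namespace Disc

noncomputable section

variable {E : Type*} [NormedAddCommGroup E] [InnerProductSpace ℝ E] [FiniteDimensional ℝ E]
  [MeasurableSpace E] [BorelSpace E]

/-- the standard Gaussian measure on the line -/
abbrev g1 : Measure ℝ := gaussianReal 0 1

/-- integration over `Fin 3 → ℝ` in coordinates -/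
lemma lintegral_pi3 {f : ℝ × (ℝ × ℝ) → ℝ≥0∞} (hf : Measurable f) :
    ∫⁻ a : Fin 3 → ℝ, f (a 0, (a 1, a 2)) ∂(Measure.pi (fun _ => g1))
      = ∫⁻ t, ∫⁻ y, f (t, y) ∂(g1.prod g1) ∂g1 := by
  have h1 := measurePreserving_piFinSuccAbove (fun _ : Fin 3 => g1) 0
  have h2 : MeasurePreserving (MeasurableEquiv.finTwoArrow (α := ℝ)) (Measure.pi fun _ : Fin 2 => g1)
    (g1.prod g1) := measurePreserving_finTwoArrow g1
  have h3 : MeasurePreserving (Prod.map id (MeasurableEquiv.finTwoArrow (α := ℝ)))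
      (g1.prod (Measure.pi fun _ : Fin 2 => g1)) (g1.prod (g1.prod g1)) :=
    (MeasurePreserving.id g1).prod h2
  have h4 : MeasurePreserving (fun a : Fin 3 → ℝ => (a 0, (a 1, a 2)))
      (Measure.pi (fun _ => g1)) (g1.prod (g1.prod g1)) := by
    have := h3.comp h1
    exact this
  rw [← lintegral_prod _ hf.aemeasurable, ← h4.lintegral_comp hf]

lemma inner3 (a b : Fin 3 → ℝ) :
    ⟪(WithLp.toLp 2 a : EuclideanSpace ℝ (Fin 3)), WithLp.toLp 2 b⟫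
      = a 0 * b 0 + a 1 * b 1 + a 2 * b 2 := by
  rw [PiLp.inner_apply, Fin.sum_univ_three]
  simp
  ring

/-- three linear functionals in triangular coordinates -/
lemma lintegral_tri {w v1 v2 : E} {b β1 β2 r p q : ℝ}
    (hww : ‖w‖ ^ 2 = b ^ 2) (h1 : ⟪w, v1⟫ = b * β1) (h2 : ⟪w, v2⟫ = b * β2)
    (h11 : ‖v1‖ ^ 2 = β1 ^ 2 + r ^ 2) (h12 : ⟪v1, v2⟫ = β1 * β2 + r * p)
    (h22 : ‖v2‖ ^ 2 = β2 ^ 2 + p ^ 2 + q ^ 2)
    {f : ℝ × (ℝ × ℝ) → ℝ≥0∞} (hf : Measurable f) :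
    ∫⁻ x, f (⟪x, w⟫, (⟪x, v1⟫, ⟪x, v2⟫)) ∂(stdGaussian E)
      = ∫⁻ t, ∫⁻ y, f (b * t, (β1 * t + r * y.1, β2 * t + p * y.1 + q * y.2)) ∂(g1.prod g1) ∂g1 := by
  set W : Fin 3 → E := ![w, v1, v2] with hW
  set W' : Fin 3 → EuclideanSpace ℝ (Fin 3) :=
    ![WithLp.toLp 2 ![b, 0, 0], WithLp.toLp 2 ![β1, r, 0], WithLp.toLp 2 ![β2, p, q]] with hW'
  have hG : ∀ i j, ⟪W i, W j⟫ = ⟪W' i, W' j⟫ := by
    have e11 : ⟪w, w⟫ = b ^ 2 := by rw [real_inner_self_eq_norm_sq, hww]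
    have e22 : ⟪v1, v1⟫ = β1 ^ 2 + r ^ 2 := by rw [real_inner_self_eq_norm_sq, h11]
    have e33 : ⟪v2, v2⟫ = β2 ^ 2 + p ^ 2 + q ^ 2 := by rw [real_inner_self_eq_norm_sq, h22]
    have e21 : ⟪v1, w⟫ = b * β1 := by rw [real_inner_comm, h1]
    have e31 : ⟪v2, w⟫ = b * β2 := by rw [real_inner_comm, h2]
    have e32 : ⟪v2, v1⟫ = β1 * β2 + r * p := by rw [real_inner_comm, h12]
    intro i j
    fin_cases i <;> fin_cases j <;>
      simp [hW, hW', inner3, e11, e22, e33, e21, e31, e32, h1, h2, h12,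
        -inner_self_eq_norm_sq_to_K] <;> ring
  have hM := gram_map W W' hG
  set φ : EuclideanSpace ℝ (Fin 3) → ℝ≥0∞ := fun ξ => f (ξ 0, (ξ 1, ξ 2)) with hφ
  have hφm : Measurable φ := by
    apply hf.comp
    fun_prop
  have e1 : ∫⁻ x, f (⟪x, w⟫, (⟪x, v1⟫, ⟪x, v2⟫)) ∂(stdGaussian E)
      = ∫⁻ ξ, φ ξ ∂((stdGaussian E).map (fun x =>
        (WithLp.toLp 2 (fun i => ⟪x, W i⟫) : EuclideanSpace ℝ (Fin 3)))) := by
    rw [lintegral_map hφm (by fun_prop)]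
    simp [hφ, hW]
  rw [e1, hM, lintegral_map hφm (by fun_prop), ← map_pi_eq_stdGaussian,
    lintegral_map (by fun_prop) (by fun_prop)]
  rw [← lintegral_pi3 (f := fun x => f (b * x.1, (β1 * x.1 + r * x.2.1,
    β2 * x.1 + p * x.2.1 + q * x.2.2))) (by fun_prop)]
  apply lintegral_congr
  intro a
  simp only [hφ, hW']
  congr 1
  simp [PiLp.inner_apply, Fin.sum_univ_three]

end

end Disc

end GP

end Vale.Agent.P226
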