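import Vale.Agent.P226.GPhi

/-!
# P226: second order jets with cubic remainder, and Gaussian averaging
-/

noncomputable section

namespace Vale.Agent.P226.EhrPhi

open MeasureTheory ProbabilityTheory Set Filter Topology
open scoped NNReal

/-- second order jets with cubic remainder -/
structure Jet (B : ℝ) (u u1 u2 : ℝ → ℝ) : Prop where
  cont : Continuous u
  cont1 : Continuous u1
  cont2 : Continuous u2
  bd1 : ∀ x, |u1 x| ≤ B
  bd2 : ∀ x, |u2 x| ≤ B
  tay : ∀ x h, |u (x + h) - u x - u1 x * h - u2 x * h ^ 2 / 2| ≤ B * |h| ^ 3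

lemma Jet.nonneg {B : ℝ} {u u1 u2 : ℝ → ℝ} (h : Jet B u u1 u2) : 0 ≤ B :=
  (abs_nonneg _).trans (h.bd1 0)

lemma Jet.mono {B B' : ℝ} {u u1 u2 : ℝ → ℝ} (h : Jet B u u1 u2) (hB : B ≤ B') :
    Jet B' u u1 u2 where
  cont := h.cont
  cont1 := h.cont1
  cont2 := h.cont2
  bd1 x := (h.bd1 x).trans hB
  bd2 x := (h.bd2 x).trans hB
  tay x k := (h.tay x k).trans (mul_le_mul_of_nonneg_right hB (by positivity))

/-- Gaussian averaging with variance `s` -/
def gav (s : ℝ≥0) (u : ℝ → ℝ) (x : ℝ) : ℝ := ∫ y, u (x + y) ∂(gaussianReal 0 s)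

lemma integrable_of_cont_bdd {μ : Measure ℝ} [IsFiniteMeasure μ] {u : ℝ → ℝ} {K : ℝ}
    (hc : Continuous u) (hb : ∀ x, |u x| ≤ K) : Integrable u μ :=
  Integrable.of_bound hc.aestronglyMeasurable K (ae_of_all _ hb)

lemma integrable_shift {u : ℝ → ℝ} {K : ℝ} (hc : Continuous u) (hb : ∀ x, |u x| ≤ K)
    (s : ℝ≥0) (x : ℝ) : Integrable (fun y => u (x + y)) (gaussianReal 0 s) :=
  integrable_of_cont_bdd (K := K) (by fun_prop) (fun y => hb _)

lemma continuous_gav {u : ℝ → ℝ} {K : ℝ} (hc : Continuous u) (hb : ∀ x, |u x| ≤ K)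
    (s : ℝ≥0) : Continuous (gav s u) := by
  unfold gav
  apply continuous_of_dominated (bound := fun _ => K)
  · intro x
    exact (by fun_prop : Continuous fun y => u (x + y)).aestronglyMeasurable
  · intro x
    exact ae_of_all _ fun y => hb _
  · exact integrable_const _
  · exact ae_of_all _ fun y => by fun_prop

lemma abs_gav_le {u : ℝ → ℝ} {K : ℝ} (hb : ∀ x, |u x| ≤ K) (s : ℝ≥0) (x : ℝ) :
    |gav s u x| ≤ K := by
  unfold gav
  have := norm_integral_le_of_norm_le_const (μ := gaussianReal 0 s) (f := fun y => u (x + y))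
    (C := K) (ae_of_all _ fun y => hb _)
  simpa using this

lemma gav_mem_Icc {u : ℝ → ℝ} {m M : ℝ} (hc : Continuous u) (h : ∀ x, u x ∈ Icc m M) (s : ℝ≥0)
    (x : ℝ) : gav s u x ∈ Icc m M := by
  have hb : ∀ x, |u x| ≤ max |m| |M| := fun x => abs_le_max_abs_abs (h x).1 (h x).2
  have hint := integrable_shift hc hb s x
  constructor
  · have := integral_mono (μ := gaussianReal 0 s) (integrable_const m) hint (fun y => (h _).1)
    simpa [gav] using this
  · have := integral_mono (μ := gaussianReal 0 s) hint (integrable_const M) (fun y => (h _).2)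
    simpa [gav] using this

lemma Jet.gav_jet {B K : ℝ} {u u1 u2 : ℝ → ℝ} (h : Jet B u u1 u2) (hb : ∀ x, |u x| ≤ K) (s : ℝ≥0) :
    Jet B (gav s u) (gav s u1) (gav s u2) where
  cont := continuous_gav h.cont hb s
  cont1 := continuous_gav h.cont1 h.bd1 s
  cont2 := continuous_gav h.cont2 h.bd2 s
  bd1 := abs_gav_le h.bd1 s
  bd2 := abs_gav_le h.bd2 s
  tay x k := by
    have e : gav s u (x + k) - gav s u x - gav s u1 x * k - gav s u2 x * k ^ 2 / 2
        = ∫ y, (u (x + k + y) - u (x + y) - u1 (x + y) * k - u2 (x + y) * k ^ 2 / 2)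
          ∂(gaussianReal 0 s) := by
      have i0 := integrable_shift h.cont hb s (x + k)
      have i1 := integrable_shift h.cont hb s x
      have i2 := (integrable_shift h.cont1 h.bd1 s x).mul_const k
      have i3 := ((integrable_shift h.cont2 h.bd2 s x).mul_const (k ^ 2)).div_const 2
      have i01 : Integrable (fun y => u (x + k + y) - u (x + y)) (gaussianReal 0 s) := i0.sub i1
      have i012 : Integrable (fun y => u (x + k + y) - u (x + y) - u1 (x + y) * k)
        (gaussianReal 0 s) := i01.sub i2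
      rw [integral_sub i012 i3, integral_sub i01 i2, integral_sub i0 i1,
        integral_mul_const, integral_div, integral_mul_const]
      rfl
    rw [e]
    have := norm_integral_le_of_norm_le_const (μ := gaussianReal 0 s)
      (f := fun y => u (x + k + y) - u (x + y) - u1 (x + y) * k - u2 (x + y) * k ^ 2 / 2)
      (C := B * |k| ^ 3) (ae_of_all _ fun y => by
        have := h.tay (x + y) k
        rw [show x + y + k = x + k + y by ring] at this
        exact this)
    simpa using this

lemma gav_gav {u : ℝ → ℝ} {K : ℝ} (hc : Continuous u) (hb : ∀ x, |u x| ≤ K) (s t : ℝ≥0) :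
    gav s (gav t u) = gav (s + t) u := by
  funext x
  unfold gav
  have h := gaussianReal_conv_gaussianReal (m₁ := 0) (m₂ := 0) (v₁ := s) (v₂ := t)
  rw [add_zero] at h
  rw [← h, integral_conv]
  · simp only [add_assoc]
  · rw [h]
    exact integrable_shift hc hb _ x

lemma gav_zero (u : ℝ → ℝ) : gav 0 u = u := by
  funext x
  unfold gav
  rw [gaussianReal_zero_var, integral_dirac, add_zero]

lemma gav_iterate {u : ℝ → ℝ} {K : ℝ} (hc : Continuous u) (hb : ∀ x, |u x| ≤ K) (s : ℝ≥0) (n : ℕ) :
    (gav s)^[n] u = gav (n * s) u := by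
  induction n with
  | zero => simp [gav_zero]
  | succ n ih =>
    rw [Function.iterate_succ_apply', ih, gav_gav hc hb]
    congr 1
    push_cast
    ring

/-! ### moments -/

lemma integral_y (s : ℝ≥0) : ∫ y, y ∂(gaussianReal 0 s) = 0 := integral_id_gaussianReal

lemma integrable_y (s : ℝ≥0) : Integrable (fun y : ℝ => y) (gaussianReal 0 s) :=
  (memLp_id_gaussianReal (μ := 0) (v := s) 1).integrable (by norm_num)

lemma integrable_y2 (s : ℝ≥0) : Integrable (fun y : ℝ => y ^ 2) (gaussianReal 0 s) :=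
  (memLp_id_gaussianReal (μ := 0) (v := s) 2).integrable_sq

lemma integral_y2 (s : ℝ≥0) : ∫ y, y ^ 2 ∂(gaussianReal 0 s) = s := by
  have h := variance_eq_sub (memLp_id_gaussianReal (μ := 0) (v := s) 2)
  rw [variance_id_gaussianReal] at h
  simp only [id_eq, integral_y] at h
  simpa using h.symm

lemma integrable_abs3 (s : ℝ≥0) : Integrable (fun y : ℝ => |y| ^ 3) (gaussianReal 0 s) := by
  have := (memLp_id_gaussianReal (μ := 0) (v := s) 3).integrable_norm_pow (p := 3) (by norm_num)
  simpa using this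

/-- third absolute moment -/
def M3 : ℝ := ∫ y, |y| ^ 3 ∂(gaussianReal 0 1)

lemma M3_nonneg : 0 ≤ M3 := integral_nonneg fun y => by positivity

lemma map_sqrt_mul (s : ℝ≥0) : (gaussianReal 0 1).map (fun y => √(s : ℝ) * y) = gaussianReal 0 s := by
  have h := gaussianReal_map_const_mul (μ := 0) (v := 1) (√(s : ℝ))
  rw [mul_zero, mul_one] at h
  rw [h]
  congr 1
  ext
  simp

lemma integral_abs3 (s : ℝ≥0) : ∫ y, |y| ^ 3 ∂(gaussianReal 0 s) = √(s : ℝ) ^ 3 * M3 := by
  rw [← map_sqrt_mul s, integral_map (by fun_prop) (by fun_prop)]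
  unfold M3
  rw [← integral_const_mul]
  congr 1
  funext y
  rw [abs_mul, mul_pow, abs_of_nonneg (Real.sqrt_nonneg _)]

/-- second order expansion of the Gaussian average -/
lemma Jet.gav_taylor {B K : ℝ} {u u1 u2 : ℝ → ℝ} (h : Jet B u u1 u2) (hb : ∀ x, |u x| ≤ K)
    (s : ℝ≥0) (x : ℝ) : |gav s u x - u x - s / 2 * u2 x| ≤ B * M3 * √(s : ℝ) ^ 3 := by
  have i0 := integrable_shift h.cont hb s x
  have e : gav s u x - u x - s / 2 * u2 x
      = ∫ y, (u (x + y) - u x - u1 x * y - u2 x * y ^ 2 / 2) ∂(gaussianReal 0 s) := by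
    have i2 := (integrable_y s).const_mul (u1 x)
    have i3 := ((integrable_y2 s).const_mul (u2 x)).div_const 2
    have i01 : Integrable (fun y => u (x + y) - u x) (gaussianReal 0 s) :=
      i0.sub (integrable_const _)
    have i012 : Integrable (fun y => u (x + y) - u x - u1 x * y) (gaussianReal 0 s) := i01.sub i2
    rw [integral_sub i012 i3, integral_sub i01 i2, integral_sub i0 (integrable_const _),
      integral_const_mul, integral_div, integral_const_mul, integral_y, integral_y2]
    simp [gav]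
    ring
  rw [e]
  calc |∫ y, (u (x + y) - u x - u1 x * y - u2 x * y ^ 2 / 2) ∂(gaussianReal 0 s)|
      ≤ ∫ y, |u (x + y) - u x - u1 x * y - u2 x * y ^ 2 / 2| ∂(gaussianReal 0 s) :=
        abs_integral_le_integral_abs
    _ ≤ ∫ y, B * |y| ^ 3 ∂(gaussianReal 0 s) := by
        apply integral_mono_of_nonneg (ae_of_all _ fun y => abs_nonneg _)
          ((integrable_abs3 s).const_mul B) (ae_of_all _ fun y => h.tay x y)
    _ = B * M3 * √(s : ℝ) ^ 3 := by
        rw [integral_const_mul, integral_abs3]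
        ring

end Vale.Agent.P226.EhrPhi
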