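import Vale.Agent.P226.Jet

/-!
# P226: composition of jets with `Phi` and `PhiInv`, one step Taylor expansion
-/

noncomputable section

namespace Vale.Agent.P226.EhrPhi

open MeasureTheory ProbabilityTheory Set Filter Topology
open scoped NNReal

/-- cubic Taylor remainder on an interval from three derivatives -/
lemma taylor_of_deriv {a b D : ℝ} {f f1 f2 f3 : ℝ → ℝ}
    (h0 : ∀ x ∈ Icc a b, HasDerivAt f (f1 x) x) (h1 : ∀ x ∈ Icc a b, HasDerivAt f1 (f2 x) x)
    (h2 : ∀ x ∈ Icc a b, HasDerivAt f2 (f3 x) x) (h3 : ∀ x ∈ Icc a b, |f3 x| ≤ D)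
    {p q : ℝ} (hp : p ∈ Icc a b) (hq : q ∈ Icc a b) :
    |f q - f p - f1 p * (q - p) - f2 p * (q - p) ^ 2 / 2| ≤ D * |q - p| ^ 3 := by
  have hD : 0 ≤ D := (abs_nonneg _).trans (h3 p hp)
  have hsub : uIcc p q ⊆ Icc a b := (convex_Icc a b).ordConnected.uIcc_subset hp hq
  have hdist : ∀ x ∈ uIcc p q, |x - p| ≤ |q - p| := fun x hx => abs_sub_left_of_mem_uIcc hx
  have hcv : Convex ℝ (uIcc p q) := convex_uIcc p q
  have hpm : p ∈ uIcc p q := left_mem_uIcc
  have hqm : q ∈ uIcc p q := right_mem_uIcc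
  -- second derivative
  have A2 : ∀ x ∈ uIcc p q, |f2 x - f2 p| ≤ D * |x - p| := by
    intro x hx
    exact hcv.norm_image_sub_le_of_norm_hasDerivWithin_le (f := f2) (f' := f3)
      (fun y hy => (h2 y (hsub hy)).hasDerivWithinAt) (fun y hy => h3 y (hsub hy)) hpm hx
  have A1 : ∀ x ∈ uIcc p q, |f1 x - f1 p - f2 p * (x - p)| ≤ D * |q - p| ^ 2 := by
    intro x hx
    have hd : ∀ y ∈ uIcc p q, HasDerivWithinAt (fun y => f1 y - f1 p - f2 p * (y - p))
        (f2 y - f2 p) (uIcc p q) y := by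
      intro y hy
      have e1 := ((h1 y (hsub hy)).sub_const (f1 p)).sub
        (((hasDerivAt_id y).sub_const p).const_mul (f2 p))
      rw [mul_one] at e1
      exact e1.hasDerivWithinAt
    have := hcv.norm_image_sub_le_of_norm_hasDerivWithin_le (C := D * |q - p|) hd (fun y hy => by
      exact (A2 y hy).trans (mul_le_mul_of_nonneg_left (hdist y hy) hD)) hpm hx
    simp only [sub_self, mul_zero, sub_zero, Real.norm_eq_abs] at this
    refine this.trans ?_
    rw [sq, ← mul_assoc]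
    exact mul_le_mul_of_nonneg_left (hdist x hx) (by positivity)
  have hd : ∀ y ∈ uIcc p q,
      HasDerivWithinAt (fun y => f y - f p - f1 p * (y - p) - f2 p * (y - p) ^ 2 / 2)
        (f1 y - f1 p - f2 p * (y - p)) (uIcc p q) y := by
    intro y hy
    have e0 : HasDerivAt (fun y => (y - p) ^ 2) (2 * (y - p)) y := by
      have h := ((hasDerivAt_id y).sub_const p).pow 2
      simp only [Nat.cast_ofNat, id_eq, Nat.add_one_sub_one, pow_one, mul_one] at h
      exact h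
    have e1 := (((h0 y (hsub hy)).sub_const (f p)).sub
        (((hasDerivAt_id y).sub_const p).const_mul (f1 p))).sub
        ((e0.const_mul (f2 p)).div_const 2)
    have e2 : f1 y - f1 p * 1 - f2 p * (2 * (y - p)) / 2 = f1 y - f1 p - f2 p * (y - p) := by
      ring
    rw [e2] at e1
    exact e1.hasDerivWithinAt
  have := hcv.norm_image_sub_le_of_norm_hasDerivWithin_le (C := D * |q - p| ^ 2) hd A1 hpm hqm
  simp only [sub_self, mul_zero, sub_zero, Real.norm_eq_abs, ne_eq, OfNat.ofNat_ne_zero,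
    not_false_eq_true, zero_pow, zero_div] at this
  calc _ ≤ D * |q - p| ^ 2 * |q - p| := this
    _ = D * |q - p| ^ 3 := by ring

/-- jets of an outer function on an interval -/
structure JetOn (a b D : ℝ) (F F1 F2 : ℝ → ℝ) : Prop where
  cont : ContinuousOn F (Icc a b)
  cont1 : ContinuousOn F1 (Icc a b)
  cont2 : ContinuousOn F2 (Icc a b)
  bd1 : ∀ x ∈ Icc a b, |F1 x| ≤ D
  bd2 : ∀ x ∈ Icc a b, |F2 x| ≤ D
  tay : ∀ p ∈ Icc a b, ∀ q ∈ Icc a b,
    |F q - F p - F1 p * (q - p) - F2 p * (q - p) ^ 2 / 2| ≤ D * |q - p| ^ 3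

/-- constant of the composition lemma -/
def cmpC (L D B : ℝ) : ℝ := D * (27 * B ^ 3 + 5 * B ^ 2 + 4 * B + L + L ^ 2 + L ^ 3)

lemma abs_add3_le (a b c : ℝ) : |a + b + c| ≤ |a| + |b| + |c| :=
  (abs_add_le _ _).trans (add_le_add_left (abs_add_le _ _) _)

lemma JetOn.comp {a b D B : ℝ} {F F1 F2 u u1 u2 : ℝ → ℝ} (hF : JetOn a b D F F1 F2)
    (hu : Jet B u u1 u2) (hr : ∀ x, u x ∈ Icc a b) :
    Jet (cmpC (b - a) D B) (fun x => F (u x)) (fun x => F1 (u x) * u1 x)
      (fun x => F1 (u x) * u2 x + F2 (u x) * u1 x ^ 2) := by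
  have hB : 0 ≤ B := hu.nonneg
  have hD : 0 ≤ D := (abs_nonneg _).trans (hF.bd1 _ (hr 0))
  have hL : 0 ≤ b - a := by have := hr 0; linarith [this.1, this.2]
  have hC0 : D * B ≤ cmpC (b - a) D B := by
    unfold cmpC
    apply mul_le_mul_of_nonneg_left _ hD
    have h3 : 0 ≤ B ^ 3 := by positivity
    have h2 : 0 ≤ B ^ 2 := by positivity
    have h4 : 0 ≤ (b - a) ^ 2 := by positivity
    have h5 : 0 ≤ (b - a) ^ 3 := by positivity
    linarith
  have hC1 : D * B + D * B ^ 2 ≤ cmpC (b - a) D B := by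
    unfold cmpC
    rw [← mul_add]
    apply mul_le_mul_of_nonneg_left _ hD
    have h3 : 0 ≤ B ^ 3 := by positivity
    have h2 : 0 ≤ B ^ 2 := by positivity
    have h4 : 0 ≤ (b - a) ^ 2 := by positivity
    have h5 : 0 ≤ (b - a) ^ 3 := by positivity
    linarith
  have b1 : ∀ x, |F1 (u x) * u1 x| ≤ D * B := by
    intro x
    rw [abs_mul]
    exact mul_le_mul (hF.bd1 _ (hr x)) (hu.bd1 x) (abs_nonneg _) hD
  have b2 : ∀ x, |F1 (u x) * u2 x + F2 (u x) * u1 x ^ 2| ≤ D * B + D * B ^ 2 := by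
    intro x
    refine (abs_add_le _ _).trans (add_le_add ?_ ?_)
    · rw [abs_mul]
      exact mul_le_mul (hF.bd1 _ (hr x)) (hu.bd2 x) (abs_nonneg _) hD
    · rw [abs_mul, abs_pow]
      exact mul_le_mul (hF.bd2 _ (hr x)) (pow_le_pow_left₀ (abs_nonneg _) (hu.bd1 x) 2)
        (by positivity) hD
  refine ⟨?_, ?_, ?_, fun x => (b1 x).trans hC0, fun x => (b2 x).trans hC1, ?_⟩
  · exact hF.cont.comp_continuous hu.cont hr
  · exact (hF.cont1.comp_continuous hu.cont hr).mul hu.cont1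
  · exact ((hF.cont1.comp_continuous hu.cont hr).mul hu.cont2).add
      ((hF.cont2.comp_continuous hu.cont hr).mul (hu.cont1.pow 2))
  intro x h
  have ht := hF.tay (u x) (hr x) (u (x + h)) (hr (x + h))
  have hR := hu.tay x h
  set δ := u (x + h) - u x with hδ
  set R := δ - u1 x * h - u2 x * h ^ 2 / 2 with hRdef
  have hF1 := hF.bd1 _ (hr x)
  have hF2 := hF.bd2 _ (hr x)
  have hu1 := hu.bd1 x
  have hu2 := hu.bd2 x
  have hh : 0 ≤ |h| := abs_nonneg h
  rcases le_or_gt |h| 1 with hle | hgt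
  · -- small h
    have q2 : |h| ^ 2 ≤ |h| := by nlinarith
    have q3 : |h| ^ 3 ≤ |h| ^ 2 := by nlinarith [pow_nonneg hh 2]
    have hδ1 : |δ - u1 x * h| ≤ 2 * B * |h| ^ 2 := by
      have e : δ - u1 x * h = R + u2 x * h ^ 2 / 2 := by rw [hRdef]; ring
      rw [e]
      refine (abs_add_le _ _).trans ?_
      have e2 : |u2 x * h ^ 2 / 2| ≤ B * |h| ^ 2 / 2 := by
        rw [abs_div, abs_mul, abs_pow, abs_of_pos (two_pos : (0 : ℝ) < 2)]
        apply div_le_div_of_nonneg_right _ two_pos.le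
        exact mul_le_mul_of_nonneg_right hu2 (by positivity)
      have e3 : B * |h| ^ 3 ≤ B * |h| ^ 2 := mul_le_mul_of_nonneg_left q3 hB
      have e4 : 0 ≤ B * |h| ^ 2 := by positivity
      linarith
    have hu1h : |u1 x * h| ≤ B * |h| := by
      rw [abs_mul]; exact mul_le_mul_of_nonneg_right hu1 hh
    have hδ0 : |δ| ≤ 3 * B * |h| := by
      have e : δ = (δ - u1 x * h) + u1 x * h := by ring
      rw [e]
      refine (abs_add_le _ _).trans ?_
      have := mul_le_mul_of_nonneg_left q2 (by positivity : 0 ≤ 2 * B)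
      linarith
    have hsq : |δ ^ 2 - (u1 x * h) ^ 2| ≤ 8 * B ^ 2 * |h| ^ 3 := by
      have e : δ ^ 2 - (u1 x * h) ^ 2 = (δ - u1 x * h) * (δ + u1 x * h) := by ring
      rw [e, abs_mul]
      have e2 : |δ + u1 x * h| ≤ 4 * B * |h| := (abs_add_le _ _).trans (by linarith)
      calc |δ - u1 x * h| * |δ + u1 x * h| ≤ (2 * B * |h| ^ 2) * (4 * B * |h|) :=
            mul_le_mul hδ1 e2 (abs_nonneg _) (by positivity)
        _ = 8 * B ^ 2 * |h| ^ 3 := by ring
    have hδ3 : |δ| ^ 3 ≤ 27 * B ^ 3 * |h| ^ 3 := by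
      calc |δ| ^ 3 ≤ (3 * B * |h|) ^ 3 := pow_le_pow_left₀ (abs_nonneg _) hδ0 3
        _ = 27 * B ^ 3 * |h| ^ 3 := by ring
    have e : F (u (x + h)) - F (u x) - F1 (u x) * u1 x * h
        - (F1 (u x) * u2 x + F2 (u x) * u1 x ^ 2) * h ^ 2 / 2
        = (F (u (x + h)) - F (u x) - F1 (u x) * δ - F2 (u x) * δ ^ 2 / 2)
          + F1 (u x) * R + F2 (u x) * (δ ^ 2 - (u1 x * h) ^ 2) / 2 := by
      rw [hRdef]; ring
    rw [e]
    refine (abs_add3_le _ _ _).trans ?_
    have t1 : |F (u (x + h)) - F (u x) - F1 (u x) * δ - F2 (u x) * δ ^ 2 / 2|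
        ≤ D * (27 * B ^ 3 * |h| ^ 3) := ht.trans (mul_le_mul_of_nonneg_left hδ3 hD)
    have t2 : |F1 (u x) * R| ≤ D * (B * |h| ^ 3) := by
      rw [abs_mul]; exact mul_le_mul hF1 hR (abs_nonneg _) hD
    have t3 : |F2 (u x) * (δ ^ 2 - (u1 x * h) ^ 2) / 2| ≤ D * (8 * B ^ 2 * |h| ^ 3) / 2 := by
      rw [abs_div, abs_mul, abs_of_pos (two_pos : (0 : ℝ) < 2)]
      apply div_le_div_of_nonneg_right _ two_pos.le
      exact mul_le_mul hF2 hsq (abs_nonneg _) hD
    have h3 : 0 ≤ |h| ^ 3 := by positivity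
    have hcc : D * (27 * B ^ 3 + B + 4 * B ^ 2) ≤ cmpC (b - a) D B := by
      unfold cmpC
      apply mul_le_mul_of_nonneg_left _ hD
      have h2 : 0 ≤ B ^ 2 := by positivity
      have h4 : 0 ≤ (b - a) ^ 2 := by positivity
      have h5 : 0 ≤ (b - a) ^ 3 := by positivity
      linarith
    have := mul_le_mul_of_nonneg_right hcc h3
    linarith
  · -- large h
    have g1 : |h| ≤ |h| ^ 3 := by nlinarith [mul_pos (lt_trans one_pos hgt) (lt_trans one_pos hgt)]
    have g0 : 1 ≤ |h| ^ 3 := hgt.le.trans g1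
    have g2 : |h| ^ 2 ≤ |h| ^ 3 := by nlinarith [pow_nonneg hh 2]
    have hδL : |δ| ≤ b - a := by
      have h1 := hr x
      have h2 := hr (x + h)
      rw [hδ, abs_le]
      constructor <;> linarith [h1.1, h1.2, h2.1, h2.2]
    have t1 : |F (u (x + h)) - F (u x)| ≤ D * ((b - a) + (b - a) ^ 2 + (b - a) ^ 3) := by
      have e : F (u (x + h)) - F (u x) = (F (u (x + h)) - F (u x) - F1 (u x) * δ
          - F2 (u x) * δ ^ 2 / 2) + F1 (u x) * δ + F2 (u x) * δ ^ 2 / 2 := by ring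
      rw [e]
      refine (abs_add3_le _ _ _).trans ?_
      have s1 : |δ| ^ 3 ≤ (b - a) ^ 3 := pow_le_pow_left₀ (abs_nonneg _) hδL 3
      have s2 : |F1 (u x) * δ| ≤ D * (b - a) := by
        rw [abs_mul]; exact mul_le_mul hF1 hδL (abs_nonneg _) hD
      have s3 : |F2 (u x) * δ ^ 2 / 2| ≤ D * (b - a) ^ 2 / 2 := by
        rw [abs_div, abs_mul, abs_pow, abs_of_pos (two_pos : (0 : ℝ) < 2)]
        apply div_le_div_of_nonneg_right _ two_pos.le
        exact mul_le_mul hF2 (pow_le_pow_left₀ (abs_nonneg _) hδL 2) (by positivity) hD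
      have s4 := ht.trans (mul_le_mul_of_nonneg_left s1 hD)
      have s5 : 0 ≤ D * (b - a) ^ 2 := by positivity
      linarith
    have t2 : |F1 (u x) * u1 x * h| ≤ D * B * |h| ^ 3 := by
      rw [abs_mul]
      exact mul_le_mul (b1 x) g1 hh (by positivity)
    have t3 : |(F1 (u x) * u2 x + F2 (u x) * u1 x ^ 2) * h ^ 2 / 2|
        ≤ (D * B + D * B ^ 2) * |h| ^ 3 / 2 := by
      rw [abs_div, abs_mul, abs_pow, abs_of_pos (two_pos : (0 : ℝ) < 2)]
      apply div_le_div_of_nonneg_right _ two_pos.le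
      exact mul_le_mul (b2 x) g2 (by positivity) (by positivity)
    have e : F (u (x + h)) - F (u x) - F1 (u x) * u1 x * h
        - (F1 (u x) * u2 x + F2 (u x) * u1 x ^ 2) * h ^ 2 / 2
        = (F (u (x + h)) - F (u x)) + (-(F1 (u x) * u1 x * h))
          + (-((F1 (u x) * u2 x + F2 (u x) * u1 x ^ 2) * h ^ 2 / 2)) := by ring
    rw [e]
    refine (abs_add3_le _ _ _).trans ?_
    rw [abs_neg, abs_neg]
    have t1' : D * ((b - a) + (b - a) ^ 2 + (b - a) ^ 3)
        ≤ D * ((b - a) + (b - a) ^ 2 + (b - a) ^ 3) * |h| ^ 3 :=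
      le_mul_of_one_le_right (by positivity) g0
    have hcc : D * ((b - a) + (b - a) ^ 2 + (b - a) ^ 3) + D * B + (D * B + D * B ^ 2) / 2
        ≤ cmpC (b - a) D B := by
      unfold cmpC
      have h2 : 0 ≤ D * B ^ 2 := by positivity
      have h3 : 0 ≤ D * B ^ 3 := by positivity
      have h4 : 0 ≤ D * B := by positivity
      linarith
    have := mul_le_mul_of_nonneg_right hcc (by positivity : 0 ≤ |h| ^ 3)
    linarith

end Vale.Agent.P226.EhrPhi
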