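import Vale.Agent.P226.JetComp

/-!
# P226: the one step operator `TT s φ = Φ⁻¹ (E Φ (φ (x + √s N)))`
-/

noncomputable section

namespace Vale.Agent.P226.EhrPhi

open MeasureTheory ProbabilityTheory Set Filter Topology
open scoped NNReal

lemma hasDerivAt_gpdf1 (x : ℝ) :
    HasDerivAt (fun x => -x * gpdf x) ((x ^ 2 - 1) * gpdf x) x := by
  have h := (hasDerivAt_neg x).mul (hasDerivAt_gpdf x)
  have e : -1 * gpdf x + -x * (-x * gpdf x) = (x ^ 2 - 1) * gpdf x := by ring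
  rw [e] at h
  exact h

lemma jetOn_Phi {K : ℝ} (hK : 0 ≤ K) :
    JetOn (-K) K (K ^ 2 + K + 1) Phi gpdf (fun x => -x * gpdf x) := by
  have hb : ∀ x ∈ Icc (-K) K, |x| ≤ K := fun x hx => abs_le.mpr hx
  have g1 : ∀ x, |gpdf x| ≤ 1 := fun x => by
    rw [abs_of_pos (gpdf_pos x)]; exact gpdf_le_one x
  refine ⟨continuous_Phi.continuousOn, continuous_gpdf.continuousOn,
    (by fun_prop : Continuous fun x => -x * gpdf x).continuousOn, ?_, ?_, ?_⟩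
  · intro x _
    exact (g1 x).trans (by nlinarith)
  · intro x hx
    rw [abs_mul, abs_neg]
    calc |x| * |gpdf x| ≤ K * 1 := mul_le_mul (hb x hx) (g1 x) (abs_nonneg _) hK
      _ ≤ _ := by nlinarith
  · intro p hp q hq
    refine taylor_of_deriv (f3 := fun x => (x ^ 2 - 1) * gpdf x) (fun x _ => hasDerivAt_Phi x)
      (fun x _ => hasDerivAt_gpdf x) (fun x _ => hasDerivAt_gpdf1 x) ?_ hp hq
    intro x hx
    rw [abs_mul]
    have h1 : |x ^ 2 - 1| ≤ K ^ 2 + 1 := by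
      have := pow_le_pow_left₀ (abs_nonneg x) (hb x hx) 2
      rw [sq_abs] at this
      rw [abs_le]
      constructor <;> nlinarith [sq_nonneg x, sq_nonneg K]
    calc |x ^ 2 - 1| * |gpdf x| ≤ (K ^ 2 + 1) * 1 :=
          mul_le_mul h1 (g1 x) (abs_nonneg _) (by positivity)
      _ ≤ _ := by nlinarith

lemma Icc_Phi_subset (K : ℝ) : Icc (Phi (-K)) (Phi K) ⊆ Ioo (0 : ℝ) 1 := fun _ hp =>
  ⟨(Phi_pos _).trans_le hp.1, hp.2.trans_lt (Phi_lt_one _)⟩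

lemma abs_PhiInv_le {K p : ℝ} (hp : p ∈ Icc (Phi (-K)) (Phi K)) : |PhiInv p| ≤ K := by
  have h := Icc_Phi_subset K hp
  rw [abs_le]
  exact ⟨(le_PhiInv_iff h).mpr hp.1, (PhiInv_le_iff' h).mpr hp.2⟩

lemma Phi_mem_Icc {K x : ℝ} (hx : |x| ≤ K) : Phi x ∈ Icc (Phi (-K)) (Phi K) := by
  rw [abs_le] at hx
  exact ⟨strictMono_Phi.monotone hx.1, strictMono_Phi.monotone hx.2⟩

lemma inv_gpdf_PhiInv_le {K p : ℝ} (hp : p ∈ Icc (Phi (-K)) (Phi K)) :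
    (gpdf (PhiInv p))⁻¹ ≤ (gpdf K)⁻¹ := by
  apply inv_anti₀ (gpdf_pos K)
  apply gpdf_le_of_abs_le
  exact (abs_PhiInv_le hp).trans (le_abs_self K)

lemma hasDerivAt_PhiInv1 {p : ℝ} (hp : p ∈ Ioo (0 : ℝ) 1) :
    HasDerivAt (fun p => (gpdf (PhiInv p))⁻¹) (PhiInv p * (gpdf (PhiInv p))⁻¹ ^ 2) p := by
  have h := ((hasDerivAt_gpdf (PhiInv p)).comp p (hasDerivAt_PhiInv hp)).inv (gpdf_pos _).ne'
  have hg : gpdf (PhiInv p) ≠ 0 := (gpdf_pos _).ne'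
  have e : -(-PhiInv p * gpdf (PhiInv p) * (gpdf (PhiInv p))⁻¹) / (gpdf ∘ PhiInv) p ^ 2
      = PhiInv p * (gpdf (PhiInv p))⁻¹ ^ 2 := by
    simp only [Function.comp_apply]
    field_simp
  rw [e] at h
  exact h

lemma hasDerivAt_PhiInv2 {p : ℝ} (hp : p ∈ Ioo (0 : ℝ) 1) :
    HasDerivAt (fun p => PhiInv p * (gpdf (PhiInv p))⁻¹ ^ 2)
      ((1 + 2 * PhiInv p ^ 2) * (gpdf (PhiInv p))⁻¹ ^ 3) p := by
  have h := (hasDerivAt_PhiInv hp).mul ((hasDerivAt_PhiInv1 hp).pow 2)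
  have e : (gpdf (PhiInv p))⁻¹ * ((fun p => (gpdf (PhiInv p))⁻¹) ^ 2) p + PhiInv p *
      (((2 : ℕ) : ℝ) * (gpdf (PhiInv p))⁻¹ ^ (2 - 1) * (PhiInv p * (gpdf (PhiInv p))⁻¹ ^ 2))
      = (1 + 2 * PhiInv p ^ 2) * (gpdf (PhiInv p))⁻¹ ^ 3 := by
    simp only [Pi.pow_apply]
    push_cast
    ring
  rw [e] at h
  exact h

/-- constant for `PhiInv` -/
def invC (K : ℝ) : ℝ :=
  (gpdf K)⁻¹ + K * (gpdf K)⁻¹ ^ 2 + (1 + 2 * K ^ 2) * (gpdf K)⁻¹ ^ 3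

lemma jetOn_PhiInv {K : ℝ} (hK : 0 ≤ K) :
    JetOn (Phi (-K)) (Phi K) (invC K) PhiInv (fun p => (gpdf (PhiInv p))⁻¹)
      (fun p => PhiInv p * (gpdf (PhiInv p))⁻¹ ^ 2) := by
  have hg : 0 < (gpdf K)⁻¹ := inv_pos.mpr (gpdf_pos K)
  have p1 : 0 ≤ K * (gpdf K)⁻¹ ^ 2 := by positivity
  have p2 : 0 ≤ (1 + 2 * K ^ 2) * (gpdf K)⁻¹ ^ 3 := by positivity
  have hw : ∀ x ∈ Icc (Phi (-K)) (Phi K), |(gpdf (PhiInv x))⁻¹| ≤ (gpdf K)⁻¹ := by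
    intro x hx
    rw [abs_of_pos (inv_pos.mpr (gpdf_pos _))]
    exact inv_gpdf_PhiInv_le hx
  refine ⟨fun x hx => (hasDerivAt_PhiInv (Icc_Phi_subset K hx)).continuousAt.continuousWithinAt,
    fun x hx => (hasDerivAt_PhiInv1 (Icc_Phi_subset K hx)).continuousAt.continuousWithinAt,
    fun x hx => (hasDerivAt_PhiInv2 (Icc_Phi_subset K hx)).continuousAt.continuousWithinAt,
    ?_, ?_, ?_⟩
  · intro x hx
    refine (hw x hx).trans ?_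
    unfold invC
    linarith
  · intro x hx
    rw [abs_mul, abs_pow]
    have := mul_le_mul (abs_PhiInv_le hx) (pow_le_pow_left₀ (abs_nonneg _) (hw x hx) 2)
      (by positivity) hK
    unfold invC
    linarith
  · intro p hp q hq
    refine taylor_of_deriv (f3 := fun p => (1 + 2 * PhiInv p ^ 2) * (gpdf (PhiInv p))⁻¹ ^ 3)
      (fun x hx => hasDerivAt_PhiInv (Icc_Phi_subset K hx))
      (fun x hx => hasDerivAt_PhiInv1 (Icc_Phi_subset K hx))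
      (fun x hx => hasDerivAt_PhiInv2 (Icc_Phi_subset K hx)) ?_ hp hq
    intro x hx
    rw [abs_mul, abs_pow]
    have h1 : |1 + 2 * PhiInv x ^ 2| ≤ 1 + 2 * K ^ 2 := by
      rw [abs_of_nonneg (by positivity)]
      have := pow_le_pow_left₀ (abs_nonneg _) (abs_PhiInv_le hx) 2
      rw [sq_abs] at this
      linarith
    have := mul_le_mul h1 (pow_le_pow_left₀ (abs_nonneg _) (hw x hx) 3)
      (by positivity) (by positivity)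
    unfold invC
    linarith

/-- the one step operator -/
def TT (s : ℝ≥0) (φ : ℝ → ℝ) (x : ℝ) : ℝ := PhiInv (gav s (fun y => Phi (φ y)) x)

lemma gav_Phi_mem {K : ℝ} {φ : ℝ → ℝ} (hc : Continuous φ) (hb : ∀ x, |φ x| ≤ K) (s : ℝ≥0)
    (x : ℝ) : gav s (fun y => Phi (φ y)) x ∈ Icc (Phi (-K)) (Phi K) :=
  gav_mem_Icc (by fun_prop) (fun y => Phi_mem_Icc (hb y)) s x

lemma abs_Phi_le (x : ℝ) : |Phi x| ≤ 1 := by
  rw [abs_of_pos (Phi_pos x)]; exact (Phi_lt_one x).le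

lemma abs_TT_le {K : ℝ} {φ : ℝ → ℝ} (hc : Continuous φ) (hb : ∀ x, |φ x| ≤ K) (s : ℝ≥0) (x : ℝ) :
    |TT s φ x| ≤ K := abs_PhiInv_le (gav_Phi_mem hc hb s x)

lemma Phi_TT {K : ℝ} {φ : ℝ → ℝ} (hc : Continuous φ) (hb : ∀ x, |φ x| ≤ K) (s : ℝ≥0) (x : ℝ) :
    Phi (TT s φ x) = gav s (fun y => Phi (φ y)) x :=
  Phi_PhiInv (Icc_Phi_subset K (gav_Phi_mem hc hb s x))

lemma continuous_TT {K : ℝ} {φ : ℝ → ℝ} (hc : Continuous φ) (hb : ∀ x, |φ x| ≤ K) (s : ℝ≥0) :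
    Continuous (TT s φ) := by
  have hK : 0 ≤ K := (abs_nonneg _).trans (hb 0)
  exact (jetOn_PhiInv hK).cont.comp_continuous
    (continuous_gav (K := 1) (by fun_prop) (fun y => abs_Phi_le _) s) (gav_Phi_mem hc hb s)

lemma TT_TT {K : ℝ} {φ : ℝ → ℝ} (hc : Continuous φ) (hb : ∀ x, |φ x| ≤ K) (s t : ℝ≥0) :
    TT s (TT t φ) = TT (s + t) φ := by
  funext x
  have e : (fun y => Phi (TT t φ y)) = gav t (fun y => Phi (φ y)) :=
    funext fun y => Phi_TT hc hb t y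
  unfold TT at e ⊢
  rw [e, gav_gav (K := 1) (by fun_prop) (fun y => abs_Phi_le _)]

lemma TT_zero {φ : ℝ → ℝ} : TT 0 φ = φ := by
  funext x
  unfold TT
  rw [gav_zero, PhiInv_Phi]

/-- all averages of a function with a jet have jets with a uniform constant -/
theorem TT_jet (K B : ℝ) : ∃ B', 0 ≤ B' ∧ ∀ (s : ℝ≥0) (φ φ1 φ2 : ℝ → ℝ), Jet B φ φ1 φ2 →
    (∀ x, |φ x| ≤ K) → ∃ ψ1 ψ2, Jet B' (TT s φ) ψ1 ψ2 := by
  refine ⟨max 0 (cmpC (Phi K - Phi (-K)) (invC K) (cmpC (K - -K) (K ^ 2 + K + 1) B)),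
    le_max_left _ _, ?_⟩
  intro s φ φ1 φ2 hj hb
  have hK : 0 ≤ K := (abs_nonneg _).trans (hb 0)
  have j1 := (jetOn_Phi hK).comp hj (fun x => abs_le.mp (hb x))
  have j2 := j1.gav_jet (K := 1) (fun x => abs_Phi_le _) s
  have j3 := (jetOn_PhiInv hK).comp j2 (gav_Phi_mem hj.cont hb s)
  exact ⟨_, _, j3.mono (le_max_right _ _)⟩

/-- second order expansion of the one step operator -/
theorem TT_taylor (K B : ℝ) : ∃ C, 0 ≤ C ∧ ∀ (s : ℝ≥0), s ≤ 1 → ∀ (φ φ1 φ2 : ℝ → ℝ),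
    Jet B φ φ1 φ2 → (∀ x, |φ x| ≤ K) → ∀ x,
    |TT s φ x - φ x - s / 2 * (φ2 x - φ x * φ1 x ^ 2)| ≤ C * s * √(s : ℝ) := by
  set B1 := cmpC (K - -K) (K ^ 2 + K + 1) B with hB1
  set D := invC K with hD
  -- δ = gav - u ; |δ| ≤ (B1/2 + B1 M3) s
  set A := B1 * (1 + M3) with hA
  refine ⟨max 0 (D * (B1 * M3) + D * A ^ 2 + D * A ^ 3), le_max_left _ _, ?_⟩
  intro s hs φ φ1 φ2 hj hb x
  have hK : 0 ≤ K := (abs_nonneg _).trans (hb 0)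
  have j1 := (jetOn_Phi hK).comp hj (fun x => abs_le.mp (hb x))
  rw [← hB1] at j1
  have hB1n : 0 ≤ B1 := j1.nonneg
  have ht := j1.gav_taylor (K := 1) (fun x => abs_Phi_le _) s x
  have hJ := jetOn_PhiInv hK
  rw [← hD] at hJ
  have hu : Phi (φ x) ∈ Icc (Phi (-K)) (Phi K) := Phi_mem_Icc (hb x)
  have hg := gav_Phi_mem hj.cont hb s x
  have hDn : 0 ≤ D := (abs_nonneg _).trans (hJ.bd1 _ hu)
  have hI := hJ.tay _ hu _ hg
  have hI1 := hJ.bd1 _ hu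
  have hI2 := hJ.bd2 _ hu
  set δ := gav s (fun y => Phi (φ y)) x - Phi (φ x) with hδ
  set σ := √(s : ℝ) with hσ
  have hσ0 : 0 ≤ σ := Real.sqrt_nonneg _
  have hσ2 : σ ^ 2 = s := Real.sq_sqrt s.2
  have hs1 : (s : ℝ) ≤ 1 := by exact_mod_cast hs
  have hσ1 : σ ≤ 1 := by
    rw [hσ]; exact Real.sqrt_le_one.mpr hs1
  have hM := M3_nonneg
  set U2 := gpdf (φ x) * φ2 x + -φ x * gpdf (φ x) * φ1 x ^ 2 with hU2
  have hU2b : |U2| ≤ B1 := j1.bd2 x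
  set R := δ - s / 2 * U2 with hR
  have hRb : |R| ≤ B1 * M3 * σ ^ 3 := ht
  have hδb : |δ| ≤ A * σ ^ 2 := by
    have e : δ = R + s / 2 * U2 := by rw [hR]; ring
    rw [e]
    refine (abs_add_le _ _).trans ?_
    have e1 : |(s : ℝ) / 2 * U2| ≤ σ ^ 2 / 2 * B1 := by
      rw [abs_mul, abs_of_nonneg (by positivity), hσ2]
      exact mul_le_mul_of_nonneg_left hU2b (by positivity)
    have e2 : B1 * M3 * σ ^ 3 ≤ B1 * M3 * σ ^ 2 :=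
      mul_le_mul_of_nonneg_left (pow_le_pow_of_le_one hσ0 hσ1 (by norm_num)) (by positivity)
    have e3 : 0 ≤ σ ^ 2 * B1 := by positivity
    rw [hA]
    nlinarith
  have hA0 : 0 ≤ A := by positivity
  simp only [PhiInv_Phi] at hI hI1 hI2
  have hgp := gpdf_pos (φ x)
  have e : TT s φ x - φ x - s / 2 * (φ2 x - φ x * φ1 x ^ 2)
      = (TT s φ x - φ x - (gpdf (φ x))⁻¹ * δ - φ x * (gpdf (φ x))⁻¹ ^ 2 * δ ^ 2 / 2)
        + (gpdf (φ x))⁻¹ * R + φ x * (gpdf (φ x))⁻¹ ^ 2 * δ ^ 2 / 2 := by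
    rw [hR, hU2]
    field_simp
    ring
  rw [e]
  refine (abs_add3_le _ _ _).trans ?_
  have t1 : |TT s φ x - φ x - (gpdf (φ x))⁻¹ * δ - φ x * (gpdf (φ x))⁻¹ ^ 2 * δ ^ 2 / 2|
      ≤ D * A ^ 3 * σ ^ 3 := by
    refine hI.trans ?_
    rw [mul_assoc]
    apply mul_le_mul_of_nonneg_left _ hDn
    calc |δ| ^ 3 ≤ (A * σ ^ 2) ^ 3 := pow_le_pow_left₀ (abs_nonneg _) hδb 3
      _ = A ^ 3 * σ ^ 6 := by ring
      _ ≤ A ^ 3 * σ ^ 3 :=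
        mul_le_mul_of_nonneg_left (pow_le_pow_of_le_one hσ0 hσ1 (by norm_num)) (by positivity)
  have t2 : |(gpdf (φ x))⁻¹ * R| ≤ D * (B1 * M3) * σ ^ 3 := by
    rw [abs_mul, mul_assoc]
    exact mul_le_mul hI1 hRb (abs_nonneg _) hDn
  have t3 : |φ x * (gpdf (φ x))⁻¹ ^ 2 * δ ^ 2 / 2| ≤ D * A ^ 2 * σ ^ 3 := by
    rw [abs_div, abs_mul, abs_of_pos (two_pos : (0 : ℝ) < 2), abs_pow]
    have e1 : |δ| ^ 2 ≤ A ^ 2 * σ ^ 3 := by
      calc |δ| ^ 2 ≤ (A * σ ^ 2) ^ 2 := pow_le_pow_left₀ (abs_nonneg _) hδb 2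
        _ = A ^ 2 * σ ^ 4 := by ring
        _ ≤ A ^ 2 * σ ^ 3 :=
          mul_le_mul_of_nonneg_left (pow_le_pow_of_le_one hσ0 hσ1 (by norm_num)) (by positivity)
    have e2 : |φ x * (gpdf (φ x))⁻¹ ^ 2| * |δ| ^ 2 ≤ D * (A ^ 2 * σ ^ 3) :=
      mul_le_mul hI2 e1 (by positivity) hDn
    have e3 : 0 ≤ |φ x * (gpdf (φ x))⁻¹ ^ 2| * |δ| ^ 2 := by positivity
    calc |φ x * (gpdf (φ x))⁻¹ ^ 2| * |δ| ^ 2 / 2 ≤ |φ x * (gpdf (φ x))⁻¹ ^ 2| * |δ| ^ 2 := by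
          linarith
      _ ≤ _ := by linarith
  have hfin : (D * (B1 * M3) + D * A ^ 2 + D * A ^ 3) * σ ^ 3
      ≤ max 0 (D * (B1 * M3) + D * A ^ 2 + D * A ^ 3) * s * σ := by
    rw [← hσ2]
    have e3 : 0 ≤ σ ^ 3 := by positivity
    have := mul_le_mul_of_nonneg_right
      (le_max_right 0 (D * (B1 * M3) + D * A ^ 2 + D * A ^ 3)) e3
    calc _ ≤ _ := this
      _ = _ := by ring
  linarith

end Vale.Agent.P226.EhrPhi
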