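import Vale.Agent.P226.K4Edge

/-!
# P226: four vectors, the facet opposite to a small cell is nearly regular
-/

open MeasureTheory Set ProbabilityTheory
open scoped RealInnerProductSpace

namespace Vale.Agent.P226

namespace GP

set_option linter.unusedSectionVars false

noncomputable section

lemma CC_gt : (0.358098 : ℝ) < CC := by
  have h1 := Real.pi_lt_d6
  have h2 := Real.pi_pos
  unfold CC
  rw [lt_div_iff₀ (by positivity)]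
  linarith

lemma CC_lt : CC < (0.3581 : ℝ) := by
  have h1 := Real.pi_gt_d6
  have h2 := Real.pi_pos
  unfold CC
  rw [div_lt_iff₀ (by positivity)]
  linarith

lemma u_prod {u v w M : ℝ} (h : u + v + w = 0) (hu : u ≤ M) (hv : v ≤ M) (hw : w ≤ M) :
    6 * (u * v * w) ≤ M * (u ^ 2 + v ^ 2 + w ^ 2) := by
  have hM : 0 ≤ M := by linarith
  have key : ∀ a b c : ℝ, a + b + c = 0 → a ≤ M → 0 ≤ a →
      6 * (a * b * c) ≤ M * (a ^ 2 + b ^ 2 + c ^ 2) := by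
    intro a b c h ha h0
    have e1 : a * b * c ≤ a ^ 3 / 4 := by
      have : c = -a - b := by linarith
      rw [this]
      nlinarith [mul_nonneg h0 (sq_nonneg (a + 2 * b))]
    have e2 : 3 / 2 * a ^ 2 ≤ a ^ 2 + b ^ 2 + c ^ 2 := by
      have : a = -b - c := by linarith
      rw [this]
      nlinarith [sq_nonneg (b - c)]
    nlinarith [mul_nonneg (sq_nonneg a) (sub_nonneg.mpr ha), mul_le_mul_of_nonneg_left e2 hM]
  rcases le_total 0 u with h1 | h1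
  · exact key u v w h hu h1
  rcases le_total 0 v with h2 | h2
  · have := key v w u (by linarith) hv h2
    nlinarith
  · have := key w u v (by linarith) hw (by linarith)
    nlinarith

/-- Heron with a control of the differences of the sides -/
lemma heron_lb {a b c V : ℝ} (hP : 1.745 ≤ a + b + c)
    (hV : V = (a - b) ^ 2 + (b - c) ^ 2 + (a - c) ^ 2) (hV1 : V ≤ 0.178) :
    0.3434 - 0.84 * V ≤ (a ^ 2 + b ^ 2 + c ^ 2) ^ 2 - 2 * (a ^ 4 + b ^ 4 + c ^ 4) := by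
  set P := a + b + c with hPdef
  set u := a - P / 3 with hu
  set v := b - P / 3 with hv
  set w := c - P / 3 with hw
  have h0 : u + v + w = 0 := by rw [hu, hv, hw, hPdef]; ring
  have hV2 : V = 3 * (u ^ 2 + v ^ 2 + w ^ 2) := by
    rw [hV, hu, hv, hw, hPdef]; ring
  have hV0 : 0 ≤ V := by rw [hV2]; positivity
  have b1 : ∀ x y t : ℝ, x + y + t = 0 → V = 3 * (x ^ 2 + y ^ 2 + t ^ 2) → x ≤ 0.199 := by
    intro x y t h1 h2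
    have e : x ^ 2 ≤ 0.0396 := by
      have : t = -x - y := by linarith
      rw [this] at h2
      nlinarith [sq_nonneg (x + 2 * y)]
    nlinarith
  have hu1 := b1 u v w h0 hV2
  have hv1 := b1 v w u (by linarith) (by linarith)
  have hw1 := b1 w u v (by linarith) (by linarith)
  have hp := u_prod h0 hu1 hv1 hw1
  have hp2 : u * v * w ≤ 0.199 / 18 * V := by rw [hV2]; linarith
  have hH : (a ^ 2 + b ^ 2 + c ^ 2) ^ 2 - 2 * (a ^ 4 + b ^ 4 + c ^ 4)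
      = P * (P ^ 3 / 27 - 2 / 9 * P * V - 8 * (u * v * w)) := by
    rw [hV, hu, hv, hw, hPdef]; ring
  rw [hH]
  have g1 : P ^ 3 / 27 - 2 / 9 * P * V - 8 * (0.199 / 18 * V)
      ≤ P ^ 3 / 27 - 2 / 9 * P * V - 8 * (u * v * w) := by linarith
  have g2 : 1.745 ^ 3 / 27 - 2 / 9 * 1.745 * V - 8 * (0.199 / 18 * V)
      ≤ P ^ 3 / 27 - 2 / 9 * P * V - 8 * (0.199 / 18 * V) := by
    have e0 : 0 ≤ P := by linarith
    have e1 : 0 ≤ (P ^ 2 + P * 1.745 + 1.745 ^ 2) / 27 - 2 / 9 * V := by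
      have e2 : 0 ≤ P ^ 2 := sq_nonneg P
      linarith
    have e3 := mul_nonneg (sub_nonneg.mpr hP) e1
    linarith
  have g3 : 0 ≤ 1.745 ^ 3 / 27 - 2 / 9 * 1.745 * V - 8 * (0.199 / 18 * V) := by
    linarith
  calc 0.3434 - 0.84 * V
      ≤ 1.745 * (1.745 ^ 3 / 27 - 2 / 9 * 1.745 * V - 8 * (0.199 / 18 * V)) := by linarith
    _ ≤ P * (1.745 ^ 3 / 27 - 2 / 9 * 1.745 * V - 8 * (0.199 / 18 * V)) :=
        mul_le_mul_of_nonneg_right hP g3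
    _ ≤ P * (P ^ 3 / 27 - 2 / 9 * P * V - 8 * (u * v * w)) :=
        mul_le_mul_of_nonneg_left (g2.trans g1) (by linarith)

/-- numbers: perimeter, differences and the size of the small vector -/
lemma area_num {a b c F σ D k : ℝ} (hk : k ^ 2 = CC / 9) (hk0 : 0 < k) (hF : CC < F)
    (hσ : 0 ≤ σ) (hX : a ^ 2 + b ^ 2 + c ^ 2 = 3 * F - 4 * σ) (hD : D = F - k * (a + b + c))
    (hD1 : D ≤ 0.00983) :
    F ≤ 0.378 ∧ σ ≤ 0.01456 ∧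
      0.1965 + 10 * σ ≤ (a ^ 2 + b ^ 2 + c ^ 2) ^ 2 - 2 * (a ^ 4 + b ^ 4 + c ^ 4) := by
  have c1 := CC_gt
  have c2 := CC_lt
  set V := (a - b) ^ 2 + (b - c) ^ 2 + (a - c) ^ 2 with hV
  have hV0 : 0 ≤ V := by positivity
  have hPV : (a + b + c) ^ 2 = 3 * (3 * F - 4 * σ) - V := by rw [← hX, hV]; ring
  have h1 : (F - D) ^ 2 = CC / 9 * (a + b + c) ^ 2 := by
    rw [← hk, hD]; ring
  have h2 : (F - D) ^ 2 = CC * F - 4 / 3 * CC * σ - CC / 9 * V := by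
    rw [h1, hPV]; ring
  have h3 : (F - 0.00983) ^ 2 ≤ (F - D) ^ 2 := by
    apply pow_le_pow_left₀ (by linarith)
    linarith
  have h4 : (F - 0.00983) ^ 2 + 4 / 3 * CC * σ + CC / 9 * V ≤ CC * F := by linarith
  have hC0 := CC_pos
  have h5 : 0 ≤ 4 / 3 * CC * σ := by positivity
  have h6 : 0 ≤ CC / 9 * V := by positivity
  have hF1 : F ≤ 0.378 := by
    by_contra hc
    rw [not_le] at hc
    have f1 : CC * F ≤ 0.3581 * F := mul_le_mul_of_nonneg_right c2.le (by linarith)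
    have f2 : 0 ≤ F * (F - 0.378) := mul_nonneg (by linarith) (by linarith)
    have f3 : (F - 0.00983) ^ 2 = F * (F - 0.378) + 0.35834 * F + 0.00983 ^ 2 := by ring
    linarith
  have h7 : (CC - 0.00983) ^ 2 + 4 / 3 * CC * σ + CC / 9 * V ≤ CC * CC := by
    have f1 := mul_nonneg (sub_nonneg.mpr hF.le) (by linarith : 0 ≤ F - 2 * 0.00983)
    linarith
  have h8 : 4 / 3 * σ + V / 9 ≤ 0.0194 := by
    have : CC * (4 / 3 * σ + V / 9) ≤ CC * 0.0194 := by linarith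
    exact le_of_mul_le_mul_left this hC0
  have h9 : V ≤ 0.1746 - 12 * σ := by linarith
  have hσ1 : σ ≤ 0.01456 := by linarith
  refine ⟨hF1, hσ1, ?_⟩
  have hP : 1.745 ≤ a + b + c := by
    have e1 : 0 < a + b + c := by
      have : 0 < k * (a + b + c) := by linarith
      exact (pos_iff_pos_of_mul_pos this).mp hk0
    have e2 : 1.745 ^ 2 ≤ (a + b + c) ^ 2 := by
      have e3 : (0.358098 - 0.00983) ^ 2 ≤ (F - D) ^ 2 := by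
        apply pow_le_pow_left₀ (by norm_num)
        linarith
      rw [h1] at e3
      have e4 : CC / 9 * 1.745 ^ 2 ≤ CC / 9 * (a + b + c) ^ 2 := by
        linarith
      exact le_of_mul_le_mul_left e4 (by positivity)
    exact abs_le_of_sq_le_sq' e2 e1.le |>.2
  have h10 := heron_lb hP hV (by linarith)
  linarith

lemma area_key (y₁ y₂ y₃ β₁ β₂ σ : ℝ) :
    4 * (y₁ - β₁ ^ 2 * σ) * (y₂ - β₂ ^ 2 * σ)
      - ((y₃ - (-β₁ - β₂) ^ 2 * σ) - (y₁ - β₁ ^ 2 * σ) - (y₂ - β₂ ^ 2 * σ)) ^ 2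
      = (((2 * (y₁ + y₂ + y₃) - 3 * y₃) + (2 * (y₁ + y₂ + y₃) - 3 * y₁)
          + (2 * (y₁ + y₂ + y₃) - 3 * y₂)) ^ 2
        - 2 * ((2 * (y₁ + y₂ + y₃) - 3 * y₃) ^ 2 + (2 * (y₁ + y₂ + y₃) - 3 * y₁) ^ 2
          + (2 * (y₁ + y₂ + y₃) - 3 * y₂) ^ 2)) / 9
      - σ * (2 * (y₁ + y₂ + y₃) * (β₁ ^ 2 + β₂ ^ 2 + (-β₁ - β₂) ^ 2)
        - 4 * (y₁ * β₁ ^ 2 + y₂ * β₂ ^ 2 + y₃ * (-β₁ - β₂) ^ 2)) := by
  ring

/-- the area of the projected triangle, in terms of the squared norms -/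
lemma area_alg {y₁ y₂ y₃ β₁ β₂ β₃ σ F : ℝ} (hy1 : 0 ≤ y₁) (hy2 : 0 ≤ y₂) (hy3 : 0 ≤ y₃)
    (hβ1 : -(1 / 3) ≤ β₁) (hβ2 : -(1 / 3) ≤ β₂) (hβ3 : -(1 / 3) ≤ β₃)
    (hβ : β₁ + β₂ + β₃ = 0) (hσ : 0 ≤ σ)
    (hY : y₁ + y₂ + y₃ = F - 4 / 3 * σ) (hF1 : F ≤ 0.378) (hσ1 : σ ≤ 0.01456)
    {a b c : ℝ}
    (ha : a ^ 2 = 2 * (y₁ + y₂ + y₃) - 3 * y₃)
    (hb : b ^ 2 = 2 * (y₁ + y₂ + y₃) - 3 * y₁)
    (hc : c ^ 2 = 2 * (y₁ + y₂ + y₃) - 3 * y₂)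
    (hH : 0.1965 + 10 * σ ≤ (a ^ 2 + b ^ 2 + c ^ 2) ^ 2 - 2 * (a ^ 4 + b ^ 4 + c ^ 4)) :
    1.9 * σ ≤ 4 * (y₁ - β₁ ^ 2 * σ) * (y₂ - β₂ ^ 2 * σ)
      - ((y₃ - β₃ ^ 2 * σ) - (y₁ - β₁ ^ 2 * σ) - (y₂ - β₂ ^ 2 * σ)) ^ 2 := by
  have e4 : ∀ x : ℝ, x ^ 4 = (x ^ 2) ^ 2 := fun x => by ring
  rw [e4 a, e4 b, e4 c, ha, hb, hc] at hH
  have hβ3' : β₃ = -β₁ - β₂ := by linarith
  have hB : β₁ ^ 2 + β₂ ^ 2 + (-β₁ - β₂) ^ 2 ≤ 2 / 3 := by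
    rw [hβ3'] at hβ3
    nlinarith [mul_nonneg (by linarith : 0 ≤ β₁ + 1 / 3) (by linarith : 0 ≤ β₂ + 1 / 3),
      mul_nonneg (by linarith : 0 ≤ β₁ + 1 / 3) (by linarith : 0 ≤ -β₁ - β₂ + 1 / 3),
      mul_nonneg (by linarith : 0 ≤ β₂ + 1 / 3) (by linarith : 0 ≤ -β₁ - β₂ + 1 / 3)]
  rw [hβ3', area_key]
  have h0 : 0 ≤ y₁ * β₁ ^ 2 + y₂ * β₂ ^ 2 + y₃ * (-β₁ - β₂) ^ 2 := by positivity
  have h1 : 2 * (y₁ + y₂ + y₃) * (β₁ ^ 2 + β₂ ^ 2 + (-β₁ - β₂) ^ 2) ≤ 0.504 := by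
    have : 2 * (y₁ + y₂ + y₃) * (β₁ ^ 2 + β₂ ^ 2 + (-β₁ - β₂) ^ 2)
        ≤ 2 * (y₁ + y₂ + y₃) * (2 / 3) := mul_le_mul_of_nonneg_left hB (by linarith)
    linarith
  have h2 : σ * (2 * (y₁ + y₂ + y₃) * (β₁ ^ 2 + β₂ ^ 2 + (-β₁ - β₂) ^ 2)
        - 4 * (y₁ * β₁ ^ 2 + y₂ * β₂ ^ 2 + y₃ * (-β₁ - β₂) ^ 2)) ≤ σ * 0.504 :=
    mul_le_mul_of_nonneg_left (by linarith) hσ
  linarith

end

end GP

end Vale.Agent.P226
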