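import Vale.Agent.P226.Bound

/-!
# P226: four vectors, the exact perimeter formula for the facets
-/

open MeasureTheory Set ProbabilityTheory
open scoped RealInnerProductSpace

namespace Vale.Agent.P226

namespace GP

set_option linter.unusedSectionVars false

noncomputable section

variable {E : Type*} [NormedAddCommGroup E] [InnerProductSpace ℝ E] [FiniteDimensional ℝ E]
  [MeasurableSpace E] [BorelSpace E]

lemma EM_facet (z : Fin 4 → E) (i : Fin 4) :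
    EM (fun j : {j : Fin 4 // j ≠ i} => z j) = √(2 / Real.pi) / 4 *
      (‖z (i.succAbove 0) - z (i.succAbove 1)‖ + ‖z (i.succAbove 1) - z (i.succAbove 2)‖
        + ‖z (i.succAbove 0) - z (i.succAbove 2)‖) := by
  rw [← EM_comp_equiv (finSuccAboveEquiv i) (fun j : {j : Fin 4 // j ≠ i} => z j),
    EM_three]
  rfl

/-- `c = √(2/π)/4` satisfies `c² = C/9` -/
lemma c_sq : (√(2 / Real.pi) / 4) ^ 2 = CC / 9 := by
  have hpi := Real.pi_pos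
  rw [div_pow, Real.sq_sqrt (by positivity)]
  unfold CC
  field_simp
  ring

/-- the facets of the tetrahedron, as numbers -/
lemma Crit.facets {z : Fin 4 → E} (hz : Crit z) :
    ∃ a b c d e f : ℝ, 0 ≤ a ∧ 0 ≤ b ∧ 0 ≤ c ∧ 0 ≤ d ∧ 0 ≤ e ∧ 0 ≤ f ∧
      a = ‖z 0 - z 1‖ ∧ b = ‖z 0 - z 2‖ ∧ c = ‖z 0 - z 3‖ ∧ d = ‖z 1 - z 2‖ ∧
      e = ‖z 1 - z 3‖ ∧ f = ‖z 2 - z 3‖ ∧
      a ^ 2 + b ^ 2 + c ^ 2 + d ^ 2 + e ^ 2 + f ^ 2 = 4 * SQ z ∧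
      DD z 0 = SQ z - √(2 / Real.pi) / 4 * (d + f + e) ∧
      DD z 1 = SQ z - √(2 / Real.pi) / 4 * (b + f + c) ∧
      DD z 2 = SQ z - √(2 / Real.pi) / 4 * (a + e + c) ∧
      DD z 3 = SQ z - √(2 / Real.pi) / 4 * (a + d + b) := by
  refine ⟨‖z 0 - z 1‖, ‖z 0 - z 2‖, ‖z 0 - z 3‖, ‖z 1 - z 2‖, ‖z 1 - z 3‖, ‖z 2 - z 3‖,
    norm_nonneg _, norm_nonneg _, norm_nonneg _, norm_nonneg _, norm_nonneg _, norm_nonneg _,
    rfl, rfl, rfl, rfl, rfl, rfl, ?_, ?_, ?_, ?_, ?_⟩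
  · have h0 := hz.sum_zero
    rw [Fin.sum_univ_four] at h0
    have h1 : ‖z 0 + z 1 + z 2 + z 3‖ ^ 2 = 0 := by rw [h0]; simp
    rw [norm_add_sq_real, norm_add_sq_real, norm_add_sq_real, inner_add_left, inner_add_left,
      inner_add_left] at h1
    unfold SQ
    rw [Fin.sum_univ_four, norm_sub_sq_real, norm_sub_sq_real, norm_sub_sq_real,
      norm_sub_sq_real, norm_sub_sq_real, norm_sub_sq_real]
    linarith
  · rw [DD_eq, hz.em, EM_facet]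
    rfl
  · rw [DD_eq, hz.em, EM_facet]
    rfl
  · rw [DD_eq, hz.em, EM_facet]
    rfl
  · rw [DD_eq, hz.em, EM_facet]
    rfl

lemma edge_aux {a b c d e f F k C : ℝ} (hk : k ^ 2 = C / 9)
    (h : a ^ 2 + b ^ 2 + c ^ 2 + d ^ 2 + e ^ 2 + f ^ 2 = 4 * F) :
    12 * ((k * (d + f + e)) ^ 2 + (k * (b + f + c)) ^ 2 + (k * (a + e + c)) ^ 2
      + (k * (a + d + b)) ^ 2) - 2 * (k * (d + f + e) + k * (b + f + c) + k * (a + e + c)
      + k * (a + d + b)) ^ 2 ≤ 32 / 3 * C * F := by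
  have h1 : 12 * ((k * (d + f + e)) ^ 2 + (k * (b + f + c)) ^ 2 + (k * (a + e + c)) ^ 2
      + (k * (a + d + b)) ^ 2) - 2 * (k * (d + f + e) + k * (b + f + c) + k * (a + e + c)
      + k * (a + d + b)) ^ 2 = k ^ 2 * (12 * ((d + f + e) ^ 2 + (b + f + c) ^ 2
      + (a + e + c) ^ 2 + (a + d + b) ^ 2) - 8 * (a + b + c + d + e + f) ^ 2) := by ring
  rw [h1, hk]
  have hC : 0 ≤ C := by nlinarith [sq_nonneg k]
  have h2 : 12 * ((d + f + e) ^ 2 + (b + f + c) ^ 2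
      + (a + e + c) ^ 2 + (a + d + b) ^ 2) - 8 * (a + b + c + d + e + f) ^ 2 ≤ 96 * F := by
    nlinarith [sq_nonneg (a + f - b - e), sq_nonneg (a + f - c - d), sq_nonneg (b + e - c - d)]
  calc C / 9 * (12 * ((d + f + e) ^ 2 + (b + f + c) ^ 2
      + (a + e + c) ^ 2 + (a + d + b) ^ 2) - 8 * (a + b + c + d + e + f) ^ 2)
      ≤ C / 9 * (96 * F) := mul_le_mul_of_nonneg_left h2 (by linarith)
    _ = 32 / 3 * C * F := by ring

/-- the edge inequality for the four gains -/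
theorem Crit.edge_ineq {z : Fin 4 → E} (hz : Crit z) :
    12 * ((SQ z - DD z 0) ^ 2 + (SQ z - DD z 1) ^ 2 + (SQ z - DD z 2) ^ 2
      + (SQ z - DD z 3) ^ 2) - 2 * ((SQ z - DD z 0) + (SQ z - DD z 1) + (SQ z - DD z 2)
      + (SQ z - DD z 3)) ^ 2 ≤ 32 / 3 * CC * SQ z := by
  obtain ⟨a, b, c, d, e, f, _, _, _, _, _, _, _, _, _, _, _, _, h, h0, h1, h2, h3⟩ := hz.facets
  rw [h0, h1, h2, h3]
  have := edge_aux c_sq h
  calc _ = _ := by ring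
    _ ≤ _ := this

/-- normalised form: `δ i = DD z i / F` -/
theorem Crit.edge_norm {z : Fin 4 → E} (hz : Crit z) {δ : Fin 4 → ℝ}
    (hδ : ∀ i, δ i = DD z i / SQ z) :
    6 * (δ 0 ^ 2 + δ 1 ^ 2 + δ 2 ^ 2 + δ 3 ^ 2) - (δ 0 + δ 1 + δ 2 + δ 3) ^ 2
      - 4 * (δ 0 + δ 1 + δ 2 + δ 3) + 8 / 3 ≤ 0 := by
  have hF : 0 < SQ z := CC_pos.trans hz.gt
  have hD : ∀ i, DD z i = δ i * SQ z := by
    intro i
    rw [hδ]
    field_simp
  have h := hz.edge_ineq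
  simp only [hD] at h
  have h1 : 32 / 3 * CC * SQ z ≤ 32 / 3 * SQ z ^ 2 := by
    nlinarith [hz.gt]
  have h2 : 2 * SQ z ^ 2 * (6 * (δ 0 ^ 2 + δ 1 ^ 2 + δ 2 ^ 2 + δ 3 ^ 2)
      - (δ 0 + δ 1 + δ 2 + δ 3) ^ 2 - 4 * (δ 0 + δ 1 + δ 2 + δ 3) + 8 / 3) ≤ 0 := by
    nlinarith
  by_contra hc
  rw [not_le] at hc
  have : 0 < 2 * SQ z ^ 2 * (6 * (δ 0 ^ 2 + δ 1 ^ 2 + δ 2 ^ 2 + δ 3 ^ 2)
      - (δ 0 + δ 1 + δ 2 + δ 3) ^ 2 - 4 * (δ 0 + δ 1 + δ 2 + δ 3) + 8 / 3) := by positivity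
  linarith

end

end GP

end Vale.Agent.P226
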