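import Vale.Agent.P226.K4Near
import Vale.Agent.P226.GMaj
import Vale.Agent.P226.EhrFinal

/-!
# P226: there is no critical configuration of four vectors
-/

open MeasureTheory Set ProbabilityTheory
open scoped RealInnerProductSpace
open Vale.Agent.P226.EhrPhi Vale.Agent.P226.GNum

namespace Vale.Agent.P226

namespace GP

set_option linter.unusedSectionVars false

noncomputable section

/-- beyond `1/2` the slope of `JJ` is at most `1/2` -/
lemma JJ_half {p : ℝ} (hp : p ∈ Ioo (0 : ℝ) 1) (h : 1 / 2 ≤ p) :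
    JJ p ≤ 0.159155 + (p - 1 / 2) / 2 := by
  obtain ⟨t, rfl⟩ := GNum.exists_Q_eq hp
  have ht : t ≤ 0 := by
    rw [← strictAnti_Q.le_iff_ge]
    have : Q 0 = 1 / 2 := by rw [Q_eq, neg_zero, Phi_zero]
    rw [this]
    exact h
  have hW : ∀ s : ℝ, s ≤ 0 → W s ≤ 1 / 2 := by
    intro s hs
    have hmono : MonotoneOn W (Iic 0) := by
      apply monotoneOn_of_deriv_nonneg (convex_Iic 0)
      · exact fun x _ => (hasDerivAt_W x).continuousAt.continuousWithinAt
      · exact fun x _ => (hasDerivAt_W x).differentiableAt.differentiableWithinAt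
      · intro x hx
        rw [interior_Iic, mem_Iio] at hx
        rw [(hasDerivAt_W x).deriv]
        have := Q_pos x
        nlinarith
    have h1 := hmono (mem_Iic.2 hs) (mem_Iic.2 le_rfl) hs
    have h2 : W 0 = 1 / 2 := by
      unfold W
      rw [zero_mul, zero_add, Q_eq, neg_zero, Phi_zero]
    rw [h2] at h1
    exact h1
  have hG : ∀ x : ℝ, HasDerivAt (fun s => J s - Q s / 2) (gpdf x * (1 / 2 - W x)) x := by
    intro x
    refine ((hasDerivAt_J x).sub ((hasDerivAt_Q x).div_const 2)).congr_deriv ?_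
    ring
  have hmono : MonotoneOn (fun s => J s - Q s / 2) (Iic 0) := by
    apply monotoneOn_of_deriv_nonneg (convex_Iic 0)
    · exact fun x _ => (hG x).continuousAt.continuousWithinAt
    · exact fun x _ => (hG x).differentiableAt.differentiableWithinAt
    · intro x hx
      rw [interior_Iic, mem_Iio] at hx
      rw [(hG x).deriv]
      exact mul_nonneg (gpdf_nonneg x) (by linarith [hW x hx.le])
  have h1 := hmono (mem_Iic.2 ht) (mem_Iic.2 le_rfl) ht
  simp only at h1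
  have h2 : Q 0 = 1 / 2 := by rw [Q_eq, neg_zero, Phi_zero]
  have h3 : J 0 ≤ 0.159155 := by
    have e : J 0 = 1 / (2 * Real.pi) := by
      unfold J psi
      rw [zero_mul, sub_zero]
      have := cc_sq
      have h4 : gpdf 0 = cc := by
        rw [gpdf_eq_cc]
        norm_num
      rw [h4, ← sq, cc_sq]
    rw [e]
    have := Real.pi_gt_d6
    have hpi := Real.pi_pos
    rw [div_le_iff₀ (by positivity)]
    linarith
  rw [h2] at h1
  rw [JJ_Q]
  change J t ≤ _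
  linarith

lemma jl0 {p : ℝ} (hp : p ∈ Ioo (0 : ℝ) 1) (h1 : 469/5000 ≤ p) (h2 : p ≤ 7/50) :
    JJ p ≤ -499/50000 + 231/1250 * p := by
  have := maj_JJ (-499/50000) (231/1250) (469/5000) (7/50) (10803/10000) [28/25, 1159/1000, 1199/1000, 1239/1000, 639/500, 6589/5000] (by decide +kernel) hp
    (by push_cast; linarith) (by push_cast; linarith)
  push_cast at this
  linarith

lemma jl1 {p : ℝ} (hp : p ∈ Ioo (0 : ℝ) 1) (h1 : 7/50 ≤ p) (h2 : p ≤ 19/100) :
    JJ p ≤ -1911/100000 + 1/4 * p := by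
  have := maj_JJ (-1911/100000) (1/4) (7/50) (19/100) (4389/5000) [114/125, 189/200, 979/1000, 1013/1000, 1047/1000, 2701/2500] (by decide +kernel) hp
    (by push_cast; linarith) (by push_cast; linarith)
  push_cast at this
  linarith

lemma jl2 {p : ℝ} (hp : p ∈ Ioo (0 : ℝ) 1) (h1 : 19/100 ≤ p) (h2 : p ≤ 6/25) :
    JJ p ≤ -3077/100000 + 1557/5000 * p := by
  have := maj_JJ (-3077/100000) (1557/5000) (19/100) (6/25) (7063/10000) [147/200, 191/250, 99/125, 821/1000, 849/1000, 8779/10000] (by decide +kernel) hp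
    (by push_cast; linarith) (by push_cast; linarith)
  push_cast at this
  linarith

lemma jl3 {p : ℝ} (hp : p ∈ Ioo (0 : ℝ) 1) (h1 : 6/25 ≤ p) (h2 : p ≤ 29/100) :
    JJ p ≤ -877/20000 + 3659/10000 * p := by
  have := maj_JJ (-877/20000) (3659/10000) (6/25) (29/100) (5533/10000) [579/1000, 151/250, 63/100, 131/200, 681/1000, 883/1250] (by decide +kernel) hp
    (by push_cast; linarith) (by push_cast; linarith)
  push_cast at this
  linarith

lemma jl4 {p : ℝ} (hp : p ∈ Ioo (0 : ℝ) 1) (h1 : 29/100 ≤ p) (h2 : p ≤ 33/100) :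
    JJ p ≤ -5621/100000 + 817/2000 * p := by
  have := maj_JJ (-5621/100000) (817/2000) (29/100) (33/100) (4399/10000) [459/1000, 239/500, 497/1000, 129/250, 267/500, 2767/5000] (by decide +kernel) hp
    (by push_cast; linarith) (by push_cast; linarith)
  push_cast at this
  linarith

lemma jl5 {p : ℝ} (hp : p ∈ Ioo (0 : ℝ) 1) (h1 : 33/100 ≤ p) (h2 : p ≤ 19/50) :
    JJ p ≤ -849/12500 + 111/250 * p := by
  have := maj_JJ (-849/12500) (111/250) (33/100) (19/50) (1527/5000) [41/125, 7/20, 373/1000, 79/200, 209/500, 11/25] (by decide +kernel) hp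
    (by push_cast; linarith) (by push_cast; linarith)
  push_cast at this
  linarith

lemma jl6 {p : ℝ} (hp : p ∈ Ioo (0 : ℝ) 1) (h1 : 19/50 ≤ p) (h2 : p ≤ 1/2) :
    JJ p ≤ -1051/12500 + 973/2000 * p := by
  have := maj_JJ (-1051/12500) (973/2000) (19/50) (1/2) (0) [51/1000, 51/500, 153/1000, 51/250, 51/200, 611/2000] (by decide +kernel) hp
    (by push_cast; linarith) (by push_cast; linarith)
  push_cast at this
  linarith

lemma jl_small {p : ℝ} (hp : p ∈ Ioo (0 : ℝ) 1) (h : p ≤ 469/5000) : JJ p ≤ 0.007372 := by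
  have := maj_const 0 (2 * 7372 / 1000000) (469/5000) (13176/10000) (by decide +kernel) hp
    (by push_cast; linarith)
  push_cast at this
  linarith

lemma quad_mono {δ u : ℝ} (h : δ ≤ u) (hu : u ≤ 0.488) :
    5.86 * δ - 6 * δ ^ 2 ≤ 5.86 * u - 6 * u ^ 2 := by
  nlinarith [mul_nonneg (sub_nonneg.mpr h) (by linarith : 0 ≤ 5.86 - 6 * (δ + u))]

lemma jc0 {p δ : ℝ} (hp : p ∈ Ioo (0 : ℝ) 1) (h1 : 469/5000 ≤ p) (h2 : p ≤ 7/50)
    (hδ : δ ≤ 3.7234 * JJ p) :
    5.86 * δ - 6 * δ ^ 2 ≤ -0.2525 + 4.49 * p ∧ δ ≤ 1.62 * p - 0.1244 := by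
  have h := jl0 hp h1 h2
  have hu : δ ≤ 3.7234 * (-499/50000 + 231/1250 * p) := by linarith
  refine ⟨?_, by linarith⟩
  refine (quad_mono hu (by linarith)).trans ?_
  nlinarith [sq_nonneg (p - 0.094), mul_nonneg (sub_nonneg.mpr h1) (sub_nonneg.mpr h2)]

lemma jc1 {p δ : ℝ} (hp : p ∈ Ioo (0 : ℝ) 1) (h1 : 7/50 ≤ p) (h2 : p ≤ 19/100)
    (hδ : δ ≤ 3.7234 * JJ p) :
    5.86 * δ - 6 * δ ^ 2 ≤ -0.2525 + 4.49 * p ∧ δ ≤ 1.62 * p - 0.1244 := by
  have h := jl1 hp h1 h2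
  have hu : δ ≤ 3.7234 * (-1911/100000 + 1/4 * p) := by linarith
  refine ⟨?_, by linarith⟩
  refine (quad_mono hu (by linarith)).trans ?_
  nlinarith [sq_nonneg (p - 0.169), mul_nonneg (sub_nonneg.mpr h1) (sub_nonneg.mpr h2)]

lemma jc2 {p δ : ℝ} (hp : p ∈ Ioo (0 : ℝ) 1) (h1 : 19/100 ≤ p) (h2 : p ≤ 6/25)
    (hδ : δ ≤ 3.7234 * JJ p) :
    5.86 * δ - 6 * δ ^ 2 ≤ -0.2525 + 4.49 * p ∧ δ ≤ 1.62 * p - 0.1244 := by
  have h := jl2 hp h1 h2
  have hu : δ ≤ 3.7234 * (-3077/100000 + 1557/5000 * p) := by linarith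
  refine ⟨?_, by linarith⟩
  refine (quad_mono hu (by linarith)).trans ?_
  nlinarith [sq_nonneg (p - 0.24), mul_nonneg (sub_nonneg.mpr h1) (sub_nonneg.mpr h2)]

lemma jc3 {p δ : ℝ} (hp : p ∈ Ioo (0 : ℝ) 1) (h1 : 6/25 ≤ p) (h2 : p ≤ 29/100)
    (hδ : δ ≤ 3.7234 * JJ p) :
    5.86 * δ - 6 * δ ^ 2 ≤ -0.2525 + 4.49 * p ∧ δ ≤ 1.62 * p - 0.1244 := by
  have h := jl3 hp h1 h2
  have hu : δ ≤ 3.7234 * (-877/20000 + 3659/10000 * p) := by linarith
  refine ⟨?_, by linarith⟩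
  refine (quad_mono hu (by linarith)).trans ?_
  nlinarith [sq_nonneg (p - 0.277), mul_nonneg (sub_nonneg.mpr h1) (sub_nonneg.mpr h2)]

lemma jc4 {p δ : ℝ} (hp : p ∈ Ioo (0 : ℝ) 1) (h1 : 29/100 ≤ p) (h2 : p ≤ 33/100)
    (hδ : δ ≤ 3.7234 * JJ p) :
    5.86 * δ - 6 * δ ^ 2 ≤ -0.2525 + 4.49 * p ∧ δ ≤ 1.62 * p - 0.1244 := by
  have h := jl4 hp h1 h2
  have hu : δ ≤ 3.7234 * (-5621/100000 + 817/2000 * p) := by linarith
  refine ⟨?_, by linarith⟩
  refine (quad_mono hu (by linarith)).trans ?_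
  nlinarith [sq_nonneg (p - 0.297), mul_nonneg (sub_nonneg.mpr h1) (sub_nonneg.mpr h2)]

lemma jc5 {p δ : ℝ} (hp : p ∈ Ioo (0 : ℝ) 1) (h1 : 33/100 ≤ p) (h2 : p ≤ 19/50)
    (hδ : δ ≤ 3.7234 * JJ p) :
    5.86 * δ - 6 * δ ^ 2 ≤ -0.2525 + 4.49 * p ∧ δ ≤ 1.62 * p - 0.1244 := by
  have h := jl5 hp h1 h2
  have hu : δ ≤ 3.7234 * (-849/12500 + 111/250 * p) := by linarith
  refine ⟨?_, by linarith⟩
  refine (quad_mono hu (by linarith)).trans ?_
  nlinarith [sq_nonneg (p - 0.33), mul_nonneg (sub_nonneg.mpr h1) (sub_nonneg.mpr h2)]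

lemma jcell {p δ : ℝ} (hp : p ∈ Ioo (0 : ℝ) 1) (h1 : 469/5000 ≤ p) (h2 : p ≤ 0.72)
    (hδ : δ ≤ 3.7234 * JJ p) :
    5.86 * δ - 6 * δ ^ 2 ≤ -0.2525 + 4.49 * p ∧ δ ≤ 1.62 * p - 0.1244 := by
  rcases le_total p (7/50) with g0 | g0
  · exact jc0 hp h1 g0 hδ
  rcases le_total p (19/100) with g1 | g1
  · exact jc1 hp g0 g1 hδ
  rcases le_total p (6/25) with g2 | g2
  · exact jc2 hp g1 g2 hδ
  rcases le_total p (29/100) with g3 | g3
  · exact jc3 hp g2 g3 hδ
  rcases le_total p (33/100) with g4 | g4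
  · exact jc4 hp g3 g4 hδ
  rcases le_total p (19/50) with g5 | g5
  · exact jc5 hp g4 g5 hδ
  have hq : 5.86 * δ - 6 * δ ^ 2 ≤ -0.2525 + 4.49 * p := by
    nlinarith [sq_nonneg (δ - 5.86 / 12)]
  refine ⟨hq, ?_⟩
  rcases le_total p (1/2) with g6 | g6
  · have h := jl6 hp g5 g6
    linarith
  · have h := JJ_half hp g6
    linarith

variable {E : Type*} [NormedAddCommGroup E] [InnerProductSpace ℝ E] [FiniteDimensional ℝ E]
  [MeasurableSpace E] [BorelSpace E]

/-- there is no critical configuration of four vectors -/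
theorem no_crit_four (z : Fin 4 → E) : ¬ Crit z := by
  intro hz
  have hE : EhrBound := EhrM.ehr_bound
  have hκ : kap (Fin 4) = 4 / 3 := by
    unfold kap
    rw [Fintype.card_fin]
    norm_num
  have hDD : ∀ i, DD z i ≤ 4 / 3 * JJ (pc z i) := by
    intro i
    have := hz.DD_le hE i
    rwa [hκ] at this
  have hlo : ∀ i, 469/5000 ≤ pc z i := by
    intro i
    by_contra hc
    rw [not_le] at hc
    have h1 := jl_small (hz.pc_mem i) hc.le
    exact k4_near hz (i := i) (by linarith [hDD i])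
  have hsum := sum_pc hz.inj
  rw [Fin.sum_univ_four] at hsum
  have hhi : ∀ i, pc z i ≤ 0.72 := by
    have h0 := hlo 0
    have h1 := hlo 1
    have h2 := hlo 2
    have h3 := hlo 3
    intro i
    fin_cases i
    · show pc z 0 ≤ _
      linarith
    · show pc z 1 ≤ _
      linarith
    · show pc z 2 ≤ _
      linarith
    · show pc z 3 ≤ _
      linarith
  have hF : 0 < SQ z := CC_pos.trans hz.gt
  have hJ0 : ∀ i, 0 ≤ JJ (pc z i) := by
    intro i
    obtain ⟨t, ht⟩ := GNum.exists_Q_eq (hz.pc_mem i)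
    rw [← ht, JJ_Q]
    exact GNum.J_nonneg t
  have hδ : ∀ i, DD z i / SQ z ≤ 3.7234 * JJ (pc z i) := by
    intro i
    rw [div_le_iff₀ hF]
    refine (hDD i).trans ?_
    have h1 : (4 / 3 : ℝ) ≤ 3.7234 * SQ z := by
      have := CC_gt
      have := hz.gt
      linarith
    have := mul_le_mul_of_nonneg_right h1 (hJ0 i)
    linarith
  have hcell := fun i => jcell (hz.pc_mem i) (hlo i) (hhi i) (hδ i)
  have hedge := hz.edge_norm (δ := fun i => DD z i / SQ z) (fun i => rfl)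
  set a := DD z 0 / SQ z
  set b := DD z 1 / SQ z
  set c := DD z 2 / SQ z
  set d := DD z 3 / SQ z
  obtain ⟨a1, a2⟩ := hcell 0
  obtain ⟨b1, b2⟩ := hcell 1
  obtain ⟨c1, c2⟩ := hcell 2
  obtain ⟨d1, d2⟩ := hcell 3
  change 5.86 * a - 6 * a ^ 2 ≤ _ at a1
  change 5.86 * b - 6 * b ^ 2 ≤ _ at b1
  change 5.86 * c - 6 * c ^ 2 ≤ _ at c1
  change 5.86 * d - 6 * d ^ 2 ≤ _ at d1
  change a ≤ _ at a2
  change b ≤ _ at b2
  change c ≤ _ at c2
  change d ≤ _ at d2
  have hS : a + b + c + d ≤ 1.13 := by linarith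
  have hq : (a + b + c + d) ^ 2 ≤ 4 * (a ^ 2 + b ^ 2 + c ^ 2 + d ^ 2) := by
    nlinarith [sq_nonneg (a - b), sq_nonneg (a - c), sq_nonneg (a - d), sq_nonneg (b - c),
      sq_nonneg (b - d), sq_nonneg (c - d)]
  have hS2 : 0.73 ≤ a + b + c + d := by
    nlinarith
  have hS3 : 0 ≤ (a + b + c + d - 0.73) * (1.13 - (a + b + c + d)) :=
    mul_nonneg (by linarith) (by linarith)
  nlinarith

end

end GP

end Vale.Agent.P226
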