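import Vale.Agent.P226.NearProp
import Vale.Agent.P226.DiscFinal

/-!
# P226: configurations close to the propeller, in terms of the Gram matrix
-/

open MeasureTheory Set ProbabilityTheory
open scoped RealInnerProductSpace

namespace Vale.Agent.P226

namespace GP

namespace Near

set_option linter.unusedSectionVars false

noncomputable section

variable {E : Type*} [NormedAddCommGroup E] [InnerProductSpace ℝ E] [FiniteDimensional ℝ E]
  [MeasurableSpace E] [BorelSpace E]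

/-- squared length of the projection of `v j` orthogonal to `w` -/
def xj (v : Fin 3 → E) (w : E) (j : Fin 3) : ℝ := ‖v j‖ ^ 2 - ⟪v j, w⟫ ^ 2 / ‖w‖ ^ 2

/-- sixteen times the squared area of the triangle with these sides -/
def KK (v : Fin 3 → E) (w : E) : ℝ :=
  4 * xj v w 0 * xj v w 1 - (xj v w 2 - xj v w 0 - xj v w 1) ^ 2

omit [FiniteDimensional ℝ E] [MeasurableSpace E] [BorelSpace E] in
lemma xj_smul (v : Fin 3 → E) (w : E) {c : ℝ} (hc : c ≠ 0) (j : Fin 3) :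
    xj v (c • w) j = xj v w j := by
  unfold xj
  rw [inner_smul_right, norm_smul, mul_pow, mul_pow, Real.norm_eq_abs, sq_abs]
  congr 1
  rw [mul_div_mul_left _ _ (pow_ne_zero 2 hc)]

omit [FiniteDimensional ℝ E] [MeasurableSpace E] [BorelSpace E] in
lemma KK_smul (v : Fin 3 → E) (w : E) {c : ℝ} (hc : c ≠ 0) : KK v (c • w) = KK v w := by
  unfold KK
  simp only [xj_smul v w hc]

/-- form (A) of the disc lemma -/
lemma discA (v : Fin 3 → E) (w : E) (hv : ∑ j, v j = 0) (hw : w ≠ 0) (hK : 0 < KK v w) :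
    eps v w ≤ 3 / (Real.pi * √(2 * Real.pi) * √(KK v w)) * ‖w‖ ^ 3 := by
  have h := eps3_le_cubic hv hw (K0 := KK v w) hK (le_of_eq rfl)
  have e : eps v w = eps3 v w := rfl
  rw [e]
  refine h.trans (le_of_eq ?_)
  have hpi := Real.pi_pos
  have h1 : 0 < √(2 * Real.pi) := Real.sqrt_pos.mpr (by positivity)
  have h2 : 0 < √(KK v w) := Real.sqrt_pos.mpr hK
  field_simp
  norm_num

lemma pi_cube_gt : 0.545 * 512 ≤ 9 * Real.pi ^ 3 := by
  have h := Real.pi_gt_d6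
  have h2 : (3.141592 : ℝ) ^ 3 ≤ Real.pi ^ 3 := pow_le_pow_left₀ (by norm_num) h.le 3
  norm_num at h2 ⊢
  linarith

lemma R_of_K {v : Fin 3 → E} {w : E} (hv : ∑ j, v j = 0)
    (hw : w ≠ 0) (hK : ‖w‖ ^ 2 ≤ 0.545 * KK v w) :
    eps v ((4 / 3 : ℝ) • w) ≤ 2 / 3 * ‖w‖ ^ 2 := by
  have hpi := Real.pi_pos
  have hn : 0 < ‖w‖ := norm_pos_iff.mpr hw
  have hK0 : 0 < KK v w := by nlinarith [sq_pos_of_pos hn]
  have hw' : (4 / 3 : ℝ) • w ≠ 0 := smul_ne_zero (by norm_num) hw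
  have h1 := discA v ((4 / 3 : ℝ) • w) hv hw' (by rw [KK_smul _ _ (by norm_num)]; exact hK0)
  rw [KK_smul _ _ (by norm_num)] at h1
  refine h1.trans ?_
  have e : ‖(4 / 3 : ℝ) • w‖ = 4 / 3 * ‖w‖ := by
    rw [norm_smul]
    norm_num
  rw [e]
  set s := ‖w‖ with hs
  set R := √(KK v w) with hR
  set P := √(2 * Real.pi) with hP
  have hR0 : 0 < R := Real.sqrt_pos.mpr hK0
  have hP0 : 0 < P := Real.sqrt_pos.mpr (by positivity)
  have hR2 : R ^ 2 = KK v w := Real.sq_sqrt hK0.le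
  have hP2 : P ^ 2 = 2 * Real.pi := Real.sq_sqrt (by positivity)
  -- s ≤ (3/32) π P R
  have h2 : s ≤ 3 / 32 * (Real.pi * P * R) := by
    apply le_of_sq_le_sq _ (by positivity)
    have e1 : (3 / 32 * (Real.pi * P * R)) ^ 2 = 9 * Real.pi ^ 3 / 512 * KK v w := by
      rw [mul_pow, mul_pow, mul_pow, hP2, hR2]
      ring
    rw [e1]
    have := pi_cube_gt
    nlinarith
  rw [div_mul_eq_mul_div, div_le_iff₀ (by positivity)]
  have h3 : s ^ 2 * s ≤ s ^ 2 * (3 / 32 * (Real.pi * P * R)) :=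
    mul_le_mul_of_nonneg_left h2 (by positivity)
  nlinarith

section

variable {ι : Type} [Fintype ι] [DecidableEq ι] [Nontrivial ι]

omit [FiniteDimensional ℝ E] [MeasurableSpace E] [BorelSpace E] [Nontrivial ι] in
lemma inner_zU {z : ι → E} {T : Fin 3 → ι}
    (hneg : ∀ i j, i ≠ j → ⟪z i, z j⟫ < 0) {i : ι} (hi : i ∈ out T) :
    ⟪zU z T, z i⟫ ≤ ‖z i‖ ^ 2 := by
  unfold zU
  rw [sum_inner, ← Finset.add_sum_erase _ _ hi, real_inner_self_eq_norm_sq]
  have : ∑ j ∈ (out T).erase i, ⟪z j, z i⟫ ≤ 0 :=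
    Finset.sum_nonpos (fun j hj => (hneg j i (Finset.ne_of_mem_erase hj)).le)
  linarith

omit [FiniteDimensional ℝ E] [MeasurableSpace E] [BorelSpace E] [Nontrivial ι] in
lemma inner_vT_le {z : ι → E} {T : Fin 3 → ι}
    (hneg : ∀ i j, i ≠ j → ⟪z i, z j⟫ < 0) {i : ι} (hi : i ∈ out T) (j : Fin 3) :
    ⟪vT z T j, z i⟫ ≤ 1 / 3 * ‖z i‖ ^ 2 := by
  have h1 := inner_zU hneg hi
  have h2 := hneg (T j) i (mem_out.mp hi j).symm
  unfold vT
  rw [inner_add_left, inner_smul_left]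
  simp only [RCLike.conj_to_real]
  linarith

omit [FiniteDimensional ℝ E] [MeasurableSpace E] [BorelSpace E] [Nontrivial ι] in
lemma inner_vT_ge {z : ι → E} {T : Fin 3 → ι} (hT : Function.Injective T) (h0 : ∑ i, z i = 0)
    (hneg : ∀ i j, i ≠ j → ⟪z i, z j⟫ < 0) {i : ι} (hi : i ∈ out T) (j : Fin 3) :
    -(2 / 3) * ‖z i‖ ^ 2 ≤ ⟪vT z T j, z i⟫ := by
  have h1 := inner_zU hneg hi
  have h2 : ∑ l, ⟪z (T l), z i⟫ = - ⟪zU z T, z i⟫ := by
    rw [← sum_inner, sum_T hT h0, inner_neg_left]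
  have h3 : ∑ l ∈ Finset.univ.erase j, ⟪z (T l), z i⟫ ≤ 0 :=
    Finset.sum_nonpos (fun l _ => (hneg (T l) i (mem_out.mp hi l).symm).le)
  have h4 := Finset.add_sum_erase Finset.univ (fun l => ⟪z (T l), z i⟫) (Finset.mem_univ j)
  unfold vT
  rw [inner_add_left, inner_smul_left]
  simp only [RCLike.conj_to_real]
  linarith

omit [FiniteDimensional ℝ E] [MeasurableSpace E] [BorelSpace E] [Nontrivial ι] in
/-- `x_j ≥ ‖v_j‖² - (4/9) ‖z_i‖²` -/
lemma xj_ge {z : ι → E} {T : Fin 3 → ι} (hT : Function.Injective T) (h0 : ∑ i, z i = 0)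
    (hneg : ∀ i j, i ≠ j → ⟪z i, z j⟫ < 0) {i : ι} (hi : i ∈ out T) (hzi : z i ≠ 0)
    (j : Fin 3) :
    ‖vT z T j‖ ^ 2 - 4 / 9 * ‖z i‖ ^ 2 ≤ xj (vT z T) (z i) j := by
  have h1 := inner_vT_le hneg hi j
  have h2 := inner_vT_ge hT h0 hneg hi j
  have hn : 0 < ‖z i‖ ^ 2 := by
    have := norm_pos_iff.mpr hzi
    positivity
  unfold xj
  have h3 : ⟪vT z T j, z i⟫ ^ 2 / ‖z i‖ ^ 2 ≤ 4 / 9 * ‖z i‖ ^ 2 := by
    rw [div_le_iff₀ hn]
    have : |⟪vT z T j, z i⟫| ≤ 2 / 3 * ‖z i‖ ^ 2 := by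
      rw [abs_le]
      constructor <;> linarith
    rw [← sq_abs]
    have h4 := abs_nonneg ⟪vT z T j, z i⟫
    nlinarith
  linarith

lemma Crit_ne_zero {z : ι → E} (hz : Crit z) (i : ι) : z i ≠ 0 := by
  intro h
  obtain ⟨j, hj⟩ := exists_ne i
  have := hz.neg i j hj.symm
  rw [h, inner_zero_left] at this
  exact lt_irrefl _ this

/-- near-propeller, at least five cells, in terms of areas -/
theorem near5K {z : ι → E} (hz : Crit z) (h4 : PK E 4) {T : Fin 3 → ι}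
    (hT : Function.Injective T) {i4 : ι} (hi4 : i4 ∈ out T)
    (h : ∀ i ∈ out T, i ≠ i4 → ‖z i‖ ^ 2 ≤ 0.545 * KK (vT z T) (z i)) : False :=
  near5 hz h4 hT hi4 (fun i hi hne =>
    R_of_K (sum_vT hT hz.sum_zero) (Crit_ne_zero hz i) (h i hi hne))

/-- near-propeller, four cells, in terms of areas -/
theorem near4K {z : ι → E} (hz : Crit z) {T : Fin 3 → ι}
    (hT : Function.Injective T) {i4 : ι} (hi4 : out T = {i4})
    (h : ‖z i4‖ ^ 2 ≤ 0.545 * KK (vT z T) (z i4)) : False :=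
  near4 hz hT hi4 (R_of_K (sum_vT hT hz.sum_zero) (Crit_ne_zero hz i4) h)

end

end

end Near

end GP

end Vale.Agent.P226
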