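import Vale.Agent.P226.K4Area
import Vale.Agent.P226.NearK

/-!
# P226: four vectors, a cell with a small gain is impossible
-/

open MeasureTheory Set ProbabilityTheory
open scoped RealInnerProductSpace

namespace Vale.Agent.P226

namespace GP

set_option linter.unusedSectionVars false

noncomputable section

variable {E : Type*} [NormedAddCommGroup E] [InnerProductSpace ℝ E] [FiniteDimensional ℝ E]
  [MeasurableSpace E] [BorelSpace E]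

lemma edge_of_sum_zero {v : Fin 3 → E} (hv : ∑ j, v j = 0) :
    ‖v 0 - v 1‖ ^ 2 = 2 * (‖v 0‖ ^ 2 + ‖v 1‖ ^ 2 + ‖v 2‖ ^ 2) - 3 * ‖v 2‖ ^ 2 ∧
    ‖v 1 - v 2‖ ^ 2 = 2 * (‖v 0‖ ^ 2 + ‖v 1‖ ^ 2 + ‖v 2‖ ^ 2) - 3 * ‖v 0‖ ^ 2 ∧
    ‖v 0 - v 2‖ ^ 2 = 2 * (‖v 0‖ ^ 2 + ‖v 1‖ ^ 2 + ‖v 2‖ ^ 2) - 3 * ‖v 1‖ ^ 2 := by
  rw [Fin.sum_univ_three] at hv
  have h2 : v 2 = -(v 0 + v 1) := by
    rw [eq_neg_iff_add_eq_zero, add_comm]
    exact hv
  have h0 : v 0 = -(v 1 + v 2) := by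
    rw [eq_neg_iff_add_eq_zero, ← add_assoc]
    exact hv
  have h1 : v 1 = -(v 0 + v 2) := by
    rw [eq_neg_iff_add_eq_zero, ← hv]
    abel
  have n2 : ‖v 2‖ ^ 2 = ‖v 0‖ ^ 2 + 2 * ⟪v 0, v 1⟫ + ‖v 1‖ ^ 2 := by
    rw [h2, norm_neg, norm_add_sq_real]
  have n0 : ‖v 0‖ ^ 2 = ‖v 1‖ ^ 2 + 2 * ⟪v 1, v 2⟫ + ‖v 2‖ ^ 2 := by
    rw [h0, norm_neg, norm_add_sq_real]
  have n1 : ‖v 1‖ ^ 2 = ‖v 0‖ ^ 2 + 2 * ⟪v 0, v 2⟫ + ‖v 2‖ ^ 2 := by
    rw [h1, norm_neg, norm_add_sq_real]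
  rw [norm_sub_sq_real, norm_sub_sq_real, norm_sub_sq_real]
  refine ⟨by linarith, by linarith, by linarith⟩

/-- four cells: no gain can be small -/
theorem k4_near {z : Fin 4 → E} (hz : Crit z) {i : Fin 4} (hD : DD z i ≤ 0.00983) : False := by
  have hT : Function.Injective i.succAbove := Fin.succAbove_right_injective
  have hout : Near.out i.succAbove = {i} := by
    ext j
    rw [Near.mem_out, Finset.mem_singleton]
    constructor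
    · intro h
      by_contra hj
      obtain ⟨l, hl⟩ := Fin.exists_succAbove_eq hj
      exact h l hl.symm
    · rintro rfl l
      exact (Fin.succAbove_ne _ _).symm
  have hi : i ∈ Near.out i.succAbove := by rw [hout]; simp
  have hzU : Near.zU z i.succAbove = z i := by
    unfold Near.zU
    rw [hout, Finset.sum_singleton]
  have hsum := Near.sum_vT hT hz.sum_zero
  set v := Near.vT z i.succAbove with hv
  have hvj : ∀ j, v j = z (i.succAbove j) + (1 / 3 : ℝ) • z i := by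
    intro j
    rw [hv]
    unfold Near.vT
    rw [hzU]
  have hdiff : ∀ j l, z (i.succAbove j) - z (i.succAbove l) = v j - v l := by
    intro j l
    rw [hvj, hvj]
    abel
  obtain ⟨e01, e12, e02⟩ := edge_of_sum_zero hsum
  have hSQ := Near.SQ_vT hT hz.sum_zero
  rw [hzU, hout, Finset.sum_singleton, ← hv] at hSQ
  have hSQv : SQ v = ‖v 0‖ ^ 2 + ‖v 1‖ ^ 2 + ‖v 2‖ ^ 2 := by
    unfold SQ
    rw [Fin.sum_univ_three]
  have hDD : DD z i = SQ z - √(2 / Real.pi) / 4 *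
      (‖v 0 - v 1‖ + ‖v 1 - v 2‖ + ‖v 0 - v 2‖) := by
    rw [DD_eq, hz.em, EM_facet, hdiff, hdiff, hdiff]
  have hk0 : 0 < √(2 / Real.pi) / 4 := by
    have : 0 < √(2 / Real.pi) := Real.sqrt_pos.mpr (by have := Real.pi_pos; positivity)
    positivity
  obtain ⟨hF, hσ, hH⟩ := area_num (σ := ‖z i‖ ^ 2) c_sq hk0 hz.gt (by positivity)
    (by rw [e01, e12, e02]; linarith) hDD hD
  have hn : 0 < ‖z i‖ ^ 2 := by
    have := hz.norm_pos i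
    positivity
  have hβ : ∀ j, -(1 / 3) ≤ -(⟪v j, z i⟫ / ‖z i‖ ^ 2) := by
    intro j
    have := Near.inner_vT_le hz.neg hi j
    rw [← hv] at this
    rw [neg_le_neg_iff, div_le_iff₀ hn]
    exact this
  have hβs : -(⟪v 0, z i⟫ / ‖z i‖ ^ 2) + -(⟪v 1, z i⟫ / ‖z i‖ ^ 2)
      + -(⟪v 2, z i⟫ / ‖z i‖ ^ 2) = 0 := by
    have h1 : ⟪v 0, z i⟫ + ⟪v 1, z i⟫ + ⟪v 2, z i⟫ = 0 := by
      rw [← inner_add_left, ← inner_add_left]
      rw [Fin.sum_univ_three] at hsum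
      rw [hsum, inner_zero_left]
    have h2 : -(⟪v 0, z i⟫ / ‖z i‖ ^ 2) + -(⟪v 1, z i⟫ / ‖z i‖ ^ 2)
      + -(⟪v 2, z i⟫ / ‖z i‖ ^ 2) = -((⟪v 0, z i⟫ + ⟪v 1, z i⟫ + ⟪v 2, z i⟫) / ‖z i‖ ^ 2) := by
      ring
    rw [h2, h1]
    simp
  have hA := area_alg (sq_nonneg ‖v 0‖) (sq_nonneg ‖v 1‖) (sq_nonneg ‖v 2‖)
    (hβ 0) (hβ 1) (hβ 2) hβs hn.le (by linarith) hF hσ e01 e12 e02 hH
  have hx : ∀ j, Near.xj v (z i) j = ‖v j‖ ^ 2 - (-(⟪v j, z i⟫ / ‖z i‖ ^ 2)) ^ 2 * ‖z i‖ ^ 2 := by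
    intro j
    unfold Near.xj
    field_simp
  have hK : 1.9 * ‖z i‖ ^ 2 ≤ Near.KK v (z i) := by
    unfold Near.KK
    rw [hx 0, hx 1, hx 2]
    exact hA
  refine Near.near4K hz hT hout ?_
  rw [← hv]
  linarith

end

end GP

end Vale.Agent.P226
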