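import Vale.Agent.P226.Area5
import Vale.Agent.P226.NearK
import Vale.Agent.P226.Bound
import Vale.Agent.P226.GLines
import Vale.Agent.P226.EhrFinal

/-!
# P226: at least five cells, from the numerical statement
-/

open MeasureTheory Set ProbabilityTheory
open scoped RealInnerProductSpace

namespace Vale.Agent.P226

namespace GP

namespace Near

set_option linter.unusedSectionVars false

noncomputable section

open Vale.Agent.P226.EhrPhi

/-- the numerical glue: from the three inequalities to the area condition -/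
lemma glue_real {C s0 s1 s2 s5 u σ K : ℝ} (hC : (0.358098 : ℝ) ≤ C) (hσ0 : 0 ≤ σ) (hσ5 : σ ≤ s5)
    (h10 : s1 ≤ s0) (h21 : s2 ≤ s1) (h0 : s0 ≤ 15916 / 100000) (hu0 : 0 ≤ u)
    (hS : s0 + s1 + s2 ≤ 0.41) (ha : s0 - s1 ≤ 61 / 1000) (hb : u ≤ 9 / 100)
    (hc : 5 / 9 * u + 10.4 * s5 + 0.26 * (s0 - s1) ≤ s2)
    (hK : (s2 - 5 / 9 * u) * (C - 4 / 3 * u) - (s0 - s1) ^ 2
        - 4 / 3 * (s0 + s1 + s2) * σ - 4 / 9 * σ ^ 2 ≤ K) : σ ≤ 0.545 * K := by
  have hu : 0.238098 ≤ C - 4 / 3 * u := by linarith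
  have hd : 0 ≤ s0 - s1 := by linarith
  have h5 : 0 ≤ s5 := hσ0.trans hσ5
  have h1 : (10.4 * s5 + 0.26 * (s0 - s1)) * 0.238098 ≤ (s2 - 5 / 9 * u) * (C - 4 / 3 * u) := by
    apply mul_le_mul
    · linarith
    · exact hu
    · norm_num
    · linarith
  have h2 : (s0 - s1) ^ 2 ≤ 61 / 1000 * (s0 - s1) := by nlinarith
  have h3 : 4 / 3 * (s0 + s1 + s2) * σ ≤ 4 / 3 * 0.41 * σ := by
    apply mul_le_mul_of_nonneg_right _ hσ0
    linarith
  have h4 : σ ≤ 0.0154 := by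
    have : 10.4 * s5 ≤ 15916 / 100000 := by linarith
    linarith
  have h6 : σ ^ 2 ≤ 0.0154 * σ := by nlinarith
  nlinarith

lemma exists_sorted (m : ℕ) (σ : Fin (m + 5) → ℝ) : ∃ (T : Fin 3 → Fin (m + 5))
    (i4 i5 : Fin (m + 5)), Function.Injective T ∧ i4 ∈ out T ∧ i5 ∈ out T ∧ i5 ≠ i4 ∧
    σ (T 1) ≤ σ (T 0) ∧ σ (T 2) ≤ σ (T 1) ∧ σ i4 ≤ σ (T 2) ∧ σ i5 ≤ σ i4 ∧
    ∀ l ∈ out T, l ≠ i4 → σ l ≤ σ i5 := by
  set f : Fin (m + 5) → ℝ := fun i => -σ i with hf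
  set π := Tuple.sort f with hπ
  have hmono : ∀ a b : Fin (m + 5), a ≤ b → σ (π b) ≤ σ (π a) := by
    intro a b hab
    have := Tuple.monotone_sort f hab
    simp only [Function.comp, hf] at this
    have h2 : -σ (π a) ≤ -σ (π b) := this
    linarith
  have h3 : 3 < m + 5 := by omega
  have h4 : 4 < m + 5 := by omega
  refine ⟨fun j => π ⟨j.1, by omega⟩, π ⟨3, h3⟩, π ⟨4, h4⟩, ?_, ?_, ?_, ?_, ?_, ?_, ?_, ?_, ?_⟩
  · intro a b hab
    have := π.injective hab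
    simp only [Fin.mk.injEq] at this
    exact Fin.ext this
  · rw [mem_out]
    intro j hj
    have := π.injective hj
    simp only [Fin.mk.injEq] at this
    omega
  · rw [mem_out]
    intro j hj
    have := π.injective hj
    simp only [Fin.mk.injEq] at this
    omega
  · intro h
    have := π.injective h
    simp only [Fin.mk.injEq] at this
    omega
  · exact hmono _ _ (by simp)
  · exact hmono _ _ (by simp [Fin.le_def])
  · exact hmono _ _ (by simp [Fin.le_def])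
  · exact hmono _ _ (by simp [Fin.le_def])
  · intro l hl hl4
    rw [mem_out] at hl
    have e : l = π (π.symm l) := by simp
    rw [e]
    apply hmono
    rw [Fin.le_def]
    by_contra hlt
    simp only [not_le] at hlt
    have hcases : (π.symm l).1 = 0 ∨ (π.symm l).1 = 1 ∨ (π.symm l).1 = 2 ∨ (π.symm l).1 = 3 := by
      omega
    rcases hcases with h | h | h | h
    · apply hl 0
      rw [e]
      congr 1
      exact Fin.ext h
    · apply hl 1
      rw [e]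
      congr 1
      exact Fin.ext h
    · apply hl 2
      rw [e]
      congr 1
      exact Fin.ext h
    · apply hl4
      rw [e]
      congr 1
      exact Fin.ext h

lemma CC_lower : (0.358098 : ℝ) ≤ CC := by
  unfold CC
  have h := Real.pi_lt_d6
  have h0 := Real.pi_pos
  rw [le_div_iff₀ (by positivity)]
  nlinarith

lemma JJ_small {p : ℝ} (hp : p ∈ Ioo (0 : ℝ) 1) (h2 : p ≤ 31 / 100) : 2 * JJ p ≤ 15 / 100 := by
  have := GNum.maj_const 0 (15 / 100) (31 / 100) (495 / 1000) (by decide +kernel) hp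
    (by push_cast; linarith)
  push_cast at this
  simp only [zero_mul, zero_div, sub_zero] at this
  linarith

variable {E : Type*} [NormedAddCommGroup E] [InnerProductSpace ℝ E] [FiniteDimensional ℝ E]
  [MeasurableSpace E] [BorelSpace E]

variable {ι : Type} [Fintype ι] [DecidableEq ι] [Nontrivial ι]

/-- the bound of a small cell, with the constant 1 -/
lemma sq_le_one {z : ι → E} (hz : Crit z) (hcard : 5 ≤ Fintype.card ι) (i : ι)
    (hp : pc z i ≤ 31 / 100) :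
    ‖z i‖ ^ 2 ≤ 2 * JJ (pc z i) - 1 * JJ (pc z i) ^ 2 / (9 / (8 * Real.pi)) := by
  have hJ := JJ_small (hz.pc_mem i) hp
  have hk := kap_le (ι := ι) 5 (by norm_num) hcard
  have hk1 := one_lt_kap (ι := ι)
  have hJ0 : 0 ≤ JJ (pc z i) := by
    obtain ⟨t, ht⟩ := exists_Q_eq (hz.pc_mem i)
    rw [← ht, JJ_Q]
    exact mul_nonneg (gpdf_nonneg t) (GNum.psi_nonneg' t)
  have hC := CC_lower
  push_cast at hk
  have h1 : kap ι * JJ (pc z i) ≤ CC / 2 := by
    have : kap ι * JJ (pc z i) ≤ (5 / (5 - 1)) * (15 / 200) :=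
      mul_le_mul hk (by linarith) hJ0 (by norm_num)
    linarith
  have h2 := hz.sq_le EhrM.ehr_bound i h1
  have h3 : JJ (pc z i) ^ 2 / CC ≤ kap ι * JJ (pc z i) ^ 2 / CC := by
    rw [mul_div_assoc]
    have : 0 ≤ JJ (pc z i) ^ 2 / CC := div_nonneg (sq_nonneg _) CC_pos.le
    nlinarith
  have e : (9 / (8 * Real.pi)) = CC := rfl
  rw [e, one_mul]
  linarith

/-- at least five cells, from the three numerical inequalities -/
theorem no_crit_of_num (h4 : PK E 4) {z : ι → E} (hz : Crit z)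
    {T : Fin 3 → ι} {i4 i5 : ι} (hT : Function.Injective T) (hi4 : i4 ∈ out T)
    (h01 : ‖z (T 1)‖ ^ 2 ≤ ‖z (T 0)‖ ^ 2) (h12 : ‖z (T 2)‖ ^ 2 ≤ ‖z (T 1)‖ ^ 2)
    (h5 : ∀ l ∈ out T, l ≠ i4 → ‖z l‖ ^ 2 ≤ ‖z i5‖ ^ 2)
    (hS : ‖z (T 0)‖ ^ 2 + ‖z (T 1)‖ ^ 2 + ‖z (T 2)‖ ^ 2 ≤ 0.41)
    (ha : ‖z (T 0)‖ ^ 2 - ‖z (T 1)‖ ^ 2 ≤ 61 / 1000)
    (hb : ∑ i ∈ out T, ‖z i‖ ^ 2 ≤ 9 / 100)
    (hc : 5 / 9 * ∑ i ∈ out T, ‖z i‖ ^ 2 + 10.4 * ‖z i5‖ ^ 2
      + 0.26 * (‖z (T 0)‖ ^ 2 - ‖z (T 1)‖ ^ 2) ≤ ‖z (T 2)‖ ^ 2) : False := by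
  apply near5K hz h4 hT hi4
  intro i hi hi4'
  have hC := CC_lower
  have hu0 : 0 ≤ uU z T := Finset.sum_nonneg (fun i _ => by positivity)
  have hub : uU z T ≤ 9 / 100 := hb
  have hc' : 5 / 9 * uU z T + 10.4 * ‖z i5‖ ^ 2
      + 0.26 * (‖z (T 0)‖ ^ 2 - ‖z (T 1)‖ ^ 2) ≤ ‖z (T 2)‖ ^ 2 := hc
  have h50 : 0 ≤ ‖z i5‖ ^ 2 := by positivity
  have hII : ‖z (T 0)‖ ^ 2 ≤ 15916 / 100000 := by
    have h1 := hz.norm_le_II (T 0)
    have h2 := pow_le_pow_left₀ (norm_nonneg _) h1 2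
    exact h2.trans (GNum.II_sq_le _)
  have hne : z i ≠ 0 := norm_pos_iff.mp (hz.norm_pos i)
  have hK := area5 hz hT h12 h01 (by linarith) (by linarith) hi hne
  exact glue_real hC (by positivity) (h5 i hi hi4') h01 h12 hII hu0 hS ha hub hc' hK

end

end Near

end GP

end Vale.Agent.P226
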