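import Mathlib

open MeasureTheory Set Real

namespace Vale.Agent.P226

lemma arctan_lower {y : ℝ} (hy : 0 ≤ y) : y / (1 + y^2) ≤ arctan y := by
  have hd : ∀ x : ℝ, HasDerivAt (fun y => arctan y - y / (1+y^2)) (2*x^2/(1+x^2)^2) x := by
    intro x
    have h0 : HasDerivAt (fun y : ℝ => 1 + y^2) (2 * x) x := by
      simpa using ((hasDerivAt_pow 2 x).const_add (1:ℝ))
    have h1 : HasDerivAt (fun y => arctan y - y / (1+y^2))
        (1 / (1 + x^2) - (1 * (1 + x^2) - x * (2 * x)) / (1 + x^2)^2) x :=
      (hasDerivAt_arctan x).sub ((hasDerivAt_id x).div h0 (by positivity))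
    have e : 2*x^2/(1+x^2)^2 = 1 / (1 + x^2) - (1 * (1 + x^2) - x * (2 * x)) / (1 + x^2)^2 := by
      have : (1 + x^2) ≠ 0 := by positivity
      field_simp
      ring
    rw [e]; exact h1
  have hmono : Monotone (fun y => arctan y - y / (1+y^2)) := by
    apply monotone_of_deriv_nonneg (fun x => (hd x).differentiableAt)
    intro x; rw [(hd x).deriv]; positivity
  have := hmono hy
  simp at this
  linarith

/-- `x - arctan x`. -/
noncomputable def hh (x : ℝ) : ℝ := x - arctan x

lemma hasDerivAt_hh (x : ℝ) : HasDerivAt hh (x^2/(1+x^2)) x := by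
  have h1 : HasDerivAt (fun y => y - arctan y) (1 - 1 / (1 + x^2)) x :=
    (hasDerivAt_id x).sub (hasDerivAt_arctan x)
  have e : x^2/(1+x^2) = 1 - 1 / (1 + x^2) := by
    have : (1 + x^2) ≠ 0 := by positivity
    field_simp
    ring
  rw [e]; exact h1

lemma hh_mono : Monotone hh := by
  apply monotone_of_deriv_nonneg (fun x => (hasDerivAt_hh x).differentiableAt)
  intro x; rw [(hasDerivAt_hh x).deriv]; positivity

lemma hh_nonneg {x : ℝ} (hx : 0 ≤ x) : 0 ≤ hh x := by
  have := hh_mono hx
  simpa [hh] using this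

/-- end point inequality -/
lemma hh_endpoint {p : ℝ} (hp : 0 < p) : hh p + hh p⁻¹ ≤ hh (sqrt (1 + p^2 + p⁻¹^2)) := by
  set w := sqrt (1 + p^2 + p⁻¹^2) with hw
  have hwsq : w^2 = 1 + p^2 + p⁻¹^2 := Real.sq_sqrt (by positivity)
  have hw0 : 0 < w := Real.sqrt_pos.mpr (by positivity)
  set m := p + p⁻¹ with hm
  have hpp : p * p⁻¹ = 1 := mul_inv_cancel₀ hp.ne'
  have hinv : 0 < p⁻¹ := by positivity
  have hm2 : m^2 = w^2 + 1 := by rw [hwsq, hm]; nlinarith
  have hm1 : 2 ≤ m := by nlinarith [sq_nonneg (p - p⁻¹)]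
  have hw1 : 1 ≤ w := by nlinarith
  unfold hh
  have h1 : arctan p⁻¹ = π/2 - arctan p := arctan_inv_of_pos hp
  have h2 : arctan w⁻¹ = π/2 - arctan w := arctan_inv_of_pos hw0
  have h3 := arctan_lower (inv_nonneg.mpr hw0.le)
  have h4 : w⁻¹ / (1 + w⁻¹^2) = w / m^2 := by
    rw [hm2]; field_simp; 
  have hm0 : 0 < m := by linarith
  have h5 : m - w ≤ w / m^2 := by
    rw [le_div_iff₀ (by positivity)]
    have h6 : (m - w) * (m + w) = 1 := by nlinarith
    have h7 : 0 < m + w := by linarith
    have h8 : m - w = 1 / (m + w) := by field_simp; linarith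
    rw [h8, div_mul_eq_mul_div, one_mul, div_le_iff₀ h7]
    nlinarith
  rw [h4] at h3
  have : p + p⁻¹ = m := rfl
  linarith

/-- The planar inequality. -/
lemma hh_planar {p q : ℝ} (hp : 0 ≤ p) (hq : 0 ≤ q) (hpq : p * q ≤ 1) :
    hh p + hh q ≤ hh (sqrt (1 + p^2 + q^2)) := by
  rcases eq_or_lt_of_le hp with rfl | hp0
  · have h1 : q ≤ sqrt (1 + 0^2 + q^2) := by
      apply Real.le_sqrt_of_sq_le; nlinarith
    have h2 := hh_mono h1
    have h3 : hh 0 = 0 := by simp [hh]
    rw [h3, zero_add]; exact h2
  set w : ℝ → ℝ := fun q => sqrt (1 + p^2 + q^2) with hw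
  have hwpos : ∀ x, 0 < w x := fun x => Real.sqrt_pos.mpr (by positivity)
  have hwsq : ∀ x, w x ^ 2 = 1 + p^2 + x^2 := fun x => Real.sq_sqrt (by positivity)
  have hwlt : ∀ x, x < w x := fun x => by
    by_contra hcon
    push Not at hcon
    have h1 := hwpos x
    have h2 := hwsq x
    nlinarith
  set Φ : ℝ → ℝ := fun q => hh (w q) - hh q - hh p with hΦ
  have hwd : ∀ x, HasDerivAt w (x / w x) x := by
    intro x
    have h1 : HasDerivAt (fun x : ℝ => 1 + p^2 + x^2) (2 * x) x := by
      have := ((hasDerivAt_id x).pow 2).const_add (1 + p^2)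
      simpa using this
    have h2 := h1.sqrt (by positivity)
    convert h2 using 1
    show x / w x = 2 * x / (2 * w x)
    have := (hwpos x).ne'
    field_simp
  have hd : ∀ x, HasDerivAt Φ (x * (w x - x) * (1 - x * w x) / ((1 + w x^2) * (1 + x^2))) x := by
    intro x
    have h1 : HasDerivAt Φ (w x^2/(1+w x^2) * (x / w x) - x^2/(1+x^2)) x :=
      (((hasDerivAt_hh (w x)).comp x (hwd x)).sub (hasDerivAt_hh x)).sub_const (hh p)
    have e : x * (w x - x) * (1 - x * w x) / ((1 + w x^2) * (1 + x^2))
        = w x^2/(1+w x^2) * (x / w x) - x^2/(1+x^2) := by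
      have := (hwpos x).ne'
      have h3 : 1 + x^2 ≠ 0 := by positivity
      have h4 : 1 + w x^2 ≠ 0 := by positivity
      field_simp
      ring
    rw [e]; exact h1
  have hcont : Continuous Φ := continuous_iff_continuousAt.mpr (fun x => (hd x).continuousAt)
  have hqp : q ≤ p⁻¹ := by
    rw [← mul_le_mul_iff_right₀ hp0, mul_inv_cancel₀ hp0.ne']; exact hpq
  have hfin : 0 ≤ Φ q := by
    have hwmono : ∀ x y, 0 ≤ x → x ≤ y → w x ≤ w y := by
      intro x y hx hxy
      apply Real.sqrt_le_sqrt; nlinarith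
    by_cases hc : q * w q ≤ 1
    · -- increasing on [0,q]
      have hm : MonotoneOn Φ (Icc 0 q) := by
        apply monotoneOn_of_deriv_nonneg (convex_Icc _ _) hcont.continuousOn
          (fun x _ => (hd x).differentiableAt.differentiableWithinAt)
        intro x hx
        rw [interior_Icc] at hx
        rw [(hd x).deriv]
        have h1 : x * w x ≤ 1 := by
          have := hwmono x q hx.1.le hx.2.le
          have h2 := hwpos x
          nlinarith [hx.1, hx.2]
        have h2 := hwlt x
        apply div_nonneg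
        · apply mul_nonneg (mul_nonneg hx.1.le (by linarith)) (by linarith)
        · positivity
      have h1 := hm ⟨le_refl 0, hq⟩ ⟨hq, le_refl q⟩ hq
      have h2 : 0 ≤ Φ 0 := by
        show 0 ≤ hh (w 0) - hh 0 - hh p
        have h3 : p ≤ w 0 := by
          apply Real.le_sqrt_of_sq_le; nlinarith
        have h4 := hh_mono h3
        have h5 : hh 0 = 0 := by simp [hh]
        linarith
      linarith
    · -- decreasing on [q, 1/p]
      push Not at hc
      have hm : AntitoneOn Φ (Icc q p⁻¹) := by
        apply antitoneOn_of_deriv_nonpos (convex_Icc _ _) hcont.continuousOn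
          (fun x _ => (hd x).differentiableAt.differentiableWithinAt)
        intro x hx
        rw [interior_Icc] at hx
        rw [(hd x).deriv]
        have hx0 : 0 ≤ x := hq.trans hx.1.le
        have h1 : 1 ≤ x * w x := by
          have := hwmono q x hq hx.1.le
          have h2 := hwpos q
          nlinarith [hx.1, hx.2]
        have h2 := hwlt x
        apply div_nonpos_of_nonpos_of_nonneg
        · apply mul_nonpos_of_nonneg_of_nonpos (mul_nonneg hx0 (by linarith)) (by linarith)
        · positivity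
      have h1 := hm ⟨le_refl q, hqp⟩ ⟨hqp, le_refl _⟩ hqp
      have h2 : 0 ≤ Φ p⁻¹ := by
        show 0 ≤ hh (w p⁻¹) - hh p⁻¹ - hh p
        have := hh_endpoint hp0
        show 0 ≤ hh (sqrt (1 + p^2 + p⁻¹^2)) - hh p⁻¹ - hh p
        linarith
      linarith
  have : Φ q = hh (sqrt (1 + p^2 + q^2)) - hh q - hh p := rfl
  linarith

/-- The integral of the positive part `(a cos θ - r)₊` over a quarter circle. -/
noncomputable def PP (r a : ℝ) : ℝ := ∫ θ in (0:ℝ)..(π/2), max (a * cos θ - r) 0

lemma PP_mono {r a b : ℝ} (hab : a ≤ b) : PP r a ≤ PP r b := by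
  unfold PP
  apply intervalIntegral.integral_mono_on (by positivity)
    (Continuous.intervalIntegrable (by fun_prop) _ _)
    (Continuous.intervalIntegrable (by fun_prop) _ _)
  intro θ hθ
  have : 0 ≤ cos θ := cos_nonneg_of_neg_pi_div_two_le_of_le (by linarith [hθ.1, pi_pos]) hθ.2
  apply max_le_max _ le_rfl
  nlinarith

lemma PP_eq_zero {r a : ℝ} (hr : 0 ≤ r) (har : a ≤ r) : PP r a = 0 := by
  unfold PP
  rw [intervalIntegral.integral_congr (g := fun _ => 0)]
  · simp
  intro θ hθ
  rw [uIcc_of_le (by positivity)] at hθ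
  have h0 : 0 ≤ cos θ := cos_nonneg_of_neg_pi_div_two_le_of_le (by linarith [hθ.1, pi_pos]) hθ.2
  have h1 := cos_le_one θ
  apply max_eq_right
  nlinarith

lemma PP_formula {r a : ℝ} (hr : 0 < r) (har : r < a) :
    PP r a = r * hh (sqrt (a^2 - r^2) / r) := by
  have ha : 0 < a := hr.trans har
  set θ₀ := arccos (r / a) with hθ₀
  have hra1 : r / a < 1 := by rw [div_lt_one ha]; exact har
  have hra0 : 0 < r / a := by positivity
  have h0 : 0 ≤ θ₀ := arccos_nonneg _
  have h1 : θ₀ ≤ π/2 := arccos_le_pi_div_two.mpr hra0.le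
  have hcos : cos θ₀ = r / a := cos_arccos (by linarith) hra1.le
  have hsq : sqrt (1 - (r/a)^2) = sqrt (a^2 - r^2) / a := by
    rw [show 1 - (r/a)^2 = (a^2 - r^2) / a^2 by field_simp, Real.sqrt_div' _ (sq_nonneg a),
      Real.sqrt_sq ha.le]
  have hsin : sin θ₀ = sqrt (a^2 - r^2) / a := by rw [hθ₀, sin_arccos, hsq]
  have hatan : θ₀ = arctan (sqrt (a^2 - r^2) / r) := by
    rw [hθ₀, arccos_eq_arctan hra0, hsq]
    congr 1
    field_simp
  unfold PP
  rw [← intervalIntegral.integral_add_adjacent_intervals (b := θ₀)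
    (Continuous.intervalIntegrable (by fun_prop) _ _) (Continuous.intervalIntegrable (by fun_prop) _ _)]
  have e1 : ∫ θ in (0:ℝ)..θ₀, max (a * cos θ - r) 0 = ∫ θ in (0:ℝ)..θ₀, (a * cos θ - r) := by
    apply intervalIntegral.integral_congr
    intro θ hθ
    rw [uIcc_of_le h0] at hθ
    apply max_eq_left
    have : cos θ₀ ≤ cos θ := cos_le_cos_of_nonneg_of_le_pi hθ.1 (by linarith [pi_pos]) hθ.2
    rw [hcos, div_le_iff₀ ha] at this
    linarith
  have e2 : ∫ θ in θ₀..(π/2), max (a * cos θ - r) 0 = 0 := by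
    rw [intervalIntegral.integral_congr (g := fun _ => 0)]
    · simp
    intro θ hθ
    rw [uIcc_of_le h1] at hθ
    apply max_eq_right
    have : cos θ ≤ cos θ₀ := cos_le_cos_of_nonneg_of_le_pi h0 (by linarith [pi_pos, hθ.2]) hθ.1
    rw [hcos, le_div_iff₀ ha] at this
    linarith
  rw [e1, e2, add_zero, intervalIntegral.integral_sub (Continuous.intervalIntegrable (by fun_prop) _ _)
    (Continuous.intervalIntegrable (by fun_prop) _ _), intervalIntegral.integral_const_mul,
    integral_cos, intervalIntegral.integral_const, hsin]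
  simp only [sin_zero, sub_zero, smul_eq_mul]
  unfold hh
  rw [← hatan]
  field_simp

lemma PP_super {r a b : ℝ} (hr : 0 ≤ r) (ha : 0 ≤ a) (hb : 0 ≤ b)
    (hcond : a * b ≤ r * sqrt (a^2 + b^2)) :
    PP r a + PP r b ≤ PP r (sqrt (a^2 + b^2)) := by
  have has : a ≤ sqrt (a^2 + b^2) := Real.le_sqrt_of_sq_le (by nlinarith)
  have hbs : b ≤ sqrt (a^2 + b^2) := Real.le_sqrt_of_sq_le (by nlinarith)
  by_cases hbr : b ≤ r
  · rw [PP_eq_zero hr hbr, add_zero]; exact PP_mono has
  by_cases har : a ≤ r
  · rw [PP_eq_zero hr har, zero_add]; exact PP_mono hbs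
  push Not at hbr har
  have hr0 : 0 < r := by
    rcases eq_or_lt_of_le hr with h | h
    · rw [← h] at hcond har hbr
      nlinarith [mul_pos har hbr]
    · exact h
  rw [PP_formula hr0 har, PP_formula hr0 hbr, PP_formula hr0 (lt_of_lt_of_le har has)]
  have hssq : sqrt (a^2 + b^2)^2 = a^2 + b^2 := Real.sq_sqrt (by positivity)
  have ha2 : 0 ≤ a^2 - r^2 := by nlinarith
  have hb2 : 0 ≤ b^2 - r^2 := by nlinarith
  set p := sqrt (a^2 - r^2) / r with hp
  set q := sqrt (b^2 - r^2) / r with hq
  have hp0 : 0 ≤ p := by positivity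
  have hq0 : 0 ≤ q := by positivity
  have hpsq : p^2 = (a^2 - r^2) / r^2 := by rw [hp, div_pow, Real.sq_sqrt ha2]
  have hqsq : q^2 = (b^2 - r^2) / r^2 := by rw [hq, div_pow, Real.sq_sqrt hb2]
  have hpq : p * q ≤ 1 := by
    have h1 : (p * q)^2 ≤ 1 := by
      rw [mul_pow, hpsq, hqsq, div_mul_div_comm, div_le_one (by positivity)]
      have h2 : (a*b)^2 ≤ (r * sqrt (a^2+b^2))^2 := by
        apply pow_le_pow_left₀ (by positivity) hcond
      rw [mul_pow r, hssq] at h2
      nlinarith
    have h3 : 0 ≤ p * q := by positivity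
    nlinarith
  have hw : sqrt (sqrt (a^2+b^2)^2 - r^2) / r = sqrt (1 + p^2 + q^2) := by
    have e : 1 + p^2 + q^2 = (sqrt (a^2+b^2)^2 - r^2) / r^2 := by
      rw [hpsq, hqsq, hssq]; field_simp; ring
    rw [e, Real.sqrt_div' _ (sq_nonneg r), Real.sqrt_sq hr0.le]
  rw [hw, ← mul_add]
  exact mul_le_mul_of_nonneg_left (hh_planar hp0 hq0 hpq) hr0.le

/-- Quarter-circle comparison. -/
lemma quarter_le {r a b : ℝ} (hr : 0 ≤ r) (ha : 0 ≤ a) (hb : 0 ≤ b) :
    ∫ θ in (0:ℝ)..(π/2), max r (max (a * cos θ) (b * sin θ))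
      ≤ ∫ θ in (0:ℝ)..(π/2), max r (sqrt (a^2+b^2) * cos θ) := by
  set s := sqrt (a^2 + b^2) with hs
  have hssq : s^2 = a^2 + b^2 := Real.sq_sqrt (by positivity)
  have hs0 : 0 ≤ s := Real.sqrt_nonneg _
  have hRHS : ∫ θ in (0:ℝ)..(π/2), max r (s * cos θ) = r * (π/2) + PP r s := by
    unfold PP
    have : ∀ θ, max r (s * cos θ) = r + max (s * cos θ - r) 0 := by
      intro θ
      rcases le_total r (s * cos θ) with h | h
      · rw [max_eq_right h, max_eq_left (by linarith)]; ring
      · rw [max_eq_left h, max_eq_right (by linarith)]; ring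
    simp only [this]
    rw [intervalIntegral.integral_add (Continuous.intervalIntegrable (by fun_prop) _ _)
      (Continuous.intervalIntegrable (by fun_prop) _ _)]
    simp [mul_comm]
  by_cases hcond : a * b ≤ r * s
  · have hsin : ∫ θ in (0:ℝ)..(π/2), max (b * sin θ - r) 0 = PP r b := by
      unfold PP
      have := intervalIntegral.integral_comp_sub_left (fun θ => max (b * cos θ - r) 0) (π/2)
        (a := 0) (b := π/2)
      simp only [cos_pi_div_two_sub] at this
      rw [this]; simp
    have h1 : ∫ θ in (0:ℝ)..(π/2), max r (max (a * cos θ) (b * sin θ))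
        ≤ ∫ θ in (0:ℝ)..(π/2), (r + max (a * cos θ - r) 0 + max (b * sin θ - r) 0) := by
      apply intervalIntegral.integral_mono_on (by positivity)
        (Continuous.intervalIntegrable (by fun_prop) _ _)
        (Continuous.intervalIntegrable (by fun_prop) _ _)
      intro θ _
      apply max_le
      · have h2 := le_max_right (a * cos θ - r) 0
        have h3 := le_max_right (b * sin θ - r) 0
        linarith
      · apply max_le
        · have h2 := le_max_left (a * cos θ - r) 0
          have h3 := le_max_right (b * sin θ - r) 0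
          linarith
        · have h2 := le_max_right (a * cos θ - r) 0
          have h3 := le_max_left (b * sin θ - r) 0
          linarith
    have h4 : ∫ θ in (0:ℝ)..(π/2), (r + max (a * cos θ - r) 0 + max (b * sin θ - r) 0)
        = r * (π/2) + PP r a + PP r b := by
      rw [intervalIntegral.integral_add (Continuous.intervalIntegrable (by fun_prop) _ _)
        (Continuous.intervalIntegrable (by fun_prop) _ _), hsin,
        intervalIntegral.integral_add (Continuous.intervalIntegrable (by fun_prop) _ _)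
        (Continuous.intervalIntegrable (by fun_prop) _ _)]
      have : ∫ θ in (0:ℝ)..(π/2), max (a * cos θ - r) 0 = PP r a := rfl
      rw [this]
      simp [mul_comm]
    rw [hRHS]
    have := PP_super hr ha hb hcond
    linarith
  · push Not at hcond
    have hs_pos : 0 < s := by
      rcases eq_or_lt_of_le hs0 with h | h
      · exfalso
        rw [← h] at hssq
        have : a = 0 := by nlinarith
        rw [this, ← h] at hcond; simp at hcond
      · exact h
    have hab : 0 < a * b := lt_of_le_of_lt (mul_nonneg hr hs0) hcond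
    have ha0 : 0 < a := lt_of_le_of_ne ha (fun h => by rw [← h] at hab; simp at hab)
    have hb0 : 0 < b := lt_of_le_of_ne hb (fun h => by rw [← h] at hab; simp at hab)
    have hbs1 : b / s < 1 := by
      rw [div_lt_one hs_pos]; nlinarith
    have hbs0 : 0 < b / s := by positivity
    set θ₁ := arccos (b / s) with hθ₁
    have h0 : 0 ≤ θ₁ := arccos_nonneg _
    have h1 : θ₁ ≤ π/2 := arccos_le_pi_div_two.mpr hbs0.le
    have hcos : cos θ₁ = b / s := cos_arccos (by linarith) hbs1.le
    have hsin : sin θ₁ = a / s := by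
      rw [hθ₁, sin_arccos]
      rw [show 1 - (b/s)^2 = (a/s)^2 by field_simp; rw [hssq]; ring]
      exact Real.sqrt_sq (by positivity)
    have hge : ∀ θ, r ≤ max (a * cos θ) (b * sin θ) ∨ sin θ < 0 ∨ cos θ < 0 := by
      intro θ
      by_contra hcon
      push Not at hcon
      obtain ⟨h2, h3, h4⟩ := hcon
      have h5 := max_lt_iff.mp h2
      have h6 : r < a * b / s := by rw [lt_div_iff₀ hs_pos]; exact hcond
      have h7 : cos θ < b / s := by
        rw [lt_div_iff₀ hs_pos]
        have : a * cos θ * s < a * b := by nlinarith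
        nlinarith
      have h8 : sin θ < a / s := by
        rw [lt_div_iff₀ hs_pos]
        have : b * sin θ * s < a * b := by nlinarith
        nlinarith
      have h9 : cos θ^2 < (b/s)^2 := by nlinarith
      have h10 : sin θ^2 < (a/s)^2 := by nlinarith
      have h11 : (b/s)^2 + (a/s)^2 = 1 := by
        rw [div_pow, div_pow, ← add_div, hssq]; field_simp; ring
      have := sin_sq_add_cos_sq θ
      linarith
    have hLHS : ∫ θ in (0:ℝ)..(π/2), max r (max (a * cos θ) (b * sin θ)) = s := by
      rw [← intervalIntegral.integral_add_adjacent_intervals (b := θ₁)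
        (Continuous.intervalIntegrable (by fun_prop) _ _)
        (Continuous.intervalIntegrable (by fun_prop) _ _)]
      have hr' : ∀ θ ∈ Icc (0:ℝ) (π/2), r ≤ max (a * cos θ) (b * sin θ) := by
        intro θ hθ
        rcases hge θ with h | h | h
        · exact h
        · exact absurd h (not_lt.mpr (sin_nonneg_of_nonneg_of_le_pi hθ.1 (by linarith [hθ.2, pi_pos])))
        · exact absurd h (not_lt.mpr (cos_nonneg_of_neg_pi_div_two_le_of_le
            (by linarith [hθ.1, pi_pos]) hθ.2))
      have e1 : ∫ θ in (0:ℝ)..θ₁, max r (max (a * cos θ) (b * sin θ)) = ∫ θ in (0:ℝ)..θ₁, a * cos θ := by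
        apply intervalIntegral.integral_congr
        intro θ hθ
        rw [uIcc_of_le h0] at hθ
        have h2 := hr' θ ⟨hθ.1, hθ.2.trans h1⟩
        show max r (max (a * cos θ) (b * sin θ)) = a * cos θ
        rw [max_eq_right h2]
        apply max_eq_left
        have h3 : cos θ₁ ≤ cos θ := cos_le_cos_of_nonneg_of_le_pi hθ.1 (by linarith [pi_pos]) hθ.2
        have h4 : sin θ ≤ sin θ₁ := sin_le_sin_of_le_of_le_pi_div_two (by linarith [hθ.1, pi_pos]) h1 hθ.2
        rw [hcos] at h3; rw [hsin] at h4
        calc b * sin θ ≤ b * (a / s) := by gcongr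
          _ = a * (b / s) := by ring
          _ ≤ a * cos θ := by gcongr
      have e2 : ∫ θ in θ₁..(π/2), max r (max (a * cos θ) (b * sin θ)) = ∫ θ in θ₁..(π/2), b * sin θ := by
        apply intervalIntegral.integral_congr
        intro θ hθ
        rw [uIcc_of_le h1] at hθ
        have h2 := hr' θ ⟨h0.trans hθ.1, hθ.2⟩
        show max r (max (a * cos θ) (b * sin θ)) = b * sin θ
        rw [max_eq_right h2]
        apply max_eq_right
        have h3 : cos θ ≤ cos θ₁ := cos_le_cos_of_nonneg_of_le_pi h0 (by linarith [pi_pos, hθ.2]) hθ.1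
        have h4 : sin θ₁ ≤ sin θ := sin_le_sin_of_le_of_le_pi_div_two (by linarith [pi_pos]) hθ.2 hθ.1
        rw [hcos] at h3; rw [hsin] at h4
        calc a * cos θ ≤ a * (b / s) := by gcongr
          _ = b * (a / s) := by ring
          _ ≤ b * sin θ := by gcongr
      rw [e1, e2, intervalIntegral.integral_const_mul, intervalIntegral.integral_const_mul,
        integral_cos, integral_sin, hsin, hcos]
      simp only [sin_zero, sub_zero, cos_pi_div_two]
      field_simp
      linarith
    rw [hLHS]
    calc s = ∫ θ in (0:ℝ)..(π/2), s * cos θ := by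
          rw [intervalIntegral.integral_const_mul, integral_cos]; simp
      _ ≤ ∫ θ in (0:ℝ)..(π/2), max r (s * cos θ) := by
          apply intervalIntegral.integral_mono_on (by positivity)
            (Continuous.intervalIntegrable (by fun_prop) _ _)
            (Continuous.intervalIntegrable (by fun_prop) _ _)
          intro θ _
          exact le_max_right _ _

end Vale.Agent.P226
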