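import Mathlib
import Vale.Agent.P226.Planar

open MeasureTheory Set Real ProbabilityTheory
open scoped ENNReal

namespace Vale.Agent.P226

lemma circle_four {F : ℝ → ℝ → ℝ} (hF : Continuous (Function.uncurry F)) :
    ∫ θ in (-π)..π, F |cos θ| |sin θ| = 4 * ∫ θ in (0:ℝ)..(π/2), F (cos θ) (sin θ) := by
  set g : ℝ → ℝ := fun θ => F |cos θ| |sin θ| with hg
  have hgc : Continuous g := hF.comp (continuous_cos.abs.prodMk continuous_sin.abs)
  have hi : ∀ a b, IntervalIntegrable g volume a b := fun a b => hgc.intervalIntegrable a b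
  have h1 : ∫ θ in (-π)..0, g θ = ∫ θ in (0:ℝ)..π, g θ := by
    have := intervalIntegral.integral_comp_neg (f := g) (a := 0) (b := π)
    simp only [neg_zero] at this
    rw [← this]
    congr 1; ext θ; simp [g]
  have h2 : ∫ θ in (π/2)..π, g θ = ∫ θ in (0:ℝ)..(π/2), g θ := by
    have := intervalIntegral.integral_comp_sub_left (f := g) π (a := 0) (b := π/2)
    rw [show π - π/2 = π/2 by ring, sub_zero] at this
    rw [← this]
    congr 1; ext θ; simp [g, cos_pi_sub, sin_pi_sub]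
  have h3 : ∫ θ in (0:ℝ)..(π/2), g θ = ∫ θ in (0:ℝ)..(π/2), F (cos θ) (sin θ) := by
    apply intervalIntegral.integral_congr
    intro θ hθ
    rw [uIcc_of_le (by positivity)] at hθ
    have hc : 0 ≤ cos θ := cos_nonneg_of_neg_pi_div_two_le_of_le (by linarith [hθ.1, pi_pos]) hθ.2
    have hs : 0 ≤ sin θ := sin_nonneg_of_nonneg_of_le_pi hθ.1 (by linarith [hθ.2, pi_pos])
    show F |cos θ| |sin θ| = _
    rw [abs_of_nonneg hc, abs_of_nonneg hs]
  calc ∫ θ in (-π)..π, g θ = (∫ θ in (-π)..0, g θ) + ∫ θ in (0:ℝ)..π, g θ :=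
        (intervalIntegral.integral_add_adjacent_intervals (hi _ _) (hi _ _)).symm
    _ = 2 * ∫ θ in (0:ℝ)..π, g θ := by rw [h1]; ring
    _ = 2 * ((∫ θ in (0:ℝ)..(π/2), g θ) + ∫ θ in (π/2)..π, g θ) := by
        rw [intervalIntegral.integral_add_adjacent_intervals (hi _ _) (hi _ _)]
    _ = _ := by rw [h2, h3]; ring

lemma circle_le {r a b : ℝ} (hr : 0 ≤ r) (ha : 0 ≤ a) (hb : 0 ≤ b) :
    ∫ θ in (-π)..π, max r (max (a * |cos θ|) (b * |sin θ|))
      ≤ ∫ θ in (-π)..π, max r (sqrt (a^2+b^2) * |cos θ|) := by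
  have h1 := circle_four (F := fun x y => max r (max (a * x) (b * y)))
    (by unfold Function.uncurry; fun_prop)
  have h2 := circle_four (F := fun x _ => max r (sqrt (a^2+b^2) * x))
    (by unfold Function.uncurry; fun_prop)
  rw [h1, h2]
  exact mul_le_mul_of_nonneg_left (quarter_le hr ha hb) (by norm_num)

lemma lintegral_Ioo_ofReal {f : ℝ → ℝ} (hf : Continuous f) (hf0 : ∀ x, 0 ≤ f x) :
    ∫⁻ θ in Ioo (-π) π, ENNReal.ofReal (f θ) = ENNReal.ofReal (∫ θ in (-π)..π, f θ) := by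
  rw [intervalIntegral.integral_of_le (by linarith [pi_pos]), integral_Ioc_eq_integral_Ioo,
    ofReal_integral_eq_lintegral_ofReal]
  · exact (hf.integrableOn_Icc (a := -π) (b := π)).mono_set Ioo_subset_Icc_self
  · exact Filter.Eventually.of_forall hf0

lemma circle_le_lintegral {r a b : ℝ} (hr : 0 ≤ r) (ha : 0 ≤ a) (hb : 0 ≤ b) :
    ∫⁻ θ in Ioo (-π) π, ENNReal.ofReal (max r (max (a * |cos θ|) (b * |sin θ|)))
      ≤ ∫⁻ θ in Ioo (-π) π, ENNReal.ofReal (max r (sqrt (a^2+b^2) * |cos θ|)) := by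
  rw [lintegral_Ioo_ofReal (by fun_prop) (fun x => le_max_of_le_left hr),
    lintegral_Ioo_ofReal (by fun_prop) (fun x => le_max_of_le_left hr)]
  exact ENNReal.ofReal_le_ofReal (circle_le hr ha hb)

/-- Polar coordinates for the planar Gaussian measure. -/
lemma gaussian_polar {F : ℝ × ℝ → ℝ≥0∞} (hF : Measurable F) :
    ∫⁻ x, ∫⁻ y, F (x, y) ∂(gaussianReal 0 1) ∂(gaussianReal 0 1)
      = ∫⁻ ρ in Ioi (0:ℝ), (ENNReal.ofReal ρ * (ENNReal.ofReal ((2*π)⁻¹ * exp (-ρ^2/2)))) *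
          ∫⁻ θ in Ioo (-π) π, F (ρ * cos θ, ρ * sin θ) := by
  have hpdf : Measurable (gaussianPDF 0 1) := measurable_gaussianPDF 0 1
  have e1 : ∀ u : ℝ → ℝ≥0∞, Measurable u →
      ∫⁻ y, u y ∂(gaussianReal 0 1) = ∫⁻ y, gaussianPDF 0 1 y * u y := by
    intro u hu
    rw [gaussianReal_of_var_ne_zero 0 one_ne_zero,
      lintegral_withDensity_eq_lintegral_mul _ hpdf hu]
    rfl
  have e2 : ∀ x, ∫⁻ y, F (x, y) ∂(gaussianReal 0 1) = ∫⁻ y, gaussianPDF 0 1 y * F (x, y) := fun x =>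
    e1 _ (hF.comp measurable_prodMk_left)
  have hm1 : Measurable (fun p : ℝ × ℝ => gaussianPDF 0 1 p.2 * F p) :=
    (hpdf.comp measurable_snd).mul hF
  have hm2 : Measurable (fun p : ℝ × ℝ => gaussianPDF 0 1 p.1 * (gaussianPDF 0 1 p.2 * F p)) :=
    (hpdf.comp measurable_fst).mul hm1
  simp only [e2]
  rw [e1 _ hm1.lintegral_prod_right']
  have e3 : ∀ x, gaussianPDF 0 1 x * ∫⁻ y, gaussianPDF 0 1 y * F (x, y)
      = ∫⁻ y, gaussianPDF 0 1 x * (gaussianPDF 0 1 y * F (x, y)) := fun x =>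
    (lintegral_const_mul _ (hm1.comp measurable_prodMk_left)).symm
  simp only [e3]
  have e4 : ∫⁻ x, ∫⁻ y, gaussianPDF 0 1 x * (gaussianPDF 0 1 y * F (x, y))
      = ∫⁻ p : ℝ × ℝ, gaussianPDF 0 1 p.1 * (gaussianPDF 0 1 p.2 * F p) := by
    rw [Measure.volume_eq_prod, lintegral_prod _ hm2.aemeasurable]
  rw [e4, ← lintegral_comp_polarCoord_symm]
  have hden : ∀ ρ θ : ℝ, gaussianPDF 0 1 (ρ * cos θ) * gaussianPDF 0 1 (ρ * sin θ)
      = ENNReal.ofReal ((2*π)⁻¹ * exp (-ρ^2/2)) := by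
    intro ρ θ
    simp only [gaussianPDF, gaussianPDFReal, NNReal.coe_one, mul_one, sub_zero]
    rw [← ENNReal.ofReal_mul (by positivity)]
    congr 1
    have h1 : (sqrt (2*π))⁻¹ * (sqrt (2*π))⁻¹ = (2*π)⁻¹ := by
      rw [← mul_inv, Real.mul_self_sqrt (by positivity)]
    calc (sqrt (2*π))⁻¹ * exp (-(ρ * cos θ)^2/2) * ((sqrt (2*π))⁻¹ * exp (-(ρ * sin θ)^2/2))
        = ((sqrt (2*π))⁻¹ * (sqrt (2*π))⁻¹) * (exp (-(ρ * cos θ)^2/2) * exp (-(ρ * sin θ)^2/2)) := by ring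
      _ = (2*π)⁻¹ * exp (-ρ^2/2) := by
        rw [h1, ← exp_add]
        congr 2
        have := sin_sq_add_cos_sq θ
        linear_combination (-ρ^2/2) * this
  have e5 : ∀ p : ℝ × ℝ, ENNReal.ofReal p.1 • (gaussianPDF 0 1 (polarCoord.symm p).1 *
      (gaussianPDF 0 1 (polarCoord.symm p).2 * F (polarCoord.symm p)))
      = (ENNReal.ofReal p.1 * (ENNReal.ofReal ((2*π)⁻¹ * exp (-p.1^2/2)))) *
        F (p.1 * cos p.2, p.1 * sin p.2) := by
    intro p
    have : polarCoord.symm p = (p.1 * cos p.2, p.1 * sin p.2) := by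
      simp [polarCoord]
    rw [this, smul_eq_mul, ← hden p.1 p.2]
    ring
  simp only [e5]
  have htarget : polarCoord.target = Ioi (0:ℝ) ×ˢ Ioo (-π) π := rfl
  have hm3 : Measurable (fun p : ℝ × ℝ => F (p.1 * cos p.2, p.1 * sin p.2)) :=
    hF.comp (by fun_prop)
  have hm4 : Measurable (fun p : ℝ × ℝ =>
      (ENNReal.ofReal p.1 * (ENNReal.ofReal ((2*π)⁻¹ * exp (-p.1^2/2)))) *
        F (p.1 * cos p.2, p.1 * sin p.2)) :=
    Measurable.mul (by fun_prop) hm3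
  rw [htarget, Measure.volume_eq_prod, ← Measure.prod_restrict, lintegral_prod _ hm4.aemeasurable]
  apply lintegral_congr
  intro ρ
  have hm5 : Measurable (fun y => F (ρ * cos y, ρ * sin y)) := hm3.comp measurable_prodMk_left
  show ∫⁻ y in Ioo (-π) π, (ENNReal.ofReal ρ * ENNReal.ofReal ((2*π)⁻¹ * exp (-ρ^2/2)))
    * F (ρ * cos y, ρ * sin y) = _
  exact lintegral_const_mul _ hm5

/-- Merging two independent Gaussian variables increases the expected maximum. -/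
theorem merge2 {r a b : ℝ} (hr : 0 ≤ r) (ha : 0 ≤ a) (hb : 0 ≤ b) :
    ∫⁻ x, ∫⁻ y, ENNReal.ofReal (max r (max (a * |x|) (b * |y|))) ∂(gaussianReal 0 1) ∂(gaussianReal 0 1)
      ≤ ∫⁻ x, ENNReal.ofReal (max r (sqrt (a^2+b^2) * |x|)) ∂(gaussianReal 0 1) := by
  have hR : ∫⁻ x, ENNReal.ofReal (max r (sqrt (a^2+b^2) * |x|)) ∂(gaussianReal 0 1)
      = ∫⁻ x, ∫⁻ _ : ℝ, ENNReal.ofReal (max r (sqrt (a^2+b^2) * |x|)) ∂(gaussianReal 0 1)
          ∂(gaussianReal 0 1) := by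
    simp
  rw [hR, gaussian_polar (F := fun p => ENNReal.ofReal (max r (max (a * |p.1|) (b * |p.2|))))
    (by fun_prop), gaussian_polar (F := fun p => ENNReal.ofReal (max r (sqrt (a^2+b^2) * |p.1|)))
    (by fun_prop)]
  apply setLIntegral_mono' measurableSet_Ioi
  intro ρ hρ
  have hρ0 : 0 < ρ := hρ
  refine mul_le_mul' le_rfl ?_
  have h1 := circle_le_lintegral hr (mul_nonneg ha hρ0.le) (mul_nonneg hb hρ0.le)
  have e1 : ∀ θ, max r (max (a * ρ * |cos θ|) (b * ρ * |sin θ|))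
      = max r (max (a * |ρ * cos θ|) (b * |ρ * sin θ|)) := by
    intro θ; rw [abs_mul, abs_mul, abs_of_pos hρ0, mul_assoc, mul_assoc]
  have e2 : ∀ θ, max r (sqrt ((a*ρ)^2+(b*ρ)^2) * |cos θ|) = max r (sqrt (a^2+b^2) * |ρ * cos θ|) := by
    intro θ
    rw [show (a*ρ)^2+(b*ρ)^2 = (a^2+b^2) * ρ^2 by ring, Real.sqrt_mul (by positivity),
      Real.sqrt_sq hρ0.le, abs_mul, abs_of_pos hρ0, mul_assoc]
  simp only [e1, e2] at h1
  exact h1

/-- `E|ξ| = √(2/π)` in the extended nonnegative reals. -/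
lemma lintegral_abs_gaussian (s : ℝ) (hs : 0 ≤ s) :
    ∫⁻ x, ENNReal.ofReal (s * |x|) ∂(gaussianReal 0 1) = ENNReal.ofReal (sqrt (2/π) * s) := by
  have hpdf : Measurable (gaussianPDF 0 1) := measurable_gaussianPDF 0 1
  have h0 : ∫⁻ x, ENNReal.ofReal (s * |x|) ∂(gaussianReal 0 1)
      = ∫⁻ x, ENNReal.ofReal ((sqrt (2*π))⁻¹ * exp (-x^2/2) * (s * |x|)) := by
    rw [gaussianReal_of_var_ne_zero 0 one_ne_zero,
      lintegral_withDensity_eq_lintegral_mul _ hpdf (by fun_prop)]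
    congr 1; ext x
    simp only [Pi.mul_apply, gaussianPDF, gaussianPDFReal, NNReal.coe_one, mul_one, sub_zero]
    rw [← ENNReal.ofReal_mul (by positivity)]
  have hint0 : ∫ x in Ioi (0:ℝ), x * exp (-(1/2) * x^2) = 1 := by
    have h := integral_rpow_mul_exp_neg_mul_rpow (p := 2) (q := 1) (b := 1/2) (by norm_num)
      (by norm_num) (by norm_num)
    have e : ∀ x : ℝ, x ^ (1:ℝ) * exp (-(1/2) * x ^ (2:ℝ)) = x * exp (-(1/2) * x^2) := by
      intro x; rw [rpow_one, rpow_two]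
    simp only [e] at h
    rw [h]
    norm_num
  have hintg : Integrable (fun x : ℝ => (sqrt (2*π))⁻¹ * exp (-x^2/2) * (s * |x|)) := by
    have h1 := (integrable_mul_exp_neg_mul_sq (b := 1/2) (by norm_num)).norm.const_mul
      ((sqrt (2*π))⁻¹ * s)
    refine h1.congr (Filter.Eventually.of_forall fun x => ?_)
    simp only [norm_mul, Real.norm_eq_abs, abs_exp]
    rw [show -(1/2) * x^2 = -x^2/2 by ring]
    ring
  rw [h0, ← ofReal_integral_eq_lintegral_ofReal hintg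
    (Filter.Eventually.of_forall fun x => by positivity)]
  congr 1
  have h2 := integral_comp_abs (f := fun x : ℝ => (sqrt (2*π))⁻¹ * exp (-x^2/2) * (s * x))
  simp only [sq_abs] at h2
  rw [h2]
  have h3 : ∫ x in Ioi (0:ℝ), (sqrt (2*π))⁻¹ * exp (-x^2/2) * (s * x)
      = (sqrt (2*π))⁻¹ * s * ∫ x in Ioi (0:ℝ), x * exp (-(1/2) * x^2) := by
    rw [← integral_const_mul]
    congr 1; ext x
    rw [show -(1/2) * x^2 = -x^2/2 by ring]
    ring
  rw [h3, hint0, mul_one]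
  have h4 : sqrt (2/π) = 2 * (sqrt (2*π))⁻¹ := by
    rw [show (2:ℝ)/π = 2^2 / (2*π) by field_simp, Real.sqrt_div' _ (by positivity),
      Real.sqrt_sq (by norm_num)]
    ring
  rw [h4]; ring

end Vale.Agent.P226
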