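import Mathlib
import Vale.Agent.P226.PL

open MeasureTheory Set ProbabilityTheory
open scoped ENNReal Pointwise

namespace Vale.Agent.P226

/-- Chebyshev association for a symmetric interval and an even radially decreasing function. -/
lemma slab_assoc {ν : Measure ℝ} [IsProbabilityMeasure ν] {f : ℝ → ℝ≥0∞}
    (hanti : ∀ s s', |s| ≤ |s'| → f s' ≤ f s) {τ : ℝ} (hτ : 0 ≤ τ) :
    ν {s | |s| ≤ τ} * ∫⁻ s, f s ∂ν ≤ ∫⁻ s in {s | |s| ≤ τ}, f s ∂ν := by
  set I : Set ℝ := {s | |s| ≤ τ} with hI
  have hIm : MeasurableSet I := measurableSet_le measurable_id.abs measurable_const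
  have hsplit : ∫⁻ s, f s ∂ν = ∫⁻ s in I, f s ∂ν + ∫⁻ s in Iᶜ, f s ∂ν :=
    (lintegral_add_compl f hIm).symm
  have h1 : ∫⁻ s in Iᶜ, f s ∂ν ≤ f τ * ν Iᶜ := by
    rw [← setLIntegral_const]
    apply setLIntegral_mono' hIm.compl
    intro s hs
    apply hanti
    have : τ < |s| := by simpa [hI] using hs
    rw [abs_of_nonneg hτ]; exact this.le
  have h2 : f τ * ν I ≤ ∫⁻ s in I, f s ∂ν := by
    rw [← setLIntegral_const]
    apply setLIntegral_mono' hIm
    intro s hs
    apply hanti
    rw [abs_of_nonneg hτ]; exact hs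
  have h3 : ν I + ν Iᶜ = 1 := by rw [measure_add_measure_compl hIm, measure_univ]
  calc ν I * ∫⁻ s, f s ∂ν = ν I * ∫⁻ s in I, f s ∂ν + ν I * ∫⁻ s in Iᶜ, f s ∂ν := by
        rw [hsplit, mul_add]
    _ ≤ ν I * ∫⁻ s in I, f s ∂ν + ν I * (f τ * ν Iᶜ) := by gcongr
    _ = ν I * ∫⁻ s in I, f s ∂ν + ν Iᶜ * (f τ * ν I) := by ring
    _ ≤ ν I * ∫⁻ s in I, f s ∂ν + ν Iᶜ * ∫⁻ s in I, f s ∂ν := by gcongr
    _ = (ν I + ν Iᶜ) * ∫⁻ s in I, f s ∂ν := by ring
    _ = ∫⁻ s in I, f s ∂ν := by rw [h3, one_mul]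

/-- One-slab correlation inequality in a product. -/
lemma slab_prod {F : Type*} [AddCommGroup F] [Module ℝ F] [MeasurableSpace F] [MeasurableNeg F]
    {ν : Measure ℝ} [IsProbabilityMeasure ν] {π : Measure F} [IsProbabilityMeasure π]
    (hπ : PLprop π) (hsymm : π.map (fun x => -x) = π) {C : Set (ℝ × F)}
    (hC : MeasurableSet C) (hneg : ∀ x ∈ C, -x ∈ C) (hconv : Convex ℝ C) {τ : ℝ} (hτ : 0 ≤ τ) :
    ν {s | |s| ≤ τ} * (ν.prod π) C ≤ (ν.prod π) (C ∩ {p | |p.1| ≤ τ}) := by
  set f : ℝ → ℝ≥0∞ := fun s => π (Prod.mk s ⁻¹' C) with hf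
  have hfm : Measurable f := measurable_measure_prodMk_left hC
  have hCs : ∀ s, MeasurableSet (Prod.mk s ⁻¹' C : Set F) := fun s => measurable_prodMk_left hC
  have heven : ∀ s, f (-s) = f s := by
    intro s
    have hpre : (fun x : F => -x) ⁻¹' (Prod.mk s ⁻¹' C) = (Prod.mk (-s) ⁻¹' C : Set F) := by
      ext x
      simp only [mem_preimage]
      constructor
      · intro h
        have := hneg _ h
        simpa using this
      · intro h
        have := hneg _ h
        simpa using this
    show π (Prod.mk (-s) ⁻¹' C) = π (Prod.mk s ⁻¹' C)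
    conv_rhs => rw [← hsymm]
    rw [Measure.map_apply measurable_neg (hCs s), hpre]
  have hanti : ∀ s s', |s| ≤ |s'| → f s' ≤ f s := by
    intro s s' hss
    set a := |s'| with ha
    have hfa : f s' = f a := by
      rcases abs_cases s' with h | h
      · rw [ha, h.1]
      · rw [ha, h.1, heven]
    rw [hfa]
    have hab := abs_le.mp hss
    rcases eq_or_lt_of_le hab.1 with h1 | h1
    · rw [← h1, heven]
    rcases eq_or_lt_of_le hab.2 with h2 | h2
    · rw [h2]
    have hapos : 0 < a := by linarith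
    set c : ℝ := (1 - s / a) / 2 with hc
    have hsa : s / a < 1 := by rw [div_lt_one hapos]; exact h2
    have hsa' : -1 < s / a := by rw [lt_div_iff₀ hapos]; linarith
    have hc0 : 0 < c := by rw [hc]; linarith
    have hc1 : c < 1 := by rw [hc]; linarith
    have h1c : 0 < 1 - c := by linarith
    have hs : (1-c) * a + c * (-a) = s := by rw [hc]; field_simp; ring
    have hPL := hπ c hc0 hc1 (indicator (Prod.mk a ⁻¹' C) 1) (indicator (Prod.mk (-a) ⁻¹' C) 1)
      (indicator (Prod.mk s ⁻¹' C) 1) (measurable_one.indicator (hCs a))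
      (measurable_one.indicator (hCs (-a))) (measurable_one.indicator (hCs s)) ?_
    · rw [lintegral_indicator_one (hCs a), lintegral_indicator_one (hCs (-a)),
        lintegral_indicator_one (hCs s)] at hPL
      have e : f a = f a ^ (1-c) * f (-a) ^ c := by
        rw [heven, ← ENNReal.rpow_add_of_nonneg _ _ h1c.le hc0.le]; simp
      rw [e]; exact hPL
    · intro x y
      by_cases hx : x ∈ (Prod.mk a ⁻¹' C : Set F)
      · by_cases hy : y ∈ (Prod.mk (-a) ⁻¹' C : Set F)
        · have hmem : (1-c) • x + c • y ∈ (Prod.mk s ⁻¹' C : Set F) := by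
            have := hconv hx hy h1c.le hc0.le (by ring)
            have e : (1-c) • (a, x) + c • (-a, y) = (s, (1-c) • x + c • y) := by
              ext
              · simpa using hs
              · simp
            rw [e] at this
            exact this
          rw [indicator_of_mem hmem, indicator_of_mem hx, indicator_of_mem hy]
          simp
        · rw [indicator_of_notMem hy, ENNReal.zero_rpow_of_pos hc0, mul_zero]
          exact zero_le
      · rw [indicator_of_notMem hx, ENNReal.zero_rpow_of_pos h1c, zero_mul]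
        exact zero_le
  have hslab : MeasurableSet {p : ℝ × F | |p.1| ≤ τ} :=
    measurableSet_le measurable_fst.abs measurable_const
  rw [Measure.prod_apply hC, Measure.prod_apply (hC.inter hslab)]
  have e2 : ∫⁻ s, π (Prod.mk s ⁻¹' (C ∩ {p | |p.1| ≤ τ})) ∂ν = ∫⁻ s in {s | |s| ≤ τ}, f s ∂ν := by
    have hIm : MeasurableSet {s : ℝ | |s| ≤ τ} := measurableSet_le measurable_id.abs measurable_const
    rw [← lintegral_indicator hIm]
    congr 1; ext s
    by_cases hs : |s| ≤ τ
    · rw [indicator_of_mem (by exact hs)]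
      show π _ = π _
      congr 1; ext x; simp [hs]
    · rw [indicator_of_notMem (by exact hs)]
      have : (Prod.mk s ⁻¹' (C ∩ {p | |p.1| ≤ τ}) : Set F) = ∅ := by
        ext x; simp [hs]
      rw [this]; simp
  rw [e2]
  exact slab_assoc hanti hτ

lemma pi_gaussian_map_neg (n : ℕ) :
    (Measure.pi (fun _ : Fin n => gaussianReal 0 1)).map (fun x => -x)
      = Measure.pi (fun _ : Fin n => gaussianReal 0 1) := by
  have h : MeasurePreserving (fun x : ℝ => -x) (gaussianReal 0 1) (gaussianReal 0 1) :=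
    ⟨measurable_neg, by rw [gaussianReal_map_neg]; simp⟩
  exact (measurePreserving_pi (fun _ : Fin n => gaussianReal 0 1)
    (fun _ : Fin n => gaussianReal 0 1) (fun _ => h)).map_eq

variable {E : Type*} [NormedAddCommGroup E] [InnerProductSpace ℝ E] [FiniteDimensional ℝ E]
  [MeasurableSpace E] [BorelSpace E]

/-- Adapted coordinates for the standard Gaussian measure. -/
lemma exists_adapted {v : E} (hv : v ≠ 0) :
    ∃ (n : ℕ) (L : (ℝ × (Fin n → ℝ)) →ₗ[ℝ] E), Measurable L ∧
      ((gaussianReal 0 1).prod (Measure.pi (fun _ : Fin n => gaussianReal 0 1))).map L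
        = stdGaussian E ∧ ∀ p, inner ℝ (L p) v = ‖v‖ * p.1 := by
  have hnt : Nontrivial E := ⟨v, 0, hv⟩
  have hpos : 0 < Module.finrank ℝ E := Module.finrank_pos
  obtain ⟨n, hn⟩ : ∃ n, Module.finrank ℝ E = n + 1 := ⟨_, (Nat.succ_pred_eq_of_pos hpos).symm⟩
  have hnorm : ‖v‖ ≠ 0 := norm_ne_zero_iff.mpr hv
  have horth : Orthonormal ℝ (({0} : Set (Fin (n+1))).domRestrict (fun _ => (‖v‖⁻¹ • v))) := by
    constructor
    · intro i
      show ‖(‖v‖⁻¹ • v)‖ = 1
      rw [norm_smul, norm_inv, norm_norm, inv_mul_cancel₀ hnorm]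
    · intro i j hij
      exact absurd (Subsingleton.elim i j) hij
  obtain ⟨b, hb⟩ := horth.exists_orthonormalBasis_extension_of_card_eq (by simpa using hn)
  have hb0 : b 0 = ‖v‖⁻¹ • v := hb 0 rfl
  have hmp := (measurePreserving_piFinSuccAbove (fun _ : Fin (n+1) => gaussianReal 0 1) 0).symm
  let L0 : (Fin (n+1) → ℝ) →ₗ[ℝ] E :=
    { toFun := fun x => ∑ i, x i • b i
      map_add' := by intro x y; simp [add_smul, Finset.sum_add_distrib]
      map_smul' := by intro r x; simp [mul_smul, Finset.smul_sum] }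
  let L1 : (ℝ × (Fin n → ℝ)) →ₗ[ℝ] (Fin (n+1) → ℝ) :=
      { toFun := (MeasurableEquiv.piFinSuccAbove (fun _ : Fin (n+1) => ℝ) 0).symm
        map_add' := by
          intro x y
          ext i
          refine Fin.cases ?_ ?_ i <;> simp [MeasurableEquiv.piFinSuccAbove]
        map_smul' := by
          intro r x
          ext i
          refine Fin.cases ?_ ?_ i <;> simp [MeasurableEquiv.piFinSuccAbove] }
  have hL0 : Measurable L0 := by
    show Measurable (fun x : Fin (n+1) → ℝ => ∑ i, x i • b i)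
    fun_prop
  refine ⟨n, L0.comp L1, hL0.comp hmp.measurable, ?_, ?_⟩
  · have e1 : ((gaussianReal 0 1).prod (Measure.pi (fun _ : Fin n => gaussianReal 0 1))).map L1
        = Measure.pi (fun _ : Fin (n+1) => gaussianReal 0 1) := hmp.map_eq
    have e2 : ((gaussianReal 0 1).prod (Measure.pi (fun _ : Fin n => gaussianReal 0 1))).map (L0.comp L1)
        = (((gaussianReal 0 1).prod (Measure.pi (fun _ : Fin n => gaussianReal 0 1))).map L1).map L0 :=
      (Measure.map_map hL0 hmp.measurable).symm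
    rw [e2, e1, stdGaussian_eq_map_pi_orthonormalBasis b]
    rfl
  · intro p
    have hL1 : (L1 p) 0 = p.1 := by
      show (MeasurableEquiv.piFinSuccAbove (fun _ : Fin (n+1) => ℝ) 0).symm p 0 = p.1
      simp [MeasurableEquiv.piFinSuccAbove]
    show inner ℝ (∑ i, (L1 p) i • b i) v = _
    have hv' : v = ‖v‖ • b 0 := by rw [hb0, smul_smul, mul_inv_cancel₀ hnorm, one_smul]
    conv_lhs => rw [hv']
    rw [sum_inner]
    simp only [inner_smul_left, inner_smul_right, RCLike.conj_to_real]
    rw [Finset.sum_eq_single 0]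
    · rw [hL1]
      have : inner ℝ (b 0) (b 0) = (1:ℝ) := by
        rw [real_inner_self_eq_norm_sq, b.orthonormal.1 0]; norm_num
      rw [this]; ring
    · intro i _ hi
      rw [b.orthonormal.2 hi]; ring
    · intro h; exact absurd (Finset.mem_univ _) h

/-- Šidák's one-slab inequality for the standard Gaussian measure. -/
theorem slab_stdGaussian (v : E) {C : Set E} (hC : MeasurableSet C) (hneg : ∀ x ∈ C, -x ∈ C)
    (hconv : Convex ℝ C) {t : ℝ} (ht : 0 ≤ t) :
    gaussianReal 0 1 {s | ‖v‖ * |s| ≤ t} * stdGaussian E C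
      ≤ stdGaussian E (C ∩ {x | |inner ℝ x v| ≤ t}) := by
  rcases eq_or_ne v 0 with rfl | hv
  · have : C ∩ {x : E | |inner ℝ x (0:E)| ≤ t} = C := by
      ext x; simp [ht]
    rw [this]
    calc _ ≤ 1 * stdGaussian E C := by gcongr; exact prob_le_one
      _ = _ := one_mul _
  · obtain ⟨n, L, hL, hmap, hin⟩ := exists_adapted hv
    have hnorm : 0 < ‖v‖ := norm_pos_iff.mpr hv
    have hm2 : MeasurableSet (C ∩ {x : E | |inner ℝ x v| ≤ t}) :=
      hC.inter (measurableSet_le (by fun_prop) measurable_const)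
    rw [← hmap, Measure.map_apply hL hC, Measure.map_apply hL hm2]
    have hset : {s : ℝ | ‖v‖ * |s| ≤ t} = {s | |s| ≤ t / ‖v‖} := by
      ext s
      simp only [mem_ofPred_eq]
      rw [le_div_iff₀ hnorm, mul_comm]
    have hpre : L ⁻¹' (C ∩ {x : E | |inner ℝ x v| ≤ t})
        = L ⁻¹' C ∩ {p : ℝ × (Fin n → ℝ) | |p.1| ≤ t / ‖v‖} := by
      ext p
      simp only [mem_preimage, mem_inter_iff, mem_ofPred_eq, hin, abs_mul, abs_norm]
      rw [le_div_iff₀ hnorm, mul_comm]
    rw [hset, hpre]
    apply slab_prod (plprop_gaussianReal.pi n) (pi_gaussian_map_neg n) (hL hC) _ _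
      (div_nonneg ht hnorm.le)
    · intro x hx
      show L (-x) ∈ C
      rw [map_neg]; exact hneg _ hx
    · exact hconv.linear_preimage L

/-- Comparison of the maximum of a symmetric quasi-convex function and the modulus of a linear
functional with the independent situation. -/
theorem lintegral_max_le (v : E) {N : E → ℝ} (hN : Measurable N) (hN0 : ∀ x, 0 ≤ N x)
    (heven : ∀ x, N (-x) = N x) (hq : ∀ t, Convex ℝ {x | N x ≤ t}) :
    ∫⁻ x, ENNReal.ofReal (max (N x) |inner ℝ x v|) ∂(stdGaussian E)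
      ≤ ∫⁻ s, ∫⁻ x, ENNReal.ofReal (max (N x) (‖v‖ * |s|)) ∂(stdGaussian E) ∂(gaussianReal 0 1) := by
  have hprod : ∫⁻ s, ∫⁻ x, ENNReal.ofReal (max (N x) (‖v‖ * |s|)) ∂(stdGaussian E) ∂(gaussianReal 0 1)
      = ∫⁻ p : ℝ × E, ENNReal.ofReal (max (N p.2) (‖v‖ * |p.1|))
        ∂((gaussianReal 0 1).prod (stdGaussian E)) := by
    rw [lintegral_prod]
    apply Measurable.aemeasurable
    exact ((hN.comp measurable_snd).max (measurable_const.mul measurable_fst.abs)).ennreal_ofReal
  rw [hprod]
  have l1 := lintegral_eq_lintegral_meas_lt (stdGaussian E) (f := fun x => max (N x) |inner ℝ x v|)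
    (Filter.Eventually.of_forall (fun x => le_max_of_le_left (hN0 x)))
    (hN.max (by fun_prop)).aemeasurable
  have l2 := lintegral_eq_lintegral_meas_lt ((gaussianReal 0 1).prod (stdGaussian E))
    (f := fun p : ℝ × E => max (N p.2) (‖v‖ * |p.1|))
    (Filter.Eventually.of_forall (fun p => le_max_of_le_left (hN0 p.2)))
    ((hN.comp measurable_snd).max (measurable_const.mul measurable_fst.abs)).aemeasurable
  rw [l1, l2]
  apply setLIntegral_mono' measurableSet_Ioi
  intro t ht
  have ht0 : 0 ≤ t := le_of_lt ht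
  have hCm : MeasurableSet {x : E | N x ≤ t} := measurableSet_le hN measurable_const
  have hSm : MeasurableSet {s : ℝ | ‖v‖ * |s| ≤ t} :=
    measurableSet_le (measurable_const.mul measurable_id.abs) measurable_const
  have e1 : {x : E | t < max (N x) |inner ℝ x v|} = ({x | N x ≤ t} ∩ {x | |inner ℝ x v| ≤ t})ᶜ := by
    ext x
    simp only [mem_ofPred_eq, mem_compl_iff, mem_inter_iff, lt_max_iff, not_and_or, not_le]
  have e2 : {p : ℝ × E | t < max (N p.2) (‖v‖ * |p.1|)}
      = ({s : ℝ | ‖v‖ * |s| ≤ t} ×ˢ {x : E | N x ≤ t})ᶜ := by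
    ext p
    simp only [mem_ofPred_eq, mem_compl_iff, mem_prod, lt_max_iff, not_and_or, not_le]
    tauto
  rw [e1, e2, prob_compl_eq_one_sub (hCm.inter (measurableSet_le (by fun_prop) measurable_const)),
    prob_compl_eq_one_sub (hSm.prod hCm)]
  apply tsub_le_tsub_left
  rw [Measure.prod_prod]
  exact slab_stdGaussian v hCm (fun x hx => by simpa [heven] using hx) (hq t) ht0

end Vale.Agent.P226
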