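import Mathlib
import Vale.Agent.P226.Sidak
import Vale.Agent.P226.Merge

open MeasureTheory Set Real ProbabilityTheory
open scoped ENNReal

namespace Vale.Agent.P226

/-- Expected maximum of `r` and independent centred Gaussian moduli, as iterated integral. -/
noncomputable def TT : List ℝ → ℝ → ℝ≥0∞
  | [], r => ENNReal.ofReal r
  | (σ :: l), r => ∫⁻ x, TT l (max r (σ * |x|)) ∂(gaussianReal 0 1)

lemma TT_le (l : List ℝ) (hl : ∀ σ ∈ l, 0 ≤ σ) (r : ℝ) (hr : 0 ≤ r) :
    TT l r ≤ ∫⁻ x, ENNReal.ofReal (max r (sqrt ((l.map (fun σ => σ^2)).sum) * |x|))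
      ∂(gaussianReal 0 1) := by
  induction l generalizing r with
  | nil => simp [TT, hr]
  | cons σ l ih =>
    have hσ : 0 ≤ σ := hl σ (by simp)
    have hl' : ∀ σ ∈ l, 0 ≤ σ := fun τ hτ => hl τ (by simp [hτ])
    set S := (l.map (fun σ => σ^2)).sum with hS
    have hS0 : 0 ≤ S := List.sum_nonneg (by
      intro x hx
      rw [List.mem_map] at hx
      obtain ⟨y, _, rfl⟩ := hx
      positivity)
    calc TT (σ :: l) r = ∫⁻ x, TT l (max r (σ * |x|)) ∂(gaussianReal 0 1) := rfl
      _ ≤ ∫⁻ x, ∫⁻ y, ENNReal.ofReal (max (max r (σ * |x|)) (sqrt S * |y|)) ∂(gaussianReal 0 1)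
          ∂(gaussianReal 0 1) :=
        lintegral_mono (fun x => ih hl' _ (le_max_of_le_left hr))
      _ = ∫⁻ x, ∫⁻ y, ENNReal.ofReal (max r (max (σ * |x|) (sqrt S * |y|))) ∂(gaussianReal 0 1)
          ∂(gaussianReal 0 1) := by simp only [max_assoc]
      _ ≤ ∫⁻ x, ENNReal.ofReal (max r (sqrt (σ^2 + sqrt S^2) * |x|)) ∂(gaussianReal 0 1) :=
        merge2 hr hσ (Real.sqrt_nonneg _)
      _ = _ := by
        rw [Real.sq_sqrt hS0, List.map_cons, List.sum_cons]

variable {E : Type*} [NormedAddCommGroup E] [InnerProductSpace ℝ E] [FiniteDimensional ℝ E]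
  [MeasurableSpace E] [BorelSpace E]

/-- The maximum of `r` and the moduli of the linear functionals given by the list. -/
noncomputable def MM : List E → ℝ → E → ℝ
  | [], r, _ => r
  | (v :: l), r, x => max (MM l r x) |inner ℝ x v|

omit [FiniteDimensional ℝ E] [MeasurableSpace E] [BorelSpace E] in
lemma le_MM (l : List E) (r : ℝ) (x : E) : r ≤ MM l r x := by
  induction l with
  | nil => exact le_rfl
  | cons v l ih => exact le_max_of_le_left ih

omit [FiniteDimensional ℝ E] [MeasurableSpace E] [BorelSpace E] in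
lemma inner_le_MM {l : List E} {v : E} (hv : v ∈ l) (r : ℝ) (x : E) : |inner ℝ x v| ≤ MM l r x := by
  induction l with
  | nil => simp at hv
  | cons w l ih =>
    rcases List.mem_cons.mp hv with rfl | h
    · exact le_max_right _ _
    · exact le_max_of_le_left (ih h)

omit [FiniteDimensional ℝ E] [MeasurableSpace E] [BorelSpace E] in
lemma MM_max (l : List E) (r t : ℝ) (x : E) : max (MM l r x) t = MM l (max r t) x := by
  induction l with
  | nil => rfl
  | cons v l ih =>
    show max (max (MM l r x) |inner ℝ x v|) t = max (MM l (max r t) x) |inner ℝ x v|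
    rw [← ih, max_right_comm]

omit [FiniteDimensional ℝ E] [MeasurableSpace E] [BorelSpace E] in
lemma MM_continuous (l : List E) (r : ℝ) : Continuous (MM l r) := by
  induction l with
  | nil => exact continuous_const
  | cons v l ih => exact ih.max (by fun_prop)

omit [FiniteDimensional ℝ E] [MeasurableSpace E] [BorelSpace E] in
lemma MM_neg (l : List E) (r : ℝ) (x : E) : MM l r (-x) = MM l r x := by
  induction l with
  | nil => rfl
  | cons v l ih =>
    show max (MM l r (-x)) |inner ℝ (-x) v| = max (MM l r x) |inner ℝ x v|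
    rw [ih, inner_neg_left, abs_neg]

omit [FiniteDimensional ℝ E] [MeasurableSpace E] [BorelSpace E] in
lemma MM_convex (l : List E) (r t : ℝ) : Convex ℝ {x : E | MM l r x ≤ t} := by
  induction l with
  | nil =>
    by_cases h : r ≤ t
    · have : {x : E | MM [] r x ≤ t} = univ := by ext x; simp [MM, h]
      rw [this]; exact convex_univ
    · have : {x : E | MM [] r x ≤ t} = ∅ := by ext x; simpa [MM] using h
      rw [this]; exact convex_empty
  | cons v l ih =>
    have : {x : E | MM (v :: l) r x ≤ t} = {x | MM l r x ≤ t} ∩ {x | |inner ℝ x v| ≤ t} := by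
      ext x
      show max (MM l r x) |inner ℝ x v| ≤ t ↔ _
      rw [max_le_iff]; rfl
    rw [this]
    apply ih.inter
    intro x hx y hy a b ha hb hab
    simp only [mem_ofPred_eq] at *
    rw [inner_add_left, inner_smul_left, inner_smul_left]
    simp only [RCLike.conj_to_real]
    calc |a * inner ℝ x v + b * inner ℝ y v| ≤ |a * inner ℝ x v| + |b * inner ℝ y v| := abs_add_le _ _
      _ = a * |inner ℝ x v| + b * |inner ℝ y v| := by
        rw [abs_mul, abs_mul, abs_of_nonneg ha, abs_of_nonneg hb]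
      _ ≤ a * t + b * t := by gcongr
      _ = t := by rw [← add_mul, hab, one_mul]

lemma lintegral_MM_le (l : List E) (r : ℝ) (hr : 0 ≤ r) :
    ∫⁻ x, ENNReal.ofReal (MM l r x) ∂(stdGaussian E) ≤ TT (l.map norm) r := by
  induction l generalizing r with
  | nil => simp [MM, TT]
  | cons v l ih =>
    calc ∫⁻ x, ENNReal.ofReal (MM (v :: l) r x) ∂(stdGaussian E)
        = ∫⁻ x, ENNReal.ofReal (max (MM l r x) |inner ℝ x v|) ∂(stdGaussian E) := rfl
      _ ≤ ∫⁻ s, ∫⁻ x, ENNReal.ofReal (max (MM l r x) (‖v‖ * |s|)) ∂(stdGaussian E)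
          ∂(gaussianReal 0 1) :=
        lintegral_max_le v (MM_continuous l r).measurable (fun x => hr.trans (le_MM l r x))
          (MM_neg l r) (MM_convex l r)
      _ = ∫⁻ s, ∫⁻ x, ENNReal.ofReal (MM l (max r (‖v‖ * |s|)) x) ∂(stdGaussian E)
          ∂(gaussianReal 0 1) := by simp only [MM_max]
      _ ≤ ∫⁻ s, TT (l.map norm) (max r (‖v‖ * |s|)) ∂(gaussianReal 0 1) :=
        lintegral_mono (fun s => ih _ (le_max_of_le_left hr))
      _ = TT ((v :: l).map norm) r := rfl

/-- The maximal inequality: `E max |⟨x, v⟩| ≤ √(2/π) √(∑ ‖v‖²)` over any finite list of vectors. -/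
theorem lintegral_MM_zero_le (l : List E) :
    ∫⁻ x, ENNReal.ofReal (MM l 0 x) ∂(stdGaussian E)
      ≤ ENNReal.ofReal (sqrt (2/π) * sqrt ((l.map (fun v => ‖v‖^2)).sum)) := by
  refine (lintegral_MM_le l 0 le_rfl).trans ((TT_le (l.map norm) ?_ 0 le_rfl).trans ?_)
  · intro σ hσ
    rw [List.mem_map] at hσ
    obtain ⟨v, _, rfl⟩ := hσ
    exact norm_nonneg v
  · rw [List.map_map]
    have e : ((fun σ : ℝ => σ^2) ∘ (norm : E → ℝ)) = fun v => ‖v‖^2 := rfl
    rw [e, ← lintegral_abs_gaussian _ (Real.sqrt_nonneg _)]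
    apply lintegral_mono
    intro x
    apply ENNReal.ofReal_le_ofReal
    rw [max_eq_right (by positivity)]

end Vale.Agent.P226
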