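import Vale.Agent.P226.Crit

/-!
# P226: configurations close to the propeller
-/

open MeasureTheory Set ProbabilityTheory
open scoped RealInnerProductSpace

namespace Vale.Agent.P226

namespace GP

namespace Near

set_option linter.unusedSectionVars false

noncomputable section

variable {E : Type*} [NormedAddCommGroup E] [InnerProductSpace ℝ E] [FiniteDimensional ℝ E]
  [MeasurableSpace E] [BorelSpace E]

/-- the gain of a vector `w` over the family `v` -/
def eps {κ : Type*} [Fintype κ] [Nonempty κ] (v : κ → E) (w : E) : ℝ :=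
  ∫ x, max (⟪x, w⟫ - mx v x) 0 ∂(stdGaussian E)

lemma integrable_eps {κ : Type*} [Fintype κ] [Nonempty κ] (v : κ → E) (w : E) :
    Integrable (fun x => max (⟪x, w⟫ - mx v x) 0) (stdGaussian E) :=
  ((integrable_inner_std _).sub (integrable_mx v)).pos_part

/-- inequality for four vectors, used for a centred triple and one more vector -/
lemma eps_le (h4 : PK E 4) (v : Fin 3 → E) (hv : ∑ j, v j = 0) (w : E) :
    eps v w ≤ (CC - 2 * EM v + SQ v) / 2 + 3 / 8 * ‖w‖ ^ 2 := by
  set y : Fin 4 → E := Fin.cons (w - (1 / 4 : ℝ) • w) (fun j => v j - (1 / 4 : ℝ) • w) with hy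
  have h1 := h4 (Fin 4) (by simp) y
  have hmx : ∀ x, mx y x = mx v x + max (⟪x, w⟫ - mx v x) 0 + ⟪x, -((1 / 4 : ℝ) • w)⟫ := by
    intro x
    have e0 : y = fun i => (Fin.cons w v : Fin 4 → E) i + -((1 / 4 : ℝ) • w) := by
      ext1 i
      refine Fin.cases ?_ ?_ i
      · simp [hy, sub_eq_add_neg]
      · intro j
        simp [hy, sub_eq_add_neg]
    rw [e0, mx_add_const]
    congr 1
    apply le_antisymm
    · apply mx_le
      intro i
      refine Fin.cases ?_ ?_ i
      · simp only [Fin.cons_zero]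
        have := le_max_left (⟪x, w⟫ - mx v x) 0
        linarith
      · intro j
        simp only [Fin.cons_succ]
        have := inner_le_mx v x j
        have := le_max_right (⟪x, w⟫ - mx v x) 0
        linarith
    · have h2 : mx v x ≤ mx (Fin.cons w v : Fin 4 → E) x := by
        apply mx_le
        intro j
        have := inner_le_mx (Fin.cons w v : Fin 4 → E) x j.succ
        simpa using this
      have h3 : ⟪x, w⟫ ≤ mx (Fin.cons w v : Fin 4 → E) x := by
        have := inner_le_mx (Fin.cons w v : Fin 4 → E) x 0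
        simpa using this
      rcases le_total (⟪x, w⟫ - mx v x) 0 with h | h
      · rw [max_eq_right h]; linarith
      · rw [max_eq_left h]; linarith
  have hEM : EM y = EM v + eps v w := by
    unfold EM eps
    simp only [hmx]
    have i1 : Integrable (fun x => mx v x + max (⟪x, w⟫ - mx v x) 0) (stdGaussian E) :=
      (integrable_mx v).add (integrable_eps v w)
    rw [integral_add i1 (integrable_inner_std _),
      integral_inner_std, add_zero, integral_add (integrable_mx v) (integrable_eps v w)]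
  have hSQ : SQ y = SQ v + 3 / 4 * ‖w‖ ^ 2 := by
    unfold SQ
    rw [Fin.sum_univ_succ]
    simp only [hy, Fin.cons_zero, Fin.cons_succ]
    simp only [norm_sub_sq_real, norm_smul, inner_smul_right, real_inner_self_eq_norm_sq]
    rw [Finset.sum_add_distrib, Finset.sum_sub_distrib, ← Finset.mul_sum, ← Finset.mul_sum,
      ← sum_inner, hv, inner_zero_left]
    simp
    ring
  rw [hEM, hSQ] at h1
  have h5 : 0 ≤ SQ v + 3 / 4 * ‖w‖ ^ 2 := by
    have := SQ_nonneg v
    positivity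
  have h6 := Real.sq_sqrt h5
  have h7 := sqrt_CC_sq
  nlinarith [sq_nonneg (√CC - √(SQ v + 3 / 4 * ‖w‖ ^ 2))]

lemma pen_nonneg (v : Fin 3 → E) : 0 ≤ CC - 2 * EM v + SQ v := by
  have h1 := (PK_three (E := E)) (Fin 3) (by simp) v
  have h6 := Real.sq_sqrt (SQ_nonneg v)
  have h7 := sqrt_CC_sq
  nlinarith [sq_nonneg (√CC - √(SQ v))]

section

variable {ι : Type} [Fintype ι] [DecidableEq ι]

/-- the indices outside the triple -/
def out (T : Fin 3 → ι) : Finset ι := Finset.univ.filter (fun i => ∀ j, i ≠ T j)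

lemma mem_out {T : Fin 3 → ι} {i : ι} : i ∈ out T ↔ ∀ j, i ≠ T j := by
  unfold out; simp

lemma sum_out {T : Fin 3 → ι} (hT : Function.Injective T) {M : Type*} [AddCommMonoid M]
    (f : ι → M) : ∑ i, f i = ∑ j, f (T j) + ∑ i ∈ out T, f i := by
  have h1 : ∑ j, f (T j) = ∑ i ∈ Finset.univ.image T, f i := by
    rw [Finset.sum_image (fun _ _ _ _ h => hT h)]
  have h2 : out T = Finset.univ \ Finset.univ.image T := by
    ext i
    simp only [mem_out, Finset.mem_sdiff, Finset.mem_univ, true_and, Finset.mem_image, not_exists]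
    exact forall_congr' (fun j => ⟨fun h h' => h h'.symm, fun h h' => h h'.symm⟩)
  rw [h1, h2, add_comm]
  exact (Finset.sum_sdiff (Finset.subset_univ _)).symm

/-- the sum of the vectors outside the triple -/
def zU (z : ι → E) (T : Fin 3 → ι) : E := ∑ i ∈ out T, z i

/-- the centred triple -/
def vT (z : ι → E) (T : Fin 3 → ι) (j : Fin 3) : E := z (T j) + (1 / 3 : ℝ) • zU z T

omit [FiniteDimensional ℝ E] [MeasurableSpace E] [BorelSpace E] in
lemma sum_T {z : ι → E} {T : Fin 3 → ι} (hT : Function.Injective T) (h0 : ∑ i, z i = 0) :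
    ∑ j, z (T j) = - zU z T := by
  have := sum_out hT z
  rw [h0] at this
  unfold zU
  exact eq_neg_of_add_eq_zero_left this.symm

omit [FiniteDimensional ℝ E] [MeasurableSpace E] [BorelSpace E] in
lemma sum_vT {z : ι → E} {T : Fin 3 → ι} (hT : Function.Injective T) (h0 : ∑ i, z i = 0) :
    ∑ j, vT z T j = 0 := by
  unfold vT
  rw [Finset.sum_add_distrib, sum_T hT h0]
  simp only [Finset.sum_const, Finset.card_univ, Fintype.card_fin]
  rw [← Nat.cast_smul_eq_nsmul ℝ, smul_smul]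
  norm_num

omit [FiniteDimensional ℝ E] [MeasurableSpace E] [BorelSpace E] in
lemma SQ_vT {z : ι → E} {T : Fin 3 → ι} (hT : Function.Injective T) (h0 : ∑ i, z i = 0) :
    SQ z = SQ (vT z T) + 1 / 3 * ‖zU z T‖ ^ 2 + ∑ i ∈ out T, ‖z i‖ ^ 2 := by
  have h1 : SQ (vT z T) = ∑ j, ‖z (T j)‖ ^ 2 - 1 / 3 * ‖zU z T‖ ^ 2 := by
    unfold SQ vT
    simp only [norm_add_sq_real, norm_smul, inner_smul_right]
    rw [Finset.sum_add_distrib, Finset.sum_add_distrib, ← Finset.mul_sum, ← Finset.mul_sum,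
      ← sum_inner, sum_T hT h0, inner_neg_left, real_inner_self_eq_norm_sq]
    simp
    ring
  unfold SQ at h1 ⊢
  rw [h1, sum_out hT]
  ring

lemma EM_split {z : ι → E} [Nonempty ι] (T : Fin 3 → ι) :
    EM z ≤ EM (vT z T) + (3 / 4 * ∑ i ∈ out T, eps (vT z T) ((4 / 3 : ℝ) • z i)
      + 1 / 4 * eps (vT z T) ((4 / 3 : ℝ) • zU z T)) := by
  set v := vT z T with hv
  have hi1 : Integrable (fun x => ∑ i ∈ out T, max (⟪x, (4 / 3 : ℝ) • z i⟫ - mx v x) 0)
      (stdGaussian E) := integrable_finsetSum _ (fun i _ => integrable_eps v _)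
  have i2 : Integrable (fun x => 3 / 4 * ∑ i ∈ out T, max (⟪x, (4 / 3 : ℝ) • z i⟫ - mx v x) 0)
      (stdGaussian E) := hi1.const_mul _
  have i3 : Integrable (fun x => 3 / 4 * ∑ i ∈ out T, max (⟪x, (4 / 3 : ℝ) • z i⟫ - mx v x) 0
      + 1 / 4 * max (⟪x, (4 / 3 : ℝ) • zU z T⟫ - mx v x) 0)
      (stdGaussian E) := i2.add ((integrable_eps v _).const_mul _)
  have i4 : Integrable (fun x => mx v x + (3 / 4 * ∑ i ∈ out T,
      max (⟪x, (4 / 3 : ℝ) • z i⟫ - mx v x) 0
      + 1 / 4 * max (⟪x, (4 / 3 : ℝ) • zU z T⟫ - mx v x) 0))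
      (stdGaussian E) := (integrable_mx v).add i3
  have h1 : ∀ x, mx z x ≤ mx v x + (3 / 4 * ∑ i ∈ out T, max (⟪x, (4 / 3 : ℝ) • z i⟫ - mx v x) 0
      + 1 / 4 * max (⟪x, (4 / 3 : ℝ) • zU z T⟫ - mx v x) 0) + ⟪x, -((1 / 3 : ℝ) • zU z T)⟫ := by
    intro x
    have hsum : 0 ≤ ∑ i ∈ out T, max (⟪x, (4 / 3 : ℝ) • z i⟫ - mx v x) 0 :=
      Finset.sum_nonneg (fun i _ => le_max_right _ _)
    have hm0 : 0 ≤ max (⟪x, (4 / 3 : ℝ) • zU z T⟫ - mx v x) 0 := le_max_right _ _
    have hm1 : ⟪x, (4 / 3 : ℝ) • zU z T⟫ - mx v x ≤ max (⟪x, (4 / 3 : ℝ) • zU z T⟫ - mx v x) 0 :=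
      le_max_left _ _
    apply mx_le
    intro i
    by_cases hi : ∃ j, i = T j
    · obtain ⟨j, rfl⟩ := hi
      have h2 := inner_le_mx v x j
      have h3 : ⟪x, v j⟫ = ⟪x, z (T j)⟫ + ⟪x, (1 / 3 : ℝ) • zU z T⟫ := by
        rw [hv]
        unfold vT
        rw [inner_add_right]
      rw [inner_neg_right]
      linarith
    · have hio : i ∈ out T := by
        rw [mem_out]
        push Not at hi
        exact hi
      have h4 : ⟪x, (4 / 3 : ℝ) • z i⟫ - mx v x
          ≤ ∑ i ∈ out T, max (⟪x, (4 / 3 : ℝ) • z i⟫ - mx v x) 0 :=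
        (le_max_left _ 0).trans (Finset.single_le_sum
          (f := fun i => max (⟪x, (4 / 3 : ℝ) • z i⟫ - mx v x) 0)
          (fun i _ => le_max_right _ _) hio)
      rw [inner_neg_right]
      simp only [inner_smul_right] at h4 hm1 ⊢
      linarith
  have h2 : EM z ≤ ∫ x, (mx v x + (3 / 4 * ∑ i ∈ out T, max (⟪x, (4 / 3 : ℝ) • z i⟫ - mx v x) 0
      + 1 / 4 * max (⟪x, (4 / 3 : ℝ) • zU z T⟫ - mx v x) 0) + ⟪x, -((1 / 3 : ℝ) • zU z T)⟫)
      ∂(stdGaussian E) := by
    exact integral_mono (integrable_mx z) (i4.add (integrable_inner_std _)) h1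
  refine h2.trans (le_of_eq ?_)
  rw [integral_add i4 (integrable_inner_std _),
    integral_inner_std, add_zero, integral_add (integrable_mx v) i3,
    integral_add i2 ((integrable_eps v _).const_mul _),
    integral_const_mul, integral_const_mul, integral_finsetSum _ (fun i _ => integrable_eps v _)]
  rfl

variable [Nontrivial ι]

/-- near-propeller, at least five cells -/
theorem near5 {z : ι → E} (hz : Crit z) (h4 : PK E 4) {T : Fin 3 → ι}
    (hT : Function.Injective T) {i4 : ι} (hi4 : i4 ∈ out T)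
    (h : ∀ i ∈ out T, i ≠ i4 → eps (vT z T) ((4 / 3 : ℝ) • z i) ≤ 2 / 3 * ‖z i‖ ^ 2) : False := by
  have h1 := EM_split (z := z) T
  have h2 := SQ_vT hT hz.sum_zero
  have h3 := eps_le h4 (vT z T) (sum_vT hT hz.sum_zero) ((4 / 3 : ℝ) • z i4)
  have h5 := eps_le h4 (vT z T) (sum_vT hT hz.sum_zero) ((4 / 3 : ℝ) • zU z T)
  have h6 : ∑ i ∈ (out T).erase i4, eps (vT z T) ((4 / 3 : ℝ) • z i)
      ≤ ∑ i ∈ (out T).erase i4, 2 / 3 * ‖z i‖ ^ 2 := by
    apply Finset.sum_le_sum
    intro i hi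
    rw [Finset.mem_erase] at hi
    exact h i hi.2 hi.1
  rw [← Finset.mul_sum] at h6
  have h7 := Finset.add_sum_erase (out T) (fun i => eps (vT z T) ((4 / 3 : ℝ) • z i)) hi4
  have h8 := Finset.add_sum_erase (out T) (fun i => ‖z i‖ ^ 2) hi4
  have hn : ∀ w : E, ‖(4 / 3 : ℝ) • w‖ ^ 2 = 16 / 9 * ‖w‖ ^ 2 := by
    intro w
    rw [norm_smul, mul_pow]
    norm_num
  rw [hn] at h3 h5
  have h9 := hz.gt
  have h10 := hz.em
  linarith

/-- near-propeller, four cells -/
theorem near4 {z : ι → E} (hz : Crit z) {T : Fin 3 → ι}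
    (hT : Function.Injective T) {i4 : ι} (hi4 : out T = {i4})
    (h : eps (vT z T) ((4 / 3 : ℝ) • z i4) ≤ 2 / 3 * ‖z i4‖ ^ 2) : False := by
  have h1 := EM_split (z := z) T
  have h2 := SQ_vT hT hz.sum_zero
  have hu : zU z T = z i4 := by
    unfold zU
    rw [hi4, Finset.sum_singleton]
  rw [hu, hi4, Finset.sum_singleton] at h1 h2
  have h3 := pen_nonneg (vT z T)
  have h9 := hz.gt
  have h10 := hz.em
  linarith

end

end

end Near

end GP

end Vale.Agent.P226
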