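import Mathlib
import Vale.Agent.P226.Sidak
import Vale.Agent.P226.Merge

/-!
# P226: reduction of the propeller inequality to the expected maximum of Gaussian variables
-/

open MeasureTheory Set ProbabilityTheory
open scoped RealInnerProductSpace

namespace Vale.Agent.P226

namespace GP

set_option linter.unusedSectionVars false

noncomputable section

variable {E : Type*} [NormedAddCommGroup E] [InnerProductSpace ℝ E] [FiniteDimensional ℝ E]
  [MeasurableSpace E] [BorelSpace E]

/-- the conjectured constant -/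
def CC : ℝ := 9 / (8 * Real.pi)

lemma CC_pos : 0 < CC := by unfold CC; have := Real.pi_pos; positivity

section mx

variable {ι : Type*} [Fintype ι] [Nonempty ι]

/-- the maximum of the linear functionals `⟪·, z i⟫` -/
def mx (z : ι → E) (x : E) : ℝ :=
  Finset.univ.sup' Finset.univ_nonempty (fun i => ⟪x, z i⟫)

omit [FiniteDimensional ℝ E] [MeasurableSpace E] [BorelSpace E] in
lemma inner_le_mx (z : ι → E) (x : E) (i : ι) : ⟪x, z i⟫ ≤ mx z x :=
  Finset.le_sup' (fun i => ⟪x, z i⟫) (Finset.mem_univ i)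

omit [FiniteDimensional ℝ E] [MeasurableSpace E] [BorelSpace E] in
lemma mx_le (z : ι → E) (x : E) {t : ℝ} (h : ∀ i, ⟪x, z i⟫ ≤ t) : mx z x ≤ t :=
  Finset.sup'_le _ _ (fun i _ => h i)

omit [FiniteDimensional ℝ E] [MeasurableSpace E] [BorelSpace E] in
lemma exists_mx (z : ι → E) (x : E) : ∃ i, mx z x = ⟪x, z i⟫ := by
  obtain ⟨i, _, h⟩ := Finset.exists_mem_eq_sup' (Finset.univ_nonempty (α := ι))
    (fun i => ⟪x, z i⟫)
  exact ⟨i, h⟩

omit [FiniteDimensional ℝ E] [MeasurableSpace E] [BorelSpace E] in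
lemma continuous_mx (z : ι → E) : Continuous (mx z) := by
  unfold mx
  apply Continuous.finset_sup'_apply
  intro i _
  fun_prop

omit [FiniteDimensional ℝ E] [MeasurableSpace E] [BorelSpace E] in
lemma mx_le_mx_add (z z' : ι → E) (x : E) :
    mx z x ≤ mx z' x + (∑ i, ‖z i - z' i‖) * ‖x‖ := by
  apply mx_le
  intro i
  have h1 := inner_le_mx z' x i
  have h2 : ⟪x, z i⟫ = ⟪x, z' i⟫ + ⟪x, z i - z' i⟫ := by rw [inner_sub_right]; ring
  have h3 : ⟪x, z i - z' i⟫ ≤ ‖x‖ * ‖z i - z' i‖ := real_inner_le_norm _ _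
  have h4 : ‖z i - z' i‖ ≤ ∑ i, ‖z i - z' i‖ :=
    Finset.single_le_sum (f := fun i => ‖z i - z' i‖) (fun _ _ => norm_nonneg _)
      (Finset.mem_univ i)
  have h5 : ‖z i - z' i‖ * ‖x‖ ≤ (∑ i, ‖z i - z' i‖) * ‖x‖ :=
    mul_le_mul_of_nonneg_right h4 (norm_nonneg _)
  rw [h2]
  linarith

omit [FiniteDimensional ℝ E] [MeasurableSpace E] [BorelSpace E] in
lemma abs_mx_sub_le (z z' : ι → E) (x : E) :
    |mx z x - mx z' x| ≤ (∑ i, ‖z i - z' i‖) * ‖x‖ := by
  rw [abs_le]
  have h1 := mx_le_mx_add z z' x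
  have h2 := mx_le_mx_add z' z x
  have e : ∑ i, ‖z' i - z i‖ = ∑ i, ‖z i - z' i‖ :=
    Finset.sum_congr rfl (fun i _ => norm_sub_rev _ _)
  rw [e] at h2
  constructor <;> linarith

lemma integrable_norm_std : Integrable (fun x : E => ‖x‖) (stdGaussian E) :=
  (IsGaussian.integrable_id (μ := stdGaussian E)).norm

lemma integrable_inner_std (v : E) : Integrable (fun x : E => ⟪x, v⟫) (stdGaussian E) :=
  (IsGaussian.integrable_id (μ := stdGaussian E)).inner_const v

lemma integral_inner_std (v : E) : ∫ x, ⟪x, v⟫ ∂(stdGaussian E) = 0 := by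
  have h := integral_inner (𝕜 := ℝ) (IsGaussian.integrable_id (μ := stdGaussian E)) v
  simp only [id] at h
  have e : ∀ x : E, ⟪x, v⟫ = ⟪v, x⟫ := fun x => real_inner_comm _ _
  simp only [e]
  rw [h, integral_id_stdGaussian, inner_zero_right]

lemma integrable_mx (z : ι → E) : Integrable (mx z) (stdGaussian E) := by
  apply ((integrable_norm_std (E := E)).const_mul (∑ i, ‖z i‖)).mono'
    (continuous_mx z).aestronglyMeasurable
  refine Filter.Eventually.of_forall (fun x => ?_)
  have h := abs_mx_sub_le z (fun _ => 0) x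
  have h0 : mx (fun _ : ι => (0 : E)) x = 0 := by
    obtain ⟨i, hi⟩ := exists_mx (fun _ : ι => (0 : E)) x
    rw [hi, inner_zero_right]
  rw [h0] at h
  simpa using h

/-- expected maximum -/
def EM (z : ι → E) : ℝ := ∫ x, mx z x ∂(stdGaussian E)

/-- sum of squares -/
def SQ {ι : Type*} [Fintype ι] (z : ι → E) : ℝ := ∑ i, ‖z i‖ ^ 2

omit [InnerProductSpace ℝ E] [FiniteDimensional ℝ E] [MeasurableSpace E] [BorelSpace E]
  [Nonempty ι] in
lemma SQ_nonneg (z : ι → E) : 0 ≤ SQ z := Finset.sum_nonneg (fun _ _ => by positivity)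

lemma EM_smul (z : ι → E) {c : ℝ} (hc : 0 ≤ c) : EM (fun i => c • z i) = c * EM z := by
  unfold EM
  rw [← integral_const_mul]
  congr 1
  ext x
  apply le_antisymm
  · apply mx_le
    intro i
    rw [inner_smul_right]
    exact mul_le_mul_of_nonneg_left (inner_le_mx z x i) hc
  · obtain ⟨i, hi⟩ := exists_mx z x
    rw [hi]
    have := inner_le_mx (fun i => c • z i) x i
    rwa [inner_smul_right] at this

omit [FiniteDimensional ℝ E] [MeasurableSpace E] [BorelSpace E] in
lemma mx_add_const (z : ι → E) (u x : E) : mx (fun i => z i + u) x = mx z x + ⟪x, u⟫ := by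
  apply le_antisymm
  · apply mx_le
    intro i
    rw [inner_add_right]
    have := inner_le_mx z x i
    linarith
  · obtain ⟨i, hi⟩ := exists_mx z x
    rw [hi]
    have := inner_le_mx (fun i => z i + u) x i
    rwa [inner_add_right] at this

lemma EM_add_const (z : ι → E) (u : E) : EM (fun i => z i + u) = EM z := by
  unfold EM
  simp only [mx_add_const]
  rw [integral_add (integrable_mx z) (integrable_inner_std u), integral_inner_std, add_zero]

lemma EM_nonneg (z : ι → E) : 0 ≤ EM z := by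
  obtain ⟨i⟩ := (inferInstance : Nonempty ι)
  have h : ∫ x, ⟪x, z i⟫ ∂(stdGaussian E) ≤ EM z :=
    integral_mono (integrable_inner_std _) (integrable_mx z) (fun x => inner_le_mx z x i)
  rwa [integral_inner_std] at h

lemma abs_EM_sub_le (z z' : ι → E) :
    |EM z - EM z'| ≤ (∑ i, ‖z i - z' i‖) * ∫ x, ‖x‖ ∂(stdGaussian E) := by
  unfold EM
  rw [← integral_sub (integrable_mx z) (integrable_mx z'), ← integral_const_mul]
  refine (abs_integral_le_integral_abs).trans ?_
  apply integral_mono ((integrable_mx z).sub (integrable_mx z')).abs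
    (integrable_norm_std.const_mul _)
  intro x
  exact abs_mx_sub_le z z' x

lemma continuous_EM : Continuous (EM : (ι → E) → ℝ) := by
  rw [continuous_iff_continuousAt]
  intro z'
  rw [ContinuousAt, tendsto_iff_norm_sub_tendsto_zero]
  have h : Filter.Tendsto (fun z : ι → E => (∑ i, ‖z i - z' i‖) * ∫ x, ‖x‖ ∂(stdGaussian E))
      (nhds z') (nhds 0) := by
    have : Continuous (fun z : ι → E => (∑ i, ‖z i - z' i‖) * ∫ x, ‖x‖ ∂(stdGaussian E)) := by
      fun_prop
    have h2 := this.tendsto z'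
    simpa using h2
  exact squeeze_zero (fun _ => norm_nonneg _) (fun z => by
    rw [Real.norm_eq_abs]; exact abs_EM_sub_le z z') h

end mx

/-- the inequality for `k` vectors -/
def PK (E : Type*) [NormedAddCommGroup E] [InnerProductSpace ℝ E] [FiniteDimensional ℝ E]
    [MeasurableSpace E] [BorelSpace E] (k : ℕ) : Prop :=
  ∀ (ι : Type) [Fintype ι] [Nonempty ι], Fintype.card ι = k → ∀ z : ι → E,
    EM z ≤ √CC * √(SQ z)

lemma sum_setIntegral {ι : Type*} [Fintype ι] {F : Type*} [NormedAddCommGroup F]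
    [NormedSpace ℝ F] {A : ι → Set E} (hm : ∀ i, MeasurableSet (A i))
    (hd : Pairwise (Function.onFun (AEDisjoint (stdGaussian E)) A))
    (hc : stdGaussian E (⋃ i, A i)ᶜ = 0) {f : E → F} (hf : Integrable f (stdGaussian E)) :
    ∑ i, ∫ x in A i, f x ∂(stdGaussian E) = ∫ x, f x ∂(stdGaussian E) := by
  have h := integral_iUnion_ae (f := f) (μ := stdGaussian E) (s := A)
    (fun i => (hm i).nullMeasurableSet) hd hf.integrableOn
  rw [tsum_fintype] at h
  rw [← h]
  have h2 : ((⋃ i, A i : Set E)) =ᵐ[stdGaussian E] (univ : Set E) := by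
    rw [ae_eq_univ]
    exact hc
  rw [setIntegral_congr_set h2, setIntegral_univ]

lemma inner_setIntegral (A : Set E) (w : E) :
    ⟪w, ∫ x in A, x ∂(stdGaussian E)⟫ = ∫ x in A, ⟪x, w⟫ ∂(stdGaussian E) := by
  have h := integral_inner (𝕜 := ℝ) ((IsGaussian.integrable_id (μ := stdGaussian E)).integrableOn
    (s := A)) w
  simp only [id] at h
  rw [← h]
  congr 1
  ext x
  exact real_inner_comm _ _

/-- a partition gives a lower bound for the expected maximum -/
lemma SQ_moment_le_EM {ι : Type*} [Fintype ι] [Nonempty ι] {A : ι → Set E}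
    (hm : ∀ i, MeasurableSet (A i))
    (hd : Pairwise (Function.onFun (AEDisjoint (stdGaussian E)) A))
    (hc : stdGaussian E (⋃ i, A i)ᶜ = 0) (w : ι → E) :
    ∑ i, ⟪w i, ∫ x in A i, x ∂(stdGaussian E)⟫ ≤ EM w := by
  unfold EM
  rw [← sum_setIntegral hm hd hc (integrable_mx w)]
  apply Finset.sum_le_sum
  intro i _
  rw [inner_setIntegral]
  apply integral_mono_ae (integrable_inner_std _).integrableOn (integrable_mx w).integrableOn
  exact Filter.Eventually.of_forall (fun x => inner_le_mx w x i)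

/-- (A) partition form -/
theorem partition_of_PK {ι : Type} [Fintype ι] (h : Nonempty ι → PK E (Fintype.card ι))
    {A : ι → Set E} (hm : ∀ i, MeasurableSet (A i))
    (hd : Pairwise (Function.onFun (AEDisjoint (stdGaussian E)) A))
    (hc : stdGaussian E (⋃ i, A i)ᶜ = 0) :
    ∑ i, ‖∫ x in A i, x ∂(stdGaussian E)‖ ^ 2 ≤ CC := by
  rcases isEmpty_or_nonempty ι with he | hne
  · simp [CC_pos.le]
  set w : ι → E := fun i => ∫ x in A i, x ∂(stdGaussian E) with hw
  have h1 := SQ_moment_le_EM hm hd hc w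
  have h2 := h hne ι rfl w
  have h3 : ∑ i, ⟪w i, ∫ x in A i, x ∂(stdGaussian E)⟫ = SQ w := by
    unfold SQ
    apply Finset.sum_congr rfl
    intro i _
    exact real_inner_self_eq_norm_sq _
  rw [h3] at h1
  have h4 : SQ w ≤ √CC * √(SQ w) := h1.trans h2
  have h5 := SQ_nonneg w
  have h6 : √(SQ w) * √(SQ w) = SQ w := Real.mul_self_sqrt h5
  have h7 : √CC * √CC = CC := Real.mul_self_sqrt CC_pos.le
  show SQ w ≤ CC
  rcases eq_or_lt_of_le (Real.sqrt_nonneg (SQ w)) with h8 | h8
  · rw [← h6, ← h8]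
    simp [CC_pos.le]
  · have h9 : √(SQ w) ≤ √CC := by
      have : √(SQ w) * √(SQ w) ≤ √CC * √(SQ w) := by rw [h6]; exact h4
      exact le_of_mul_le_mul_right this h8
    rw [← h6, ← h7]
    exact mul_self_le_mul_self h8.le h9

end

end GP

end Vale.Agent.P226
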