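import Vale.Agent.P226.JetPhi

/-!
# P226: smoothing by threefold sliding averages
-/

noncomputable section

namespace Vale.Agent.P226.EhrPhi

open MeasureTheory ProbabilityTheory Set Filter Topology
open scoped NNReal

/-- sliding average over `[x, x + ε]` -/
def sav (ε : ℝ) (φ : ℝ → ℝ) (x : ℝ) : ℝ := ε⁻¹ * ∫ t in x..(x + ε), φ t

/-- difference quotient -/
def dq (ε : ℝ) (φ : ℝ → ℝ) (x : ℝ) : ℝ := ε⁻¹ * (φ (x + ε) - φ x)

lemma sav_eq {ε : ℝ} (hε : 0 < ε) (φ : ℝ → ℝ) (x : ℝ) :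
    sav ε φ x = ∫ a in (0 : ℝ)..1, φ (x + ε * a) := by
  have h := intervalIntegral.integral_comp_add_mul (a := 0) (b := 1) (f := φ) hε.ne' x
  rw [h, smul_eq_mul, mul_zero, mul_one, add_zero]
  rfl

lemma hasDerivAt_sav {φ : ℝ → ℝ} (hc : Continuous φ) (ε x : ℝ) :
    HasDerivAt (sav ε φ) (dq ε φ x) x := by
  have hi : ∀ a b, IntervalIntegrable φ volume a b := fun a b => hc.intervalIntegrable a b
  have hd : ∀ y, HasDerivAt (fun y => ∫ t in (0 : ℝ)..y, φ t) (φ y) y := fun y =>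
    intervalIntegral.integral_hasDerivAt_right (hi _ _) (hc.stronglyMeasurableAtFilter _ _)
      hc.continuousAt
  have h1 : HasDerivAt (fun y => ∫ t in (0 : ℝ)..(y + ε), φ t) (φ (x + ε)) x := by
    have := (hd (x + ε)).comp x ((hasDerivAt_id x).add_const ε)
    rw [mul_one] at this
    exact this
  have h2 := (h1.sub (hd x)).const_mul ε⁻¹
  have e : sav ε φ = fun y => ε⁻¹ * ((∫ t in (0 : ℝ)..(y + ε), φ t) - ∫ t in (0 : ℝ)..y, φ t) := by
    funext y
    unfold sav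
    rw [intervalIntegral.integral_interval_sub_left (hi _ _) (hi _ _)]
  rw [e]
  exact h2

lemma hasDerivAt_dq {φ φ' : ℝ → ℝ} (h : ∀ x, HasDerivAt φ (φ' x) x) (ε x : ℝ) :
    HasDerivAt (dq ε φ) (dq ε φ' x) x := by
  have h1 := (h (x + ε)).comp x ((hasDerivAt_id x).add_const ε)
  rw [mul_one] at h1
  exact (h1.sub (h x)).const_mul ε⁻¹

lemma continuous_sav {φ : ℝ → ℝ} (hc : Continuous φ) (ε : ℝ) : Continuous (sav ε φ) :=
  continuous_iff_continuousAt.mpr fun x => (hasDerivAt_sav hc ε x).continuousAt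

lemma continuous_dq {φ : ℝ → ℝ} (hc : Continuous φ) (ε : ℝ) : Continuous (dq ε φ) := by
  unfold dq; fun_prop

lemma abs_dq_le {φ : ℝ → ℝ} {K ε : ℝ} (hε : 0 < ε) (hb : ∀ x, |φ x| ≤ K) (x : ℝ) :
    |dq ε φ x| ≤ 2 / ε * K := by
  unfold dq
  rw [abs_mul, abs_of_pos (inv_pos.mpr hε), div_eq_mul_inv, mul_comm 2, mul_assoc]
  apply mul_le_mul_of_nonneg_left _ (inv_pos.mpr hε).le
  have := abs_sub (φ (x + ε)) (φ x)
  linarith [hb (x + ε), hb x]

/-- averages stay close to a constant -/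
lemma sav_near {φ : ℝ → ℝ} {ε c η a b : ℝ} (hε : 0 < ε) (hc : Continuous φ)
    (h : ∀ x ∈ Icc a (b + ε), |φ x - c| ≤ η) : ∀ x ∈ Icc a b, |sav ε φ x - c| ≤ η := by
  intro x hx
  rw [sav_eq hε]
  have e : (∫ a in (0 : ℝ)..1, φ (x + ε * a)) - c = ∫ a in (0 : ℝ)..1, (φ (x + ε * a) - c) := by
    rw [intervalIntegral.integral_sub]
    · simp
    · exact (by fun_prop : Continuous fun a => φ (x + ε * a)).intervalIntegrable _ _
    · exact intervalIntegrable_const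
  rw [e]
  have := intervalIntegral.norm_integral_le_of_norm_le_const (a := 0) (b := 1)
    (f := fun a => φ (x + ε * a) - c) (C := η) (by
      intro t ht
      rw [uIoc_of_le zero_le_one] at ht
      apply h
      constructor
      · nlinarith [hx.1, ht.1]
      · nlinarith [hx.2, ht.2])
  simpa using this

lemma abs_sav_le {φ : ℝ → ℝ} {ε K : ℝ} (hε : 0 < ε) (hc : Continuous φ) (hb : ∀ x, |φ x| ≤ K)
    (x : ℝ) : |sav ε φ x| ≤ K := by
  have := sav_near (c := 0) (η := K) (a := x) (b := x) hε hc (fun y _ => by simpa using hb y) x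
    ⟨le_rfl, le_rfl⟩
  simpa using this

/-- the three function inequality is preserved -/
lemma sav_ineq {φ1 φ2 φ3 : ℝ → ℝ} {ε l : ℝ} (hε : 0 < ε) (h1 : Continuous φ1)
    (h2 : Continuous φ2) (h3 : Continuous φ3)
    (h : ∀ x y, (1 - l) * φ1 x + l * φ2 y ≤ φ3 ((1 - l) * x + l * y)) :
    ∀ x y, (1 - l) * sav ε φ1 x + l * sav ε φ2 y ≤ sav ε φ3 ((1 - l) * x + l * y) := by
  intro x y
  rw [sav_eq hε, sav_eq hε, sav_eq hε, ← intervalIntegral.integral_const_mul,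
    ← intervalIntegral.integral_const_mul, ← intervalIntegral.integral_add]
  · apply intervalIntegral.integral_mono_on zero_le_one
    · exact (by fun_prop : Continuous fun a =>
        (1 - l) * φ1 (x + ε * a) + l * φ2 (y + ε * a)).intervalIntegrable _ _
    · exact (by fun_prop : Continuous fun a =>
        φ3 ((1 - l) * x + l * y + ε * a)).intervalIntegrable _ _
    · intro a _
      have := h (x + ε * a) (y + ε * a)
      rw [show (1 - l) * (x + ε * a) + l * (y + ε * a) = (1 - l) * x + l * y + ε * a by ring]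
        at this
      exact this
  · exact (by fun_prop : Continuous fun a => (1 - l) * φ1 (x + ε * a)).intervalIntegrable _ _
  · exact (by fun_prop : Continuous fun a => l * φ2 (y + ε * a)).intervalIntegrable _ _

/-- threefold average -/
def sm (ε : ℝ) (φ : ℝ → ℝ) : ℝ → ℝ := sav ε (sav ε (sav ε φ))

lemma continuous_sm {φ : ℝ → ℝ} (hc : Continuous φ) (ε : ℝ) : Continuous (sm ε φ) :=
  continuous_sav (continuous_sav (continuous_sav hc ε) ε) ε

lemma abs_sm_le {φ : ℝ → ℝ} {ε K : ℝ} (hε : 0 < ε) (hc : Continuous φ) (hb : ∀ x, |φ x| ≤ K)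
    (x : ℝ) : |sm ε φ x| ≤ K :=
  abs_sav_le hε (continuous_sav (continuous_sav hc ε) ε)
    (abs_sav_le hε (continuous_sav hc ε) (abs_sav_le hε hc hb)) x

lemma sm_ineq {φ1 φ2 φ3 : ℝ → ℝ} {ε l : ℝ} (hε : 0 < ε) (h1 : Continuous φ1)
    (h2 : Continuous φ2) (h3 : Continuous φ3)
    (h : ∀ x y, (1 - l) * φ1 x + l * φ2 y ≤ φ3 ((1 - l) * x + l * y)) :
    ∀ x y, (1 - l) * sm ε φ1 x + l * sm ε φ2 y ≤ sm ε φ3 ((1 - l) * x + l * y) :=
  sav_ineq hε (continuous_sav (continuous_sav h1 ε) ε) (continuous_sav (continuous_sav h2 ε) ε)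
    (continuous_sav (continuous_sav h3 ε) ε)
    (sav_ineq hε (continuous_sav h1 ε) (continuous_sav h2 ε) (continuous_sav h3 ε)
      (sav_ineq hε h1 h2 h3 h))

/-- the constant of the jet -/
def smC (ε K : ℝ) : ℝ := 2 / ε * K + 2 / ε * (2 / ε * K) + 2 / ε * (2 / ε * (2 / ε * K))

lemma sm_jet {φ : ℝ → ℝ} {ε K : ℝ} (hε : 0 < ε) (hc : Continuous φ) (hb : ∀ x, |φ x| ≤ K) :
    Jet (smC ε K) (sm ε φ) (dq ε (sav ε (sav ε φ))) (dq ε (dq ε (sav ε φ))) := by
  have hK : 0 ≤ K := (abs_nonneg _).trans (hb 0)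
  have c1 : 0 ≤ 2 / ε * K := by positivity
  have c2 : 0 ≤ 2 / ε * (2 / ε * K) := by positivity
  have c3 : 0 ≤ 2 / ε * (2 / ε * (2 / ε * K)) := by positivity
  have k1 := continuous_sav hc ε
  have k2 := continuous_sav k1 ε
  have b1 := abs_sav_le hε hc hb
  have b2 := abs_sav_le hε k1 b1
  have d0 : ∀ x, HasDerivAt (sm ε φ) (dq ε (sav ε (sav ε φ)) x) x := hasDerivAt_sav k2 ε
  have d1 : ∀ x, HasDerivAt (dq ε (sav ε (sav ε φ))) (dq ε (dq ε (sav ε φ)) x) x :=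
    hasDerivAt_dq (hasDerivAt_sav k1 ε) ε
  have d2 : ∀ x, HasDerivAt (dq ε (dq ε (sav ε φ))) (dq ε (dq ε (dq ε φ)) x) x :=
    hasDerivAt_dq (hasDerivAt_dq (hasDerivAt_sav hc ε) ε) ε
  have b3 := abs_dq_le hε (abs_dq_le hε (abs_dq_le hε hb))
  refine ⟨continuous_sm hc ε, continuous_dq k2 ε, continuous_dq (continuous_dq k1 ε) ε, ?_, ?_, ?_⟩
  · intro x
    refine (abs_dq_le hε b2 x).trans ?_
    unfold smC; linarith
  · intro x
    refine (abs_dq_le hε (abs_dq_le hε b1) x).trans ?_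
    unfold smC; linarith
  · intro x h
    have ht := taylor_of_deriv (a := min x (x + h)) (b := max x (x + h)) (p := x) (q := x + h)
      (fun y _ => d0 y) (fun y _ => d1 y) (fun y _ => d2 y) (fun y _ => b3 y)
      ⟨min_le_left _ _, le_max_left _ _⟩ ⟨min_le_right _ _, le_max_right _ _⟩
    rw [add_sub_cancel_left] at ht
    refine ht.trans (mul_le_mul_of_nonneg_right ?_ (by positivity))
    unfold smC; linarith

lemma sm_tendsto {φ : ℝ → ℝ} (hc : Continuous φ) (x : ℝ) :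
    Tendsto (fun ε => sm ε φ x) (𝓝[>] 0) (𝓝 (φ x)) := by
  rw [Metric.tendsto_nhds]
  intro η hη
  obtain ⟨δ, hδ, hδ2⟩ := Metric.continuousAt_iff.mp (hc.continuousAt (x := x)) (η / 2) (by positivity)
  have hmem : Ioo (0 : ℝ) (δ / 3) ∈ 𝓝[>] (0 : ℝ) := Ioo_mem_nhdsGT (by positivity)
  filter_upwards [hmem] with ε hε
  have h0 : ∀ y ∈ Icc x (x + ε + ε + ε), |φ y - φ x| ≤ η / 2 := by
    intro y hy
    have h3 : dist y x < δ := by
      rw [Real.dist_eq, abs_lt]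
      constructor <;> linarith [hy.1, hy.2, hε.1, hε.2]
    have := hδ2 h3
    rw [Real.dist_eq] at this
    exact this.le
  have k1 := continuous_sav hc ε
  have k2 := continuous_sav k1 ε
  have h1 := sav_near hε.1 hc h0
  have h2 := sav_near hε.1 k1 h1
  have h3 := sav_near hε.1 k2 h2 x ⟨le_rfl, le_rfl⟩
  rw [Real.dist_eq]
  exact h3.trans_lt (by linarith)

lemma TT_sm_tendsto {φ : ℝ → ℝ} {K : ℝ} (hc : Continuous φ) (hb : ∀ x, |φ x| ≤ K) (s : ℝ≥0)
    (x : ℝ) : Tendsto (fun ε => TT s (sm ε φ) x) (𝓝[>] 0) (𝓝 (TT s φ x)) := by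
  have hmem := Icc_Phi_subset K (gav_Phi_mem hc hb s x)
  have h1 : Tendsto (fun ε => gav s (fun y => Phi (sm ε φ y)) x) (𝓝[>] 0)
      (𝓝 (gav s (fun y => Phi (φ y)) x)) := by
    unfold gav
    apply tendsto_integral_filter_of_dominated_convergence (fun _ => (1 : ℝ))
    · filter_upwards with ε
      have := continuous_sm hc ε
      exact (by fun_prop : Continuous fun y => Phi (sm ε φ (x + y))).aestronglyMeasurable
    · filter_upwards with ε
      exact ae_of_all _ fun y => abs_Phi_le _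
    · exact integrable_const _
    · exact ae_of_all _ fun y => (continuous_Phi.tendsto _).comp (sm_tendsto hc (x + y))
  exact (continuousAt_PhiInv hmem).tendsto.comp h1

/-- reduction of the one dimensional inequality for continuous functions to functions with jets -/
theorem ehr1_of_jet {l : ℝ}
    (H : ∀ (K B : ℝ) (φ1 φ2 φ3 φ11 φ12 φ21 φ22 φ31 φ32 : ℝ → ℝ), Jet B φ1 φ11 φ12 →
      Jet B φ2 φ21 φ22 → Jet B φ3 φ31 φ32 → (∀ x, |φ1 x| ≤ K) → (∀ x, |φ2 x| ≤ K) →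
      (∀ x, |φ3 x| ≤ K) → (∀ x y, (1 - l) * φ1 x + l * φ2 y ≤ φ3 ((1 - l) * x + l * y)) →
      (1 - l) * TT 1 φ1 0 + l * TT 1 φ2 0 ≤ TT 1 φ3 0)
    {K : ℝ} {φ1 φ2 φ3 : ℝ → ℝ} (h1 : Continuous φ1) (h2 : Continuous φ2) (h3 : Continuous φ3)
    (b1 : ∀ x, |φ1 x| ≤ K) (b2 : ∀ x, |φ2 x| ≤ K) (b3 : ∀ x, |φ3 x| ≤ K)
    (h : ∀ x y, (1 - l) * φ1 x + l * φ2 y ≤ φ3 ((1 - l) * x + l * y)) :
    (1 - l) * TT 1 φ1 0 + l * TT 1 φ2 0 ≤ TT 1 φ3 0 := by
  have t1 := TT_sm_tendsto h1 b1 1 0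
  have t2 := TT_sm_tendsto h2 b2 1 0
  have t3 := TT_sm_tendsto h3 b3 1 0
  refine le_of_tendsto_of_tendsto ((t1.const_mul (1 - l)).add (t2.const_mul l)) t3 ?_
  filter_upwards [self_mem_nhdsWithin] with ε hε
  exact H K (smC ε K) _ _ _ _ _ _ _ _ _ (sm_jet hε h1 b1) (sm_jet hε h2 b2) (sm_jet hε h3 b3)
    (abs_sm_le hε h1 b1) (abs_sm_le hε h2 b2) (abs_sm_le hε h3 b3) (sm_ineq hε h1 h2 h3 h)

end Vale.Agent.P226.EhrPhi
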