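import Vale.Agent.P226.GPhi

/-!
# P226: tensorisation of the one-dimensional Ehrhard inequality (functional form)
-/

noncomputable section

namespace Vale.Agent.P226.EhrM

open MeasureTheory ProbabilityTheory Set Filter Topology
open Vale.Agent.P226.EhrPhi

/-- the one-dimensional functional Ehrhard inequality for continuous bounded functions -/
def Ehr1 : Prop := ∀ (lam K : ℝ), 0 ≤ lam → lam ≤ 1 → ∀ φ1 φ2 φ3 : ℝ → ℝ,
  Continuous φ1 → Continuous φ2 → Continuous φ3 →
  (∀ x, |φ1 x| ≤ K) → (∀ x, |φ2 x| ≤ K) → (∀ x, |φ3 x| ≤ K) →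
  (∀ x y, (1 - lam) * φ1 x + lam * φ2 y ≤ φ3 ((1 - lam) * x + lam * y)) →
  (1 - lam) * PhiInv (∫ x, Phi (φ1 x) ∂(gaussianReal 0 1))
    + lam * PhiInv (∫ x, Phi (φ2 x) ∂(gaussianReal 0 1))
    ≤ PhiInv (∫ x, Phi (φ3 x) ∂(gaussianReal 0 1))

/-- product Gaussian measure -/
abbrev gpi (n : ℕ) : Measure (Fin n → ℝ) := Measure.pi (fun _ : Fin n => gaussianReal 0 1)

/-- the `n`-dimensional functional Ehrhard inequality for continuous bounded functions -/
def EhrN (n : ℕ) : Prop := ∀ (lam K : ℝ), 0 ≤ lam → lam ≤ 1 → ∀ φ1 φ2 φ3 : (Fin n → ℝ) → ℝ,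
  Continuous φ1 → Continuous φ2 → Continuous φ3 →
  (∀ x, |φ1 x| ≤ K) → (∀ x, |φ2 x| ≤ K) → (∀ x, |φ3 x| ≤ K) →
  (∀ x y, (1 - lam) * φ1 x + lam * φ2 y ≤ φ3 ((1 - lam) • x + lam • y)) →
  (1 - lam) * PhiInv (∫ x, Phi (φ1 x) ∂(gpi n))
    + lam * PhiInv (∫ x, Phi (φ2 x) ∂(gpi n))
    ≤ PhiInv (∫ x, Phi (φ3 x) ∂(gpi n))

lemma abs_Phi_le (x : ℝ) : |Phi x| ≤ 1 := by
  rw [abs_of_pos (Phi_pos x)]
  exact (Phi_lt_one x).le

section

variable {X : Type*} [MeasurableSpace X] {μ : Measure X} [IsProbabilityMeasure μ]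

lemma integrable_Phi {φ : X → ℝ} (h : Measurable φ) : Integrable (fun x => Phi (φ x)) μ :=
  Integrable.of_bound (continuous_Phi.measurable.comp h).aestronglyMeasurable 1
    (ae_of_all _ fun x => abs_Phi_le _)

lemma integral_Phi_mem_Icc {φ : X → ℝ} (h : Measurable φ) {K : ℝ} (hK : ∀ x, |φ x| ≤ K) :
    ∫ x, Phi (φ x) ∂μ ∈ Icc (Phi (-K)) (Phi K) := by
  have hi := integrable_Phi (μ := μ) h
  constructor
  · have := integral_mono (μ := μ) (integrable_const (Phi (-K))) hi
      (fun x => strictMono_Phi.monotone (abs_le.mp (hK x)).1)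
    simpa using this
  · have := integral_mono (μ := μ) hi (integrable_const (Phi K))
      (fun x => strictMono_Phi.monotone (abs_le.mp (hK x)).2)
    simpa using this

lemma Icc_subset_Ioo (K : ℝ) : Icc (Phi (-K)) (Phi K) ⊆ Ioo (0 : ℝ) 1 := fun _ h =>
  ⟨(Phi_pos _).trans_le h.1, h.2.trans_lt (Phi_lt_one _)⟩

lemma abs_PhiInv_le {p K : ℝ} (h : p ∈ Icc (Phi (-K)) (Phi K)) : |PhiInv p| ≤ K := by
  have hp := Icc_subset_Ioo K h
  rw [abs_le]
  exact ⟨(le_PhiInv_iff hp).mpr h.1, (PhiInv_le_iff' hp).mpr h.2⟩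

lemma integral_Phi_mem_Ioo {φ : X → ℝ} (h : Measurable φ) :
    ∫ x, Phi (φ x) ∂μ ∈ Ioo (0 : ℝ) 1 := by
  have hi := integrable_Phi (μ := μ) h
  constructor
  · apply (integral_pos_iff_support_of_nonneg (fun x => (Phi_pos _).le) hi).mpr
    have : Function.support (fun x => Phi (φ x)) = univ := by
      ext x; simp [(Phi_pos (φ x)).ne']
    rw [this]; simp
  · have h2 : 0 < ∫ x, (1 - Phi (φ x)) ∂μ := by
      have hi2 : Integrable (fun x => 1 - Phi (φ x)) μ := (integrable_const 1).sub hi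
      apply (integral_pos_iff_support_of_nonneg
        (fun x => by simpa using (Phi_lt_one (φ x)).le) hi2).mpr
      have : Function.support (fun x => 1 - Phi (φ x)) = univ := by
        ext x
        have := Phi_lt_one (φ x)
        simp only [Function.mem_support, mem_univ, iff_true]
        linarith
      rw [this]; simp
    rw [integral_sub (integrable_const 1) hi] at h2
    simp only [integral_const, probReal_univ, smul_eq_mul, mul_one] at h2
    linarith

end

/-- partial averaging in the first coordinate -/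
def avg {n : ℕ} (φ : (Fin (n + 1) → ℝ) → ℝ) (x : Fin n → ℝ) : ℝ :=
  ∫ s, Phi (φ (Fin.cons s x)) ∂(gaussianReal 0 1)

lemma continuous_cons {n : ℕ} :
    Continuous (fun p : ℝ × (Fin n → ℝ) => (Fin.cons p.1 p.2 : Fin (n + 1) → ℝ)) := by
  apply continuous_pi
  intro i
  refine Fin.cases ?_ ?_ i
  · simp only [Fin.cons_zero]; fun_prop
  · intro j; simp only [Fin.cons_succ]; fun_prop

lemma continuous_avg {n : ℕ} {φ : (Fin (n + 1) → ℝ) → ℝ} (h : Continuous φ) :
    Continuous (avg φ) := by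
  unfold avg
  have hc : Continuous (fun p : ℝ × (Fin n → ℝ) => Phi (φ (Fin.cons p.1 p.2))) :=
    continuous_Phi.comp (h.comp continuous_cons)
  apply continuous_of_dominated (bound := fun _ => 1)
  · intro x
    exact (hc.comp (by fun_prop : Continuous fun s : ℝ => (s, x))).aestronglyMeasurable
  · intro x
    exact ae_of_all _ fun y => abs_Phi_le _
  · exact integrable_const _
  · exact ae_of_all _ fun s => hc.comp (by fun_prop : Continuous fun x : Fin n → ℝ => (s, x))

lemma cons_comb {n : ℕ} (a b s t : ℝ) (x y : Fin n → ℝ) :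
    a • (Fin.cons s x : Fin (n + 1) → ℝ) + b • (Fin.cons t y : Fin (n + 1) → ℝ)
      = (Fin.cons (a * s + b * t) (a • x + b • y) : Fin (n + 1) → ℝ) := by
  ext i
  refine Fin.cases ?_ ?_ i
  · simp
  · intro j; simp

lemma integral_succ {n : ℕ} {φ : (Fin (n + 1) → ℝ) → ℝ} (h : Continuous φ) :
    ∫ x, Phi (φ x) ∂(gpi (n + 1)) = ∫ x, avg φ x ∂(gpi n) := by
  have hmp := (measurePreserving_piFinSuccAbove (fun _ : Fin (n+1) => gaussianReal 0 1) 0).symm
  have h1 := hmp.integral_comp (MeasurableEquiv.piFinSuccAbove (fun _ : Fin (n+1) => ℝ) 0).symm.measurableEmbedding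
    (fun x => Phi (φ x))
  rw [← h1]
  have hcons : ∀ p : ℝ × (Fin n → ℝ),
      (MeasurableEquiv.piFinSuccAbove (fun _ : Fin (n+1) => ℝ) 0).symm p = Fin.cons p.1 p.2 := by
    intro p
    ext i
    refine Fin.cases ?_ ?_ i <;> simp [MeasurableEquiv.piFinSuccAbove]
  have hc : Continuous (fun p : ℝ × (Fin n → ℝ) => Phi (φ (Fin.cons p.1 p.2))) :=
    continuous_Phi.comp (h.comp continuous_cons)
  have hint : Integrable (fun p : ℝ × (Fin n → ℝ) => Phi (φ (Fin.cons p.1 p.2)))
      ((gaussianReal 0 1).prod (gpi n)) :=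
    Integrable.of_bound hc.aestronglyMeasurable 1 (ae_of_all _ fun x => abs_Phi_le _)
  have h2 : (fun p : ℝ × (Fin n → ℝ) =>
      Phi (φ ((MeasurableEquiv.piFinSuccAbove (fun _ : Fin (n+1) => ℝ) 0).symm p)))
      = fun p => Phi (φ (Fin.cons p.1 p.2)) := by
    funext p; rw [hcons]
  rw [h2]
  exact integral_prod_symm _ hint

theorem ehrN (H : Ehr1) (n : ℕ) : EhrN n := by
  induction n with
  | zero =>
    intro lam K _ _ φ1 φ2 φ3 _ _ _ _ _ _ h
    have e : ∀ φ : (Fin 0 → ℝ) → ℝ, ∫ x, Phi (φ x) ∂(gpi 0) = Phi (φ 0) := by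
      intro φ
      have : (fun x : Fin 0 → ℝ => Phi (φ x)) = fun _ => Phi (φ 0) := by
        funext x; rw [Subsingleton.elim x 0]
      rw [this]; simp
    rw [e, e, e, PhiInv_Phi, PhiInv_Phi, PhiInv_Phi]
    have := h 0 0
    simpa using this
  | succ n ih =>
    intro lam K h0 h1 φ1 φ2 φ3 c1 c2 c3 b1 b2 b3 h
    have key : ∀ φ : (Fin (n+1) → ℝ) → ℝ, Continuous φ → (∀ x, |φ x| ≤ K) →
        Continuous (fun x => PhiInv (avg φ x)) ∧ (∀ x, |PhiInv (avg φ x)| ≤ K) ∧
        ∫ x, Phi (φ x) ∂(gpi (n + 1)) = ∫ x, Phi (PhiInv (avg φ x)) ∂(gpi n) := by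
      intro φ c b
      have hmem : ∀ x, avg φ x ∈ Icc (Phi (-K)) (Phi K) := by
        intro x
        unfold avg
        have hm : Measurable (fun s : ℝ => φ (Fin.cons s x)) :=
          (c.comp (continuous_cons.comp (by fun_prop : Continuous fun s : ℝ => (s, x)))).measurable
        exact integral_Phi_mem_Icc hm fun s => b _
      refine ⟨?_, fun x => abs_PhiInv_le (hmem x), ?_⟩
      · rw [continuous_iff_continuousAt]
        intro x
        exact ContinuousAt.comp (f := avg φ) (g := PhiInv)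
          (continuousAt_PhiInv (Icc_subset_Ioo K (hmem x))) (continuous_avg c).continuousAt
      · rw [integral_succ c]
        congr 1
        funext x
        rw [Phi_PhiInv (Icc_subset_Ioo K (hmem x))]
    obtain ⟨k1, k1', e1⟩ := key φ1 c1 b1
    obtain ⟨k2, k2', e2⟩ := key φ2 c2 b2
    obtain ⟨k3, k3', e3⟩ := key φ3 c3 b3
    rw [e1, e2, e3]
    refine ih lam K h0 h1 _ _ _ k1 k2 k3 k1' k2' k3' ?_
    intro x y
    unfold avg
    have cc : ∀ (φ : (Fin (n+1) → ℝ) → ℝ) (x : Fin n → ℝ), Continuous φ →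
        Continuous (fun s : ℝ => φ (Fin.cons s x)) := fun φ x c =>
      c.comp (continuous_cons.comp (by fun_prop : Continuous fun s : ℝ => (s, x)))
    refine H lam K h0 h1 _ _ _ (cc φ1 x c1) (cc φ2 y c2) (cc φ3 _ c3) (fun s => b1 _)
      (fun s => b2 _) (fun s => b3 _) ?_
    intro s t
    have := h (Fin.cons s x) (Fin.cons t y)
    rw [cons_comb] at this
    exact this

end Vale.Agent.P226.EhrM
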